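import Mathlib

/-!
# P162F.Numeric: numerical estimates for the assembly
-/

namespace Vale.Agent.P162F

noncomputable section

theorem exp_129_le : 3 * Real.exp 129 ≤ (2 : ℝ) ^ 200 := by
  have h1 : Real.exp 1 < 2.7182818286 := Real.exp_one_lt_d9
  have h2 : Real.exp 1 ^ 2 ≤ 2 ^ 3 := by nlinarith [Real.exp_pos 1]
  have h3 : Real.exp 129 = (Real.exp 1 ^ 2) ^ 64 * Real.exp 1 := by
    rw [← pow_mul, ← pow_succ, ← Real.exp_nat_mul]
    norm_num
  rw [h3]
  have h4 : (Real.exp 1 ^ 2) ^ 64 ≤ ((2 : ℝ) ^ 3) ^ 64 :=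
    pow_le_pow_left₀ (by positivity) h2 64
  have h5 : (0 : ℝ) < Real.exp 1 := Real.exp_pos 1
  calc 3 * ((Real.exp 1 ^ 2) ^ 64 * Real.exp 1) ≤ 3 * (((2 : ℝ) ^ 3) ^ 64 * 4) := by
        gcongr; linarith
    _ ≤ (2 : ℝ) ^ 200 := by norm_num

theorem exp_130_le : Real.exp 130 ≤ (2 : ℝ) ^ 200 := by
  have h1 : Real.exp 1 < 2.7182818286 := Real.exp_one_lt_d9
  have h3 : Real.exp 130 = Real.exp 129 * Real.exp 1 := by
    rw [← Real.exp_add]; norm_num
  rw [h3]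
  have := exp_129_le
  have h4 : Real.exp 129 * Real.exp 1 ≤ Real.exp 129 * 3 := by
    gcongr; linarith
  linarith

/-- `C(n, s) ≤ (e n / s) ^ s` -/
theorem choose_le_exp (n s : ℕ) (hs : 0 < s) :
    (n.choose s : ℝ) ≤ (Real.exp 1 * (n / s)) ^ s := by
  have h1 : (n.choose s : ℝ) ≤ (n : ℝ) ^ s / (s.factorial : ℝ) := Nat.choose_le_pow_div s n
  have h2 : (s : ℝ) ^ s / (s.factorial : ℝ) ≤ Real.exp s :=
    Real.pow_div_factorial_le_exp (s : ℝ) (Nat.cast_nonneg _) s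
  have hs' : (0 : ℝ) < s := by exact_mod_cast hs
  have hf : (0 : ℝ) < (s.factorial : ℝ) := by exact_mod_cast Nat.factorial_pos s
  have h3 : Real.exp 1 ^ s = Real.exp s := by
    rw [← Real.exp_nat_mul, mul_one]
  calc (n.choose s : ℝ) ≤ (n : ℝ) ^ s / (s.factorial : ℝ) := h1
    _ = ((n : ℝ) / s) ^ s * ((s : ℝ) ^ s / (s.factorial : ℝ)) := by
        rw [div_pow]; field_simp
    _ ≤ ((n : ℝ) / s) ^ s * Real.exp s := by gcongr
    _ = (Real.exp 1 * (n / s)) ^ s := by rw [mul_pow, h3, mul_comm]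

/-- `(k / s) ^ s ≤ C(k, s)` for `k = s * a` -/
theorem pow_le_choose_mul (a s : ℕ) (ha : 1 ≤ a) : a ^ s ≤ (s * a).choose s := by
  -- `C(s a, s) = ∏ (s a - i) / (s - i) ≥ a ^ s`
  have key : ∀ t : ℕ, t ≤ s → a ^ t * s.descFactorial t ≤ (s * a).descFactorial t := by
    intro t
    induction t with
    | zero => intro _; simp
    | succ t ih =>
      intro ht
      rw [Nat.descFactorial_succ, Nat.descFactorial_succ, pow_succ]
      have h1 := ih (by omega)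
      have h2 : a * (s - t) ≤ s * a - t := by
        rw [Nat.mul_sub, Nat.mul_comm a s]
        exact Nat.sub_le_sub_left (Nat.le_mul_of_pos_left t ha) _
      calc a ^ t * a * ((s - t) * s.descFactorial t)
          = (a * (s - t)) * (a ^ t * s.descFactorial t) := by ring
        _ ≤ (s * a - t) * (s * a).descFactorial t := Nat.mul_le_mul h2 h1
  have h := key s le_rfl
  rw [Nat.descFactorial_self, Nat.descFactorial_eq_factorial_mul_choose, Nat.mul_comm (a ^ s)] at h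
  exact Nat.le_of_mul_le_mul_left h (Nat.factorial_pos s)

/-- the low levels -/
theorem low_numeric (n s q K N : ℕ) (hs : 0 < s) (hq : 400 ≤ q) (hK : 1 ≤ K) (hN : 1 ≤ N)
    (h1 : 2 ^ (130 * q) * s ≤ n) (h2 : n < 2 ^ (130 * (q + 1)) * s) :
    ((3 * Real.exp 129 / 2 ^ q) ^ s) ^ (1048 * K * N) *
      ((n.choose s : ℝ) * Real.exp (129 * s)) ≤ (((s : ℝ) / n) ^ (s * N)) ^ 2 := by
  have hs' : (0 : ℝ) < s := by exact_mod_cast hs
  have hn : 0 < n := lt_of_lt_of_le (by positivity) h1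
  have hn' : (0 : ℝ) < n := by exact_mod_cast hn
  have h2' : (n : ℝ) < 2 ^ (130 * (q + 1)) * s := by exact_mod_cast h2
  have h1' : (2 : ℝ) ^ (130 * q) * s ≤ n := by exact_mod_cast h1
  have hsn : (s : ℝ) / n ≤ 1 := by
    rw [div_le_one hn']
    refine le_trans ?_ h1'
    have : (1 : ℝ) ≤ 2 ^ (130 * q) := one_le_pow₀ (by norm_num)
    nlinarith
  -- the base
  set g : ℝ := 3 * Real.exp 129 / 2 ^ q with hg
  have hg0 : 0 ≤ g := by positivity
  have hq2 : (0 : ℝ) < 2 ^ q := by positivity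
  have hg1 : g ^ 2 ≤ ((2 : ℝ) ^ q)⁻¹ := by
    rw [hg, div_pow, div_le_iff₀ (by positivity)]
    have h3 : (3 * Real.exp 129) ^ 2 ≤ ((2 : ℝ) ^ 200) ^ 2 :=
      pow_le_pow_left₀ (by positivity) exp_129_le 2
    have h4 : ((2 : ℝ) ^ 200) ^ 2 ≤ 2 ^ q := by
      rw [← pow_mul]
      exact pow_le_pow_right₀ (by norm_num) (by omega)
    have h5 : ((2 : ℝ) ^ q)⁻¹ * (2 ^ q) ^ 2 = 2 ^ q := by field_simp
    rw [h5]
    exact h3.trans h4
  -- the factor from the number of sets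
  have hC : (n.choose s : ℝ) * Real.exp (129 * s) ≤ ((2 : ℝ) ^ (131 * q)) ^ s := by
    have h3 := choose_le_exp n s hs
    have h4 : Real.exp (129 * s) = Real.exp 129 ^ s := by
      rw [← Real.exp_nat_mul]; ring_nf
    rw [h4]
    calc (n.choose s : ℝ) * Real.exp 129 ^ s ≤ (Real.exp 1 * (n / s)) ^ s * Real.exp 129 ^ s := by
          gcongr
      _ = (Real.exp 130 * (n / s)) ^ s := by
          rw [← mul_pow]
          congr 1
          rw [show (130 : ℝ) = 1 + 129 by norm_num, Real.exp_add]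
          ring
      _ ≤ ((2 : ℝ) ^ (131 * q)) ^ s := by
          refine pow_le_pow_left₀ (by positivity) ?_ s
          calc Real.exp 130 * (n / s) ≤ 2 ^ 200 * 2 ^ (130 * (q + 1)) := by
                refine mul_le_mul exp_130_le ?_ (by positivity) (by positivity)
                rw [div_le_iff₀ hs']
                exact h2'.le
            _ = 2 ^ (200 + 130 * (q + 1)) := by rw [← pow_add]
            _ ≤ 2 ^ (131 * q) := pow_le_pow_right₀ (by norm_num) (by omega)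
  have hinv : ((2 : ℝ) ^ (131 * q))⁻¹ ≤ (s : ℝ) / n := by
    rw [inv_le_comm₀ (by positivity) (by positivity), inv_div]
    rw [div_le_iff₀ hs']
    refine h2'.le.trans (mul_le_mul_of_nonneg_right ?_ hs'.le)
    exact pow_le_pow_right₀ (by norm_num) (by omega)
  have hgp : g ^ (1048 * K * N) ≤ (((2 : ℝ) ^ (131 * q))⁻¹) ^ (4 * K * N) := by
    calc g ^ (1048 * K * N) = (g ^ 2) ^ (524 * K * N) := by rw [← pow_mul]; ring_nf
      _ ≤ (((2 : ℝ) ^ q)⁻¹) ^ (524 * K * N) := pow_le_pow_left₀ (by positivity) hg1 _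
      _ = (((2 : ℝ) ^ (131 * q))⁻¹) ^ (4 * K * N) := by
          rw [inv_pow, inv_pow, ← pow_mul, ← pow_mul]; ring_nf
  set a : ℝ := ((2 : ℝ) ^ (131 * q))⁻¹ with ha
  have ha0 : 0 < a := by positivity
  have ha1 : a ≤ 1 := hinv.trans hsn
  have hKN : 1 ≤ K * N := Nat.one_le_iff_ne_zero.mpr (by positivity)
  have hb : g ^ (1048 * K * N) * (2 : ℝ) ^ (131 * q) ≤ ((s : ℝ) / n) ^ (2 * N) := by
    calc g ^ (1048 * K * N) * (2 : ℝ) ^ (131 * q) ≤ a ^ (4 * K * N) * (2 : ℝ) ^ (131 * q) := by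
          gcongr
      _ = a ^ (4 * K * N - 1) * (a * (2 : ℝ) ^ (131 * q)) := by
          rw [← mul_assoc, ← pow_succ]
          congr 2
          have : 1 ≤ 4 * K * N := by nlinarith
          omega
      _ = a ^ (4 * K * N - 1) := by
          rw [ha, inv_mul_cancel₀ (by positivity), mul_one]
      _ ≤ a ^ (2 * N) := by
          refine pow_le_pow_of_le_one ha0.le ha1 ?_
          have : N ≤ K * N := Nat.le_mul_of_pos_left N hK
          have h5 : 4 * K * N = 4 * (K * N) := by ring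
          omega
      _ ≤ ((s : ℝ) / n) ^ (2 * N) := pow_le_pow_left₀ ha0.le hinv _
  calc (g ^ s) ^ (1048 * K * N) * ((n.choose s : ℝ) * Real.exp (129 * s))
      ≤ (g ^ s) ^ (1048 * K * N) * ((2 : ℝ) ^ (131 * q)) ^ s := by gcongr
    _ = (g ^ (1048 * K * N) * (2 : ℝ) ^ (131 * q)) ^ s := by
        rw [mul_pow, ← pow_mul g s, mul_comm s, pow_mul g (1048 * K * N) s]
    _ ≤ (((s : ℝ) / n) ^ (2 * N)) ^ s := by
        refine pow_le_pow_left₀ (by positivity) hb s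
    _ = (((s : ℝ) / n) ^ (s * N)) ^ 2 := by
        rw [← pow_mul, ← pow_mul]; ring_nf

/-- the sum over the low levels -/
theorem sum_low (n m N : ℕ) (hN : 1 ≤ N) (hn : 0 < n) (hm : 4 * m ≤ n) :
    ∑ s ∈ Finset.range m, (((s + 1 : ℕ) : ℝ) / n) ^ ((s + 1) * N) ≤ 2 * ((1 : ℝ) / n) ^ N := by
  have hn' : (0 : ℝ) < n := by exact_mod_cast hn
  have h1 : ∀ s ∈ Finset.range m, (((s + 1 : ℕ) : ℝ) / n) ^ ((s + 1) * N) ≤
      ((1 : ℝ) / n) ^ N * (1 / 2) ^ s := by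
    intro s hs
    rw [Finset.mem_range] at hs
    have h2 : ((s + 1 : ℕ) : ℝ) / n ≤ 1 / 4 := by
      rw [div_le_iff₀ hn']
      have : (4 : ℝ) * (s + 1 : ℕ) ≤ n := by exact_mod_cast (by omega : 4 * (s + 1) ≤ n)
      linarith
    have h3 : (((s + 1 : ℕ) : ℝ) / n) ^ (s + 1) ≤ (1 : ℝ) / n * (1 / 2) ^ s := by
      rw [pow_succ]
      have h4 : (((s + 1 : ℕ) : ℝ) / n) ^ s ≤ (1 / 4) ^ s := pow_le_pow_left₀ (by positivity) h2 s
      have h5 : ((s + 1 : ℕ) : ℝ) ≤ 2 ^ s := by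
        have : s + 1 ≤ 2 ^ s := Nat.lt_two_pow_self
        exact_mod_cast this
      calc (((s + 1 : ℕ) : ℝ) / n) ^ s * (((s + 1 : ℕ) : ℝ) / n)
          ≤ (1 / 4) ^ s * (2 ^ s / n) := by gcongr
        _ = (1 : ℝ) / n * (1 / 2) ^ s := by
            rw [mul_div_assoc', ← mul_pow]; norm_num; ring
    have h6 : (1 : ℝ) / n * (1 / 2) ^ s ≤ 1 := by
      have h7 : (1 : ℝ) / n ≤ 1 := by
        rw [div_le_one hn']; exact_mod_cast hn
      have h8 : ((1 : ℝ) / 2) ^ s ≤ 1 := pow_le_one₀ (by norm_num) (by norm_num)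
      have h9 : (0 : ℝ) ≤ (1 / 2) ^ s := by positivity
      nlinarith
    rw [pow_mul]
    calc ((((s + 1 : ℕ) : ℝ) / n) ^ (s + 1)) ^ N ≤ ((1 : ℝ) / n * (1 / 2) ^ s) ^ N :=
          pow_le_pow_left₀ (by positivity) h3 N
      _ = ((1 : ℝ) / n) ^ N * ((1 / 2) ^ s) ^ N := mul_pow _ _ _
      _ ≤ ((1 : ℝ) / n) ^ N * (1 / 2) ^ s := by
          have h8 : ((1 : ℝ) / 2) ^ s ≤ 1 := pow_le_one₀ (by norm_num) (by norm_num)
          have h10 : (((1 : ℝ) / 2) ^ s) ^ N ≤ (1 / 2) ^ s :=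
            pow_le_of_le_one (by positivity) h8 (by omega)
          gcongr
  refine (Finset.sum_le_sum h1).trans ?_
  rw [← Finset.mul_sum, mul_comm]
  refine mul_le_mul_of_nonneg_right ?_ (by positivity)
  have h2 := geom_sum_eq (x := (1 / 2 : ℝ)) (by norm_num) m
  rw [h2]
  have h3 : (0 : ℝ) ≤ (1 / 2) ^ m := by positivity
  have h4 : ((1 / 2 : ℝ) ^ m - 1) / (1 / 2 - 1) = 2 - 2 * (1 / 2) ^ m := by ring
  rw [h4]
  linarith

end

end Vale.Agent.P162F
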