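import Vale.Agent.Lib.P162F.Basic

/-!
# P162F.KerEq: the kernel is `b * bᵀ`, `b` the matrix of the butterfly network
-/

namespace Vale.Agent.P162F

open Vale.Agent.P162

noncomputable section

/-- the averaged layer `j` on `k` cards -/
def kerQ (d k : ℕ) (j : ℕ) : Matrix (Fin k ↪ Cube d) (Fin k ↪ Cube d) ℝ :=
  ((Fintype.card (Coin d) : ℝ)⁻¹) • ∑ t : Coin d, permMat k (sw j t)

/-- the product of the layers `j, ..., j + m - 1` -/
def kerR (d k : ℕ) : ℕ → ℕ → Matrix (Fin k ↪ Cube d) (Fin k ↪ Cube d) ℝ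
  | 0, _ => 1
  | m + 1, j => kerQ d k j * kerR d k m (j + 1)

theorem permMat_mul_apply {X : Type*} [Fintype X] [DecidableEq X] {k : ℕ} (g : Equiv.Perm X)
    (M : Matrix (Fin k ↪ X) (Fin k ↪ X) ℝ) (x z : Fin k ↪ X) :
    (permMat k g * M) x z = M (g⁻¹ • x) z := by
  rw [Matrix.mul_apply, Finset.sum_eq_single (g⁻¹ • x)]
  · simp [permMat]
  · intro y _ hy
    have : g • y ≠ x := fun h => hy (by rw [← h, inv_smul_smul])
    simp [permMat, this]
  · intro h
    exact absurd (Finset.mem_univ _) h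

theorem mul_permMat_apply {X : Type*} [Fintype X] [DecidableEq X] {k : ℕ} (g : Equiv.Perm X)
    (M : Matrix (Fin k ↪ X) (Fin k ↪ X) ℝ) (x z : Fin k ↪ X) :
    (M * permMat k g) x z = M x (g • z) := by
  rw [Matrix.mul_apply, Finset.sum_eq_single (g • z)]
  · simp [permMat]
  · intro y _ hy
    simp [permMat, Ne.symm hy]
  · intro h
    exact absurd (Finset.mem_univ _) h

theorem permMat_transpose {X : Type*} [Fintype X] [DecidableEq X] {k : ℕ} (g : Equiv.Perm X) :
    (permMat k g).transpose = permMat k g⁻¹ := by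
  ext x z
  have : g • x = z ↔ g⁻¹ • z = x := by
    constructor
    · rintro rfl; rw [inv_smul_smul]
    · rintro rfl; rw [smul_inv_smul]
  simp [permMat, Matrix.transpose_apply, this]

theorem kerQ_transpose (d k j : ℕ) : (kerQ d k j).transpose = kerQ d k j := by
  rw [kerQ, Matrix.transpose_smul, Matrix.transpose_sum]
  congr 1
  refine Finset.sum_congr rfl fun t _ => ?_
  rw [permMat_transpose, sw_inv]

theorem ker_succ_eq (d k m j : ℕ) :
    (Matrix.of (ker (d := d) (k := k) (m + 1) j)) =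
      kerQ d k j * Matrix.of (ker m (j + 1)) * kerQ d k j := by
  ext x z
  have hc : (Fintype.card (Coin d) : ℝ) ≠ 0 := by
    exact_mod_cast Fintype.card_ne_zero
  have h1 : ∀ (M : Matrix (Fin k ↪ Cube d) (Fin k ↪ Cube d) ℝ) (x z : Fin k ↪ Cube d),
      (kerQ d k j * M) x z = (Fintype.card (Coin d) : ℝ)⁻¹ * ∑ s : Coin d, M (sw j s • x) z := by
    intro M x z
    rw [kerQ, Matrix.smul_mul, Matrix.smul_apply, Finset.sum_mul, Matrix.sum_apply, smul_eq_mul]
    congr 1
    refine Finset.sum_congr rfl fun t _ => ?_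
    rw [permMat_mul_apply, sw_inv]
  have h2 : ∀ (M : Matrix (Fin k ↪ Cube d) (Fin k ↪ Cube d) ℝ) (x z : Fin k ↪ Cube d),
      (M * kerQ d k j) x z = (Fintype.card (Coin d) : ℝ)⁻¹ * ∑ s : Coin d, M x (sw j s • z) := by
    intro M x z
    rw [kerQ, Matrix.mul_smul, Matrix.smul_apply, Finset.mul_sum, Matrix.sum_apply, smul_eq_mul]
    congr 1
    refine Finset.sum_congr rfl fun t _ => ?_
    rw [mul_permMat_apply]
  rw [h2]
  simp only [h1, Matrix.of_apply]
  rw [ker, Finset.sum_comm, ← Finset.mul_sum]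
  field_simp

theorem ker_eq_kerR (d k m j : ℕ) :
    (Matrix.of (ker (d := d) (k := k) m j)) = kerR d k m j * (kerR d k m j).transpose := by
  induction m generalizing j with
  | zero =>
    rw [kerR, Matrix.transpose_one, mul_one]
    ext x z
    simp [ker, Matrix.one_apply]
  | succ m ih =>
    rw [ker_succ_eq, ih (j + 1), kerR, Matrix.transpose_mul, kerQ_transpose]
    simp only [mul_assoc]

theorem kerR_eq_prod (d k m j : ℕ) :
    kerR d k m j = (List.ofFn fun i : Fin m => kerQ d k (j + i)).prod := by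
  induction m generalizing j with
  | zero => simp [kerR]
  | succ m ih =>
    rw [kerR, ih (j + 1), List.ofFn_succ, List.prod_cons]
    congr 1
    congr 2
    ext1 i
    congr 1
    simp
    omega

theorem pmat_K (d k : ℕ) (j : Fin d) : pmat k (Pass.K d j) = kerQ d k j := by
  rw [Pass.K, map_smul, map_sum, kerQ]
  congr 1
  · simp [Fintype.card_bool]
  · refine Finset.sum_congr rfl fun t _ => ?_
    rw [pmat, MonoidAlgebra.lift_single, one_smul]
    congr 1
    rw [sw, dif_pos j.2]

theorem kerM_eq (d k : ℕ) :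
    kerM d k = pmat k (bfly d) * (pmat k (bfly d)).transpose := by
  have h : pmat k (bfly d) = kerR d k d 0 := by
    rw [Pass.bfly_eq, map_list_prod, List.map_ofFn, kerR_eq_prod]
    congr 2
    ext1 j
    simp [pmat_K]
  rw [h]
  exact ker_eq_kerR d k d 0

end

end Vale.Agent.P162F
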