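import Mathlib

/-!
# P162F.Schatten: trace inequalities for powers of two
-/

namespace Vale.Agent.P162F

open Matrix

variable {n : Type*} [Fintype n] [DecidableEq n]

theorem schatten_trace_cyc (X Y : Matrix n n ℝ) (p : ℕ) :
    ((X * Y) ^ p).trace = ((Y * X) ^ p).trace := by
  rcases p with _ | p
  · simp
  · rw [pow_succ, ← mul_assoc, mul_pow_mul, Matrix.trace_mul_comm, ← mul_assoc, ← pow_succ']

omit [DecidableEq n] in
theorem schatten_trace_nonneg (X : Matrix n n ℝ) : 0 ≤ (Xᵀ * X).trace := by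
  rw [Matrix.trace]
  apply Finset.sum_nonneg
  intro i _
  rw [Matrix.diag_apply, Matrix.mul_apply]
  apply Finset.sum_nonneg
  intro j _
  rw [Matrix.transpose_apply]
  exact mul_self_nonneg _

/-- Cauchy–Schwarz in the form of the arithmetic-geometric inequality. -/
theorem schatten_trace_amgm (X Y : Matrix n n ℝ) :
    2 * (Xᵀ * Y).trace ≤ (Xᵀ * X).trace + (Yᵀ * Y).trace := by
  have h1 := schatten_trace_nonneg (X - Y)
  rw [Matrix.transpose_sub, Matrix.sub_mul, Matrix.mul_sub, Matrix.mul_sub, Matrix.trace_sub,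
    Matrix.trace_sub, Matrix.trace_sub] at h1
  have h2 : (Yᵀ * X).trace = (Xᵀ * Y).trace := by
    rw [← Matrix.trace_transpose (Yᵀ * X), Matrix.transpose_mul, Matrix.transpose_transpose]
  linarith

/-- for symmetric `P`, `Q` with equal traces of the `2p`-th powers -/
theorem schatten_trace_sym (P Q : Matrix n n ℝ) (hP : Pᵀ = P) (hQ : Qᵀ = Q) (p : ℕ)
    (h : (P ^ (2 * p)).trace = (Q ^ (2 * p)).trace) :
    (Q ^ p * P ^ p).trace ≤ (Q ^ (2 * p)).trace := by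
  have h1 := schatten_trace_amgm (Q ^ p) (P ^ p)
  rw [Matrix.transpose_pow, Matrix.transpose_pow, hP, hQ, ← pow_add, ← pow_add,
    ← two_mul, h] at h1
  linarith

/-- Simultaneous induction: `tr (Z ^ (2 p)) ≤ tr ((Zᵀ Z) ^ p)` and, for symmetric `P`, `Q`,
`tr ((Q P) ^ p) ≤ tr (Q ^ p P ^ p)`, `p = 2 ^ q`. -/
theorem trace_pow_two (q : ℕ) :
    (∀ Z : Matrix n n ℝ, (Z ^ (2 * 2 ^ q)).trace ≤ ((Zᵀ * Z) ^ (2 ^ q)).trace) ∧
    (∀ P Q : Matrix n n ℝ, Pᵀ = P → Qᵀ = Q →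
      ((Q * P) ^ (2 ^ q)).trace ≤ (Q ^ (2 ^ q) * P ^ (2 ^ q)).trace) := by
  induction q with
  | zero =>
    refine ⟨fun Z => ?_, fun P Q _ _ => by simp⟩
    have h1 := schatten_trace_amgm Zᵀ Z
    rw [Matrix.transpose_transpose] at h1
    have h2 : (Z * Zᵀ).trace = (Zᵀ * Z).trace := Matrix.trace_mul_comm _ _
    rw [h2] at h1
    simp only [pow_zero, mul_one, pow_one]
    rw [pow_two]
    linarith
  | succ q ih =>
    obtain ⟨ihW, ihL⟩ := ih
    constructor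
    · intro Z
      have h1 := ihW (Z ^ 2)
      have e1 : (Z ^ 2) ^ (2 * 2 ^ q) = Z ^ (2 * 2 ^ (q + 1)) := by
        rw [← pow_mul]
        congr 1
        ring
      rw [e1] at h1
      refine h1.trans ?_
      have e2 : (Z ^ 2)ᵀ * Z ^ 2 = Zᵀ * (Zᵀ * Z * Z) := by
        rw [pow_two, Matrix.transpose_mul]
        simp only [mul_assoc]
      rw [e2, schatten_trace_cyc]
      have e3 : Zᵀ * Z * Z * Zᵀ = (Zᵀ * Z) * (Z * Zᵀ) := by simp only [mul_assoc]
      rw [e3]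
      have hP : (Z * Zᵀ)ᵀ = Z * Zᵀ := by
        rw [Matrix.transpose_mul, Matrix.transpose_transpose]
      have hQ : (Zᵀ * Z)ᵀ = Zᵀ * Z := by
        rw [Matrix.transpose_mul, Matrix.transpose_transpose]
      refine (ihL (Z * Zᵀ) (Zᵀ * Z) hP hQ).trans ?_
      have h2 := schatten_trace_sym (Z * Zᵀ) (Zᵀ * Z) hP hQ (2 ^ q) (schatten_trace_cyc _ _ _)
      refine h2.trans (le_of_eq ?_)
      congr 2
      ring
    · intro P Q hP hQ
      have h1 := ihW (Q * P)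
      have e1 : (Q * P) ^ (2 * 2 ^ q) = (Q * P) ^ (2 ^ (q + 1)) := by
        congr 1
        ring
      rw [e1] at h1
      refine h1.trans ?_
      have e2 : (Q * P)ᵀ * (Q * P) = P * (Q ^ 2 * P) := by
        rw [Matrix.transpose_mul, hP, hQ, pow_two]
        simp only [mul_assoc]
      rw [e2, schatten_trace_cyc]
      have e3 : Q ^ 2 * P * P = Q ^ 2 * P ^ 2 := by rw [mul_assoc, ← pow_two P]
      rw [e3]
      have h2 := ihL (P ^ 2) (Q ^ 2) (by rw [Matrix.transpose_pow, hP])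
        (by rw [Matrix.transpose_pow, hQ])
      refine h2.trans (le_of_eq ?_)
      rw [← pow_mul, ← pow_mul]
      congr 3 <;> ring

theorem schatten_aux (A : Matrix n n ℝ) (Q : ℕ) : ∀ q : ℕ,
    (((A ^ (2 ^ Q))ᵀ * A ^ (2 ^ Q)) ^ (2 ^ q)).trace ≤ ((Aᵀ * A) ^ (2 ^ (Q + q))).trace := by
  induction Q with
  | zero =>
    intro q
    simp
  | succ Q ih =>
    intro q
    obtain ⟨B, hB⟩ : ∃ B, B = A ^ (2 ^ Q) := ⟨_, rfl⟩
    have e1 : A ^ (2 ^ (Q + 1)) = B * B := by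
      rw [hB, ← pow_add]
      congr 1
      ring
    have e2 : (B * B)ᵀ * (B * B) = Bᵀ * (Bᵀ * B * B) := by
      rw [Matrix.transpose_mul]
      simp only [mul_assoc]
    rw [e1, e2, schatten_trace_cyc]
    have e3 : Bᵀ * B * B * Bᵀ = (Bᵀ * B) * (B * Bᵀ) := by simp only [mul_assoc]
    rw [e3]
    have hP : (B * Bᵀ)ᵀ = B * Bᵀ := by
      rw [Matrix.transpose_mul, Matrix.transpose_transpose]
    have hQ : (Bᵀ * B)ᵀ = Bᵀ * B := by
      rw [Matrix.transpose_mul, Matrix.transpose_transpose]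
    refine ((trace_pow_two q).2 (B * Bᵀ) (Bᵀ * B) hP hQ).trans ?_
    refine (schatten_trace_sym (B * Bᵀ) (Bᵀ * B) hP hQ (2 ^ q)
      (schatten_trace_cyc _ _ _)).trans ?_
    have h1 := ih (q + 1)
    rw [← hB] at h1
    have e4 : 2 * 2 ^ q = 2 ^ (q + 1) := by ring
    have e5 : Q + 1 + q = Q + (q + 1) := by ring
    rw [e4, e5]
    exact h1

/-- `tr ((A ^ J)ᵀ A ^ J) ≤ tr ((Aᵀ A) ^ J)`, `J = 2 ^ Q`. -/
theorem schatten (A : Matrix n n ℝ) (Q : ℕ) :
    ((A ^ (2 ^ Q))ᵀ * A ^ (2 ^ Q)).trace ≤ ((Aᵀ * A) ^ (2 ^ Q)).trace := by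
  have h := schatten_aux A Q 0
  simpa using h

end Vale.Agent.P162F
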