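import Vale.Agent.Lib.P162F.TraceBound
import Vale.Agent.Lib.P162F.KerEq
import Vale.Agent.Lib.P162F.Schatten
import Vale.Agent.Lib.P162.ThorpPass

/-!
# P162F.PassTrace: the traces for one pass of the Thorp shuffle
-/

namespace Vale.Agent.P162F

open Vale.Agent.P162

noncomputable section

/-- one pass as an element of the group algebra -/
def passElt (e : ℕ) : MonoidAlgebra ℝ (Equiv.Perm (Fin (2 * 2 ^ e))) := thorpElt (2 ^ e) ^ (e + 1)

namespace PassTraceAux

section

variable {X Y : Type*} [Fintype X] [DecidableEq X] [Fintype Y] [DecidableEq Y]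

theorem permMat_transpose (k : ℕ) (g : Equiv.Perm X) :
    (permMat k g).transpose = permMat k g⁻¹ := by
  ext x z
  show (if g • x = z then (1 : ℝ) else 0) = if g⁻¹ • z = x then 1 else 0
  have h : g • x = z ↔ g⁻¹ • z = x := by
    rw [inv_smul_eq_iff, eq_comm]
  simp only [h]

theorem permMat_orth (k : ℕ) (g : Equiv.Perm X) :
    (permMat k g).transpose * permMat k g = 1 := by
  rw [permMat_transpose, ← map_mul, inv_mul_cancel, map_one]

theorem pmat_single (k : ℕ) (g : Equiv.Perm X) (r : ℝ) :
    pmat k (MonoidAlgebra.single g r) = r • permMat k g := by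
  rw [pmat, MonoidAlgebra.lift_single]

/-- the equivalence of the embeddings induced by `ψ` -/
def embE (k : ℕ) (ψ : X ≃ Y) : (Fin k ↪ X) ≃ (Fin k ↪ Y) :=
  Equiv.embeddingCongr (Equiv.refl (Fin k)) ψ

theorem permMat_permCongr (k : ℕ) (ψ : X ≃ Y) (g : Equiv.Perm X) :
    permMat k (ψ.permCongr g) = (permMat k g).submatrix (embE k ψ).symm (embE k ψ).symm := by
  ext x z
  show (if (ψ.permCongr g) • z = x then (1 : ℝ) else 0) =
    if g • ((embE k ψ).symm z) = (embE k ψ).symm x then 1 else 0
  have h : (ψ.permCongr g) • z = x ↔ g • ((embE k ψ).symm z) = (embE k ψ).symm x := by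
    rw [Equiv.eq_symm_apply]
    have h2 : (embE k ψ) (g • ((embE k ψ).symm z)) = (ψ.permCongr g) • z := by
      ext i
      simp [embE, Equiv.embeddingCongr, Equiv.permCongr_apply]
    rw [h2]
  simp only [h]

theorem pmat_mapDomain (k : ℕ) (ψ : X ≃ Y) (b : MonoidAlgebra ℝ (Equiv.Perm X)) :
    pmat k (MonoidAlgebra.mapDomain ψ.permCongr b) =
      (pmat k b).submatrix (embE k ψ).symm (embE k ψ).symm := by
  induction b using MonoidAlgebra.induction_linear with
  | zero => simp [MonoidAlgebra.mapDomain_zero]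
  | add x y hx hy =>
    rw [MonoidAlgebra.mapDomain_add, map_add, map_add, hx, hy, Matrix.submatrix_add]
    rfl
  | single g r =>
    rw [MonoidAlgebra.mapDomain_single, pmat_single, pmat_single, permMat_permCongr]
    rfl

end

section

variable {m n : Type*} [Fintype m] [DecidableEq m] [Fintype n] [DecidableEq n]

theorem submatrix_pow (ε : n ≃ m) (A : Matrix m m ℝ) (J : ℕ) :
    (A.submatrix ε ε) ^ J = (A ^ J).submatrix ε ε := by
  induction J with
  | zero => rw [pow_zero, pow_zero, Matrix.submatrix_one_equiv]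
  | succ J ih => rw [pow_succ, pow_succ, ih, Matrix.submatrix_mul_equiv]

omit [DecidableEq m] [DecidableEq n] in
theorem trace_submatrix (ε : n ≃ m) (A : Matrix m m ℝ) :
    (A.submatrix ε ε).trace = A.trace := by
  unfold Matrix.trace
  exact ε.sum_comp (fun i => A.diag i)

theorem trace_pow_comm (b : Matrix m m ℝ) (J : ℕ) :
    ((b.transpose * b) ^ J).trace = ((b * b.transpose) ^ J).trace := by
  cases J with
  | zero => rw [pow_zero, pow_zero]
  | succ J =>
    rw [pow_succ, ← mul_assoc, mul_pow_mul, mul_assoc, Matrix.trace_mul_comm, mul_assoc,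
      ← pow_succ]

end

end PassTraceAux

open PassTraceAux in
/-- relabelling and composition with a permutation do not change the traces -/
theorem pass_trace_eq (e k J : ℕ) :
    ((((pmat k (passElt e)).transpose * pmat k (passElt e)) ^ J).trace) =
      ((kerM (e + 1) k) ^ J).trace := by
  obtain ⟨ψ, R, h⟩ := thorp_pass e
  have h1 : pmat k (passElt e) = permMat k R *
      (pmat k (bfly (e + 1))).submatrix (embE k ψ).symm (embE k ψ).symm := by
    rw [passElt, h, map_mul, pmat_single, one_smul, pmat_mapDomain]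
  have h2 : (pmat k (passElt e)).transpose * pmat k (passElt e) =
      ((pmat k (bfly (e + 1))).transpose * pmat k (bfly (e + 1))).submatrix
        (embE k ψ).symm (embE k ψ).symm := by
    rw [h1, Matrix.transpose_mul, mul_assoc, ← mul_assoc (permMat k R).transpose, permMat_orth,
      one_mul, Matrix.transpose_submatrix, Matrix.submatrix_mul_equiv]
  rw [h2, submatrix_pow, trace_submatrix, trace_pow_comm, kerM_eq]

theorem pass_trace (e k q : ℕ) (hq : 1 ≤ q) :
    ((((pmat k (passElt e)).transpose * pmat k (passElt e)) ^ 512).trace) ≤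
      Real.exp (128 * k / 2 ^ q + (2 : ℝ) ^ (128 * q) * (k * (k / 2 ^ (e + 1)))) := by
  rw [pass_trace_eq]
  exact trace_bound (e + 1) k q hq

theorem pass_hs (e k q : ℕ) (hq : 1 ≤ q) :
    ((pmat k (passElt e ^ 512)).transpose * pmat k (passElt e ^ 512)).trace ≤
      Real.exp (128 * k / 2 ^ q + (2 : ℝ) ^ (128 * q) * (k * (k / 2 ^ (e + 1)))) := by
  refine le_trans ?_ (pass_trace e k q hq)
  have h9 : (512 : ℕ) = 2 ^ 9 := by norm_num
  rw [map_pow, h9]
  exact schatten (pmat k (passElt e)) 9

end

end Vale.Agent.P162F
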