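import Vale.Agent.Lib.P162F.Cards
import Vale.Agent.Lib.P162.Final

/-!
# P162F.Tail: high levels
-/

namespace Vale.Agent.P162F

open Vale.Agent.P162
open scoped RealInnerProductSpace

noncomputable section

/-- the exponential of an operator at an eigenvector -/
theorem tail_exp_eig {V : Type*} [NormedAddCommGroup V] [InnerProductSpace ℝ V] [CompleteSpace V]
    (T : V →L[ℝ] V) (c μ : ℝ) (u : V) (hu : T u = μ • u) :
    NormedSpace.exp (c • T) u = Real.exp (c * μ) • u := by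
  have hs := NormedSpace.exp_series_hasSum_exp' (𝕂 := ℝ) (c • T)
  have h2 := (ContinuousLinearMap.apply ℝ V u).hasSum hs
  simp only [ContinuousLinearMap.apply_apply] at h2
  have hpow : ∀ n : ℕ, (T ^ n) u = μ ^ n • u := by
    intro n
    induction n with
    | zero => simp
    | succ n ih => rw [pow_succ, mul_apply_eq_comp, hu, map_smul, ih, smul_smul]; ring_nf
  have h3 := NormedSpace.expSeries_div_hasSum_exp (𝔸 := ℝ) (c * μ)
  rw [← Real.exp_eq_exp_ℝ] at h3
  have h4 := h3.smul_const u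
  have e : (fun n : ℕ => ((c * μ) ^ n / (n.factorial : ℝ)) • u) =
      fun n : ℕ => (((n.factorial : ℝ)⁻¹ • (c • T) ^ n : V →L[ℝ] V)) u := by
    funext n
    rw [_root_.smul_apply, smul_pow, _root_.smul_apply, hpow, smul_smul, smul_smul]
    congr 1
    rw [mul_pow]
    ring
  rw [e] at h4
  exact h2.unique h4

/-- the heat kernel of a symmetric operator on an invariant subspace with a spectral gap -/
theorem tail_heat {V : Type*} [NormedAddCommGroup V] [InnerProductSpace ℝ V]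
    [FiniteDimensional ℝ V] [CompleteSpace V] (L : V →L[ℝ] V)
    (hL : ∀ v w : V, ⟪L v, w⟫ = ⟪v, L w⟫) (U : Submodule ℝ V) (hU : ∀ v ∈ U, L v ∈ U) (c ν : ℝ)
    (hc : 0 ≤ c) (hν : ∀ v ∈ U, ν * ‖v‖ ^ 2 ≤ ⟪v, L v⟫) {f : V} (hf : f ∈ U) :
    ⟪f, NormedSpace.exp ((-c) • L) f⟫ ≤ Real.exp (-c * ν) * ‖f‖ ^ 2 := by
  have hU' : ∀ v ∈ U, (L : V →ₗ[ℝ] V) v ∈ U := hU
  have hsym : ((L : V →ₗ[ℝ] V).restrict hU').IsSymmetric := by
    intro x y
    exact hL x y
  set B := hsym.eigenvectorBasis rfl with hB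
  set μ := hsym.eigenvalues rfl with hμ
  set x : U := ⟨f, hf⟩ with hx
  have heig : ∀ i, L (B i : V) = μ i • (B i : V) := by
    intro i
    have h5 := hsym.apply_eigenvectorBasis rfl i
    exact congrArg (Subtype.val) h5
  have hn : ∀ i, ‖(B i : V)‖ = 1 := fun i => B.orthonormal.1 i
  have hμν : ∀ i, ν ≤ μ i := by
    intro i
    have h1 := hν (B i : V) (B i).2
    rw [heig i, real_inner_smul_right, real_inner_self_eq_norm_sq, hn i] at h1
    simpa using h1
  have hsum : f = ∑ i, ⟪(B i : V), f⟫ • (B i : V) := by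
    have h1 := B.sum_repr' x
    have h2 := congrArg (Subtype.val) h1
    rw [AddSubmonoidClass.coe_finsetSum] at h2
    exact h2.symm
  have hnorm : ‖f‖ ^ 2 = ∑ i, ⟪(B i : V), f⟫ ^ 2 := by
    rw [← real_inner_self_eq_norm_sq]
    conv_lhs => rw [hsum]
    rw [sum_inner]
    conv_lhs =>
      rw [← hsum]
    refine Finset.sum_congr rfl fun i _ => ?_
    rw [real_inner_smul_left, sq]
  have hexp : ⟪f, NormedSpace.exp ((-c) • L) f⟫ =
      ∑ i, Real.exp (-c * μ i) * ⟪(B i : V), f⟫ ^ 2 := by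
    have h1 : NormedSpace.exp ((-c) • L) f =
        ∑ i, ⟪(B i : V), f⟫ • Real.exp (-c * μ i) • (B i : V) := by
      conv_lhs => rw [hsum]
      rw [map_sum]
      refine Finset.sum_congr rfl fun i _ => ?_
      rw [map_smul, tail_exp_eig L (-c) (μ i) _ (heig i)]
    rw [h1, inner_sum]
    refine Finset.sum_congr rfl fun i _ => ?_
    rw [real_inner_smul_right, real_inner_smul_right, real_inner_comm]
    ring
  rw [hexp, hnorm, Finset.mul_sum]
  refine Finset.sum_le_sum fun i _ => ?_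
  apply mul_le_mul_of_nonneg_right _ (sq_nonneg _)
  rw [Real.exp_le_exp]
  have := hμν i
  nlinarith

theorem tail_lap_mem {X : Type} [Fintype X] [DecidableEq X] (k : ℕ)
    {v : EuclideanSpace ℝ (Equiv.Perm X)} (hv : v ∈ levelSub (reg X) k) :
    lap (reg X) v ∈ levelSub (reg X) k := by
  unfold lap
  rw [_root_.smul_apply, _root_.sum_apply]
  refine Submodule.smul_mem _ _ (Submodule.sum_mem _ fun a _ => ?_)
  rw [_root_.sum_apply]
  refine Submodule.sum_mem _ fun b _ => ?_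
  rw [_root_.sub_apply]
  exact Submodule.sub_mem _ hv (levelSub_inv (reg_orth X) k _ hv)

/-- on functions orthogonal to the functions of `s` cards one pass contracts by `e^{-(s+1)/256}` -/
theorem tail_pass (e s : ℕ) (hs : s ≤ 2 * 2 ^ e)
    (f : EuclideanSpace ℝ (Equiv.Perm (Fin (2 * 2 ^ e))))
    (hf : f ∈ (lvl (Fin (2 * 2 ^ e)) s)ᗮ) :
    ‖((thorpOp (2 ^ e)) ^ (e + 1)) f‖ ^ 2 ≤ Real.exp (-((s : ℝ) + 1) / 128) * ‖f‖ ^ 2 := by
  have : Nonempty (Fin (2 * 2 ^ e)) := ⟨⟨0, by positivity⟩⟩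
  have hlev : f ∈ levelSub (reg (Fin (2 * 2 ^ e))) (s + 1) :=
    level_of_orth_lvl (by rw [Fintype.card_fin]; exact hs) f hf
  refine (pass_norm_le e f).trans ?_
  have h1 := tail_heat (lap (reg (Fin (2 * 2 ^ e)))) (lap_symm (reg_orth _))
    (levelSub (reg (Fin (2 * 2 ^ e))) (s + 1)) (fun v hv => tail_lap_mem (s + 1) hv) (1 / 32)
    (((s + 1 : ℕ) : ℝ) / 4) (by norm_num) (fun v hv => lap_level (reg_orth _) (s + 1) v hv) hlev
  rw [← neg_smul]
  refine h1.trans (le_of_eq ?_)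
  congr 2
  push_cast
  ring

end

end Vale.Agent.P162F
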