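import Mathlib

/-!
# P162F.LinAlg: two facts on traces
-/

namespace Vale.Agent.P162F

open scoped RealInnerProductSpace

noncomputable section

variable {H Z : Type*} [NormedAddCommGroup H] [InnerProductSpace ℝ H] [FiniteDimensional ℝ H]
  [NormedAddCommGroup Z] [InnerProductSpace ℝ Z] [FiniteDimensional ℝ Z]

/-- If `T : H → Z` is surjective and intertwines the positive symmetric `M` and `M'`, then
`tr M' ≤ tr M`. -/
theorem trace_le_of_surjective (M : H →ₗ[ℝ] H) (hM : M.IsSymmetric)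
    (hpos : ∀ v, 0 ≤ ⟪M v, v⟫) (M' : Z →ₗ[ℝ] Z) (T : H →ₗ[ℝ] Z)
    (hT : Function.Surjective T) (hTM : ∀ v, T (M v) = M' (T v)) :
    LinearMap.trace ℝ Z M' ≤ LinearMap.trace ℝ H M := by
  obtain ⟨S, hS⟩ := T.exists_rightInverse_of_surjective (LinearMap.range_eq_top.2 hT)
  have hS' : ∀ z, T (S z) = z := fun z => LinearMap.congr_fun hS z
  set K : Submodule ℝ H := LinearMap.ker T with hK
  set Q : H →ₗ[ℝ] H := K.starProjection.toLinearMap with hQ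
  have hQsym : Q.IsSymmetric := K.starProjection_isSymmetric
  have hQmem : ∀ v, Q v ∈ K := fun v => K.starProjection_apply_mem v
  have hQself : ∀ v ∈ K, Q v = v := fun v hv => Submodule.starProjection_eq_self_iff.2 hv
  -- `tr M' = tr (M S T)`
  have h1 : LinearMap.trace ℝ Z M' = LinearMap.trace ℝ H (M ∘ₗ (S ∘ₗ T)) := by
    have h2 : M' = T ∘ₗ (M ∘ₗ S) := by
      ext z
      rw [LinearMap.comp_apply, LinearMap.comp_apply, hTM, hS']
    conv_lhs => rw [h2]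
    rw [LinearMap.trace_comp_comm', LinearMap.comp_assoc]
  -- the complementary projection
  have h3 : LinearMap.trace ℝ H M = LinearMap.trace ℝ H (M ∘ₗ (S ∘ₗ T)) +
      LinearMap.trace ℝ H (M ∘ₗ (LinearMap.id - S ∘ₗ T)) := by
    rw [← map_add, ← LinearMap.comp_add]
    congr 1
    ext v
    simp
  have hmem : ∀ v, (LinearMap.id - S ∘ₗ T : H →ₗ[ℝ] H) v ∈ K := by
    intro v
    rw [hK, LinearMap.mem_ker]
    simp [hS']
  have hself : ∀ v ∈ K, (LinearMap.id - S ∘ₗ T : H →ₗ[ℝ] H) v = v := by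
    intro v hv
    rw [hK, LinearMap.mem_ker] at hv
    simp [hv]
  have hMK : ∀ v ∈ K, M v ∈ K := by
    intro v hv
    rw [hK, LinearMap.mem_ker] at hv ⊢
    rw [hTM, hv, map_zero]
  have h4 : LinearMap.trace ℝ H (M ∘ₗ (LinearMap.id - S ∘ₗ T)) =
      LinearMap.trace ℝ H (Q ∘ₗ (M ∘ₗ Q)) := by
    have h5 : M ∘ₗ (LinearMap.id - S ∘ₗ T) = (M ∘ₗ Q) ∘ₗ (LinearMap.id - S ∘ₗ T) := by
      ext v
      rw [LinearMap.comp_apply, LinearMap.comp_apply, LinearMap.comp_apply, hQself _ (hmem v)]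
    have h6 : (LinearMap.id - S ∘ₗ T) ∘ₗ (M ∘ₗ Q) = Q ∘ₗ (M ∘ₗ Q) := by
      ext v
      have h7 : M (Q v) ∈ K := hMK _ (hQmem v)
      rw [LinearMap.comp_apply, LinearMap.comp_apply, LinearMap.comp_apply, LinearMap.comp_apply,
        hself _ h7, hQself _ h7]
    rw [h5, LinearMap.trace_comp_comm', h6]
  have h8 : 0 ≤ LinearMap.trace ℝ H (Q ∘ₗ (M ∘ₗ Q)) := by
    rw [LinearMap.trace_eq_sum_inner _ (stdOrthonormalBasis ℝ H)]
    refine Finset.sum_nonneg fun i _ => ?_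
    rw [LinearMap.comp_apply, LinearMap.comp_apply, ← hQsym, real_inner_comm]
    exact hpos _
  rw [h1, h3, h4]
  linarith

omit [FiniteDimensional ℝ H] in
/-- Bessel inequality for almost orthogonal vectors. -/
theorem bessel_gram {κ : Type*} [Fintype κ] (f : κ → H) (c : ℝ) (hc : 0 ≤ c)
    (hf : ∀ k, ∑ k', |⟪f k, f k'⟫| ≤ c) (e : H) :
    ∑ k, ⟪f k, e⟫ ^ 2 ≤ c * ‖e‖ ^ 2 := by
  set s := ∑ k, ⟪f k, e⟫ ^ 2 with hs
  have hs0 : 0 ≤ s := Finset.sum_nonneg fun k _ => sq_nonneg _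
  have h1 : ⟪∑ k, ⟪f k, e⟫ • f k, e⟫ = s := by
    rw [sum_inner, hs]
    refine Finset.sum_congr rfl fun k _ => ?_
    rw [real_inner_smul_left, pow_two]
  have h2 : ‖∑ k, ⟪f k, e⟫ • f k‖ ^ 2 ≤ c * s := by
    have h3 : ‖∑ k, ⟪f k, e⟫ • f k‖ ^ 2 =
        ∑ k, ∑ k', ⟪f k, e⟫ * ⟪f k', e⟫ * ⟪f k, f k'⟫ := by
      rw [← real_inner_self_eq_norm_sq, sum_inner]
      refine Finset.sum_congr rfl fun k _ => ?_
      rw [inner_sum]
      refine Finset.sum_congr rfl fun k' _ => ?_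
      rw [real_inner_smul_left, real_inner_smul_right]
      ring
    have h4 : ∀ k k', ⟪f k, e⟫ * ⟪f k', e⟫ * ⟪f k, f k'⟫ ≤
        (⟪f k, e⟫ ^ 2 * |⟪f k, f k'⟫| + ⟪f k', e⟫ ^ 2 * |⟪f k', f k⟫|) / 2 := by
      intro k k'
      have h5 : |⟪f k', f k⟫| = |⟪f k, f k'⟫| := by rw [real_inner_comm]
      rw [h5]
      have h6 : ⟪f k, e⟫ * ⟪f k', e⟫ * ⟪f k, f k'⟫ ≤
          |⟪f k, e⟫ * ⟪f k', e⟫| * |⟪f k, f k'⟫| := by
        rw [← abs_mul]; exact le_abs_self _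
      have h7 : |⟪f k, e⟫ * ⟪f k', e⟫| ≤ (⟪f k, e⟫ ^ 2 + ⟪f k', e⟫ ^ 2) / 2 := by
        rw [abs_mul]
        nlinarith [sq_nonneg (|⟪f k, e⟫| - |⟪f k', e⟫|), sq_abs ⟪f k, e⟫, sq_abs ⟪f k', e⟫]
      have h8 := mul_le_mul_of_nonneg_right h7 (abs_nonneg ⟪f k, f k'⟫)
      linarith
    rw [h3]
    calc ∑ k, ∑ k', ⟪f k, e⟫ * ⟪f k', e⟫ * ⟪f k, f k'⟫
        ≤ ∑ k, ∑ k', (⟪f k, e⟫ ^ 2 * |⟪f k, f k'⟫| + ⟪f k', e⟫ ^ 2 * |⟪f k', f k⟫|) / 2 :=
          Finset.sum_le_sum fun k _ => Finset.sum_le_sum fun k' _ => h4 k k'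
      _ = (∑ k, ∑ k', ⟪f k, e⟫ ^ 2 * |⟪f k, f k'⟫| +
            ∑ k, ∑ k', ⟪f k', e⟫ ^ 2 * |⟪f k', f k⟫|) / 2 := by
          rw [← Finset.sum_add_distrib, Finset.sum_div]
          refine Finset.sum_congr rfl fun k _ => ?_
          rw [← Finset.sum_add_distrib, Finset.sum_div]
      _ = ∑ k, ∑ k', ⟪f k, e⟫ ^ 2 * |⟪f k, f k'⟫| := by
          rw [Finset.sum_comm (f := fun k k' => ⟪f k', e⟫ ^ 2 * |⟪f k', f k⟫|)]
          ring
      _ = ∑ k, ⟪f k, e⟫ ^ 2 * ∑ k', |⟪f k, f k'⟫| := by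
          refine Finset.sum_congr rfl fun k _ => ?_
          rw [Finset.mul_sum]
      _ ≤ ∑ k, ⟪f k, e⟫ ^ 2 * c :=
          Finset.sum_le_sum fun k _ => mul_le_mul_of_nonneg_left (hf k) (sq_nonneg _)
      _ = c * s := by rw [← Finset.sum_mul, mul_comm]
  have h9 : s ≤ ‖∑ k, ⟪f k, e⟫ • f k‖ * ‖e‖ := by
    rw [← h1]
    exact real_inner_le_norm _ _
  have h10 : s ^ 2 ≤ c * s * ‖e‖ ^ 2 := by
    calc s ^ 2 ≤ (‖∑ k, ⟪f k, e⟫ • f k‖ * ‖e‖) ^ 2 := pow_le_pow_left₀ hs0 h9 2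
      _ = ‖∑ k, ⟪f k, e⟫ • f k‖ ^ 2 * ‖e‖ ^ 2 := by ring
      _ ≤ c * s * ‖e‖ ^ 2 := mul_le_mul_of_nonneg_right h2 (sq_nonneg _)
  rcases hs0.eq_or_lt with h0 | hpos
  · rw [← h0]; positivity
  · have h11 : s * s ≤ (c * ‖e‖ ^ 2) * s := by nlinarith
    exact le_of_mul_le_mul_right h11 hpos

/-- Bessel inequality for almost orthogonal vectors: if the absolute row sums of the Gram matrix
are at most `c` then `∑ ⟪M f, f⟫ ≤ c tr M` for positive symmetric `M`. -/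
theorem sum_inner_le_trace {κ : Type*} [Fintype κ] (M : H →ₗ[ℝ] H) (hM : M.IsSymmetric)
    (hpos : ∀ v, 0 ≤ ⟪M v, v⟫) (f : κ → H) (c : ℝ) (hc : 0 ≤ c)
    (hf : ∀ k, ∑ k', |⟪f k, f k'⟫| ≤ c) :
    ∑ k, ⟪M (f k), f k⟫ ≤ c * LinearMap.trace ℝ H M := by
  set b := hM.eigenvectorBasis rfl with hb
  set lam := hM.eigenvalues rfl with hlam
  have hMb : ∀ i, M (b i) = lam i • b i := fun i => hM.apply_eigenvectorBasis rfl i
  have hnorm : ∀ i, ⟪b i, b i⟫ = 1 := fun i => by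
    rw [real_inner_self_eq_norm_sq, b.norm_eq_one, one_pow]
  have hlam0 : ∀ i, 0 ≤ lam i := by
    intro i
    have h1 := hpos (b i)
    rw [hMb, real_inner_smul_left, hnorm, mul_one] at h1
    exact h1
  have htr : LinearMap.trace ℝ H M = ∑ i, lam i := by
    rw [LinearMap.trace_eq_sum_inner _ b]
    refine Finset.sum_congr rfl fun i _ => ?_
    rw [hMb, real_inner_smul_right, hnorm, mul_one]
  have h1 : ∀ v, ⟪M v, v⟫ = ∑ i, lam i * ⟪v, b i⟫ ^ 2 := by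
    intro v
    rw [← b.sum_inner_mul_inner (M v) v]
    refine Finset.sum_congr rfl fun i _ => ?_
    rw [hM v (b i), hMb, real_inner_smul_right, real_inner_comm (b i) v]
    ring
  calc ∑ k, ⟪M (f k), f k⟫ = ∑ k, ∑ i, lam i * ⟪f k, b i⟫ ^ 2 :=
        Finset.sum_congr rfl fun k _ => h1 (f k)
    _ = ∑ i, lam i * ∑ k, ⟪f k, b i⟫ ^ 2 := by
        rw [Finset.sum_comm]
        refine Finset.sum_congr rfl fun i _ => ?_
        rw [Finset.mul_sum]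
    _ ≤ ∑ i, lam i * c := by
        refine Finset.sum_le_sum fun i _ => mul_le_mul_of_nonneg_left ?_ (hlam0 i)
        have h2 := bessel_gram f c hc hf (b i)
        rw [b.norm_eq_one, one_pow, mul_one] at h2
        exact h2
    _ = c * LinearMap.trace ℝ H M := by rw [htr, ← Finset.sum_mul, mul_comm]

end

end Vale.Agent.P162F
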