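import Vale.Agent.Lib.P162F.Cards
import Vale.Agent.Lib.P162F.LinAlg

/-!
# P162F.TraceLevel: the Hilbert–Schmidt norm on the functions of `s` cards
-/

namespace Vale.Agent.P162F

open Vale.Agent.P162
open scoped RealInnerProductSpace

noncomputable section

variable {X : Type} [Fintype X] [DecidableEq X]

/-! ### Functions of cards are linear in the function -/

/-- `cardFn y` as a linear map -/
def cardL {s : ℕ} (y : Fin s ↪ X) :
    ((Fin s ↪ X) → ℝ) →ₗ[ℝ] EuclideanSpace ℝ (Equiv.Perm X) where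
  toFun φ := cardFn y φ
  map_add' φ ψ := by
    ext h
    simp [cardFn]
  map_smul' c φ := by
    ext h
    simp [cardFn]

lemma cardFn_in_lvl {s : ℕ} (y : Fin s ↪ X) (φ : (Fin s ↪ X) → ℝ) : cardFn y φ ∈ lvl X s :=
  Submodule.subset_span ⟨(y, φ), rfl⟩

lemma single_apply_smul {s : ℕ} (g : Equiv.Perm X) (r : ℝ) (y : Fin s ↪ X)
    (φ : (Fin s ↪ X) → ℝ) (h : Equiv.Perm X) :
    (cardFn y ((pmat s (MonoidAlgebra.single g r)).transpose.mulVec φ)) h =
      r * φ (g • (h • y)) := by
  simp only [cardFn, pmat, MonoidAlgebra.lift_single, Matrix.mulVec, dotProduct,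
    Matrix.transpose_apply, Matrix.smul_apply, smul_eq_mul, permMat, MonoidHom.coe_mk,
    OneHom.coe_mk, Matrix.of_apply]
  rw [Finset.sum_eq_single (g • (h • y))]
  · simp
  · intro z _ hz
    rw [if_neg (Ne.symm hz)]
    simp
  · intro hh
    exact absurd (Finset.mem_univ _) hh

/-- the adjoint of the action of the group algebra on a function of `s` cards -/
lemma inner_act_cardFn {s : ℕ} (m : MonoidAlgebra ℝ (Equiv.Perm X)) (y : Fin s ↪ X)
    (φ : (Fin s ↪ X) → ℝ) (v : EuclideanSpace ℝ (Equiv.Perm X)) :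
    ⟪act (reg X) m v, cardFn y φ⟫ = ⟪v, cardFn y ((pmat s m).transpose.mulVec φ)⟫ := by
  induction m using MonoidAlgebra.induction_linear with
  | zero =>
    have h0 : cardFn y (0 : (Fin s ↪ X) → ℝ) = 0 := (cardL y).map_zero
    simp [h0]
  | add f g hf hg =>
    have h1 : cardFn y ((pmat s (f + g)).transpose.mulVec φ) =
        cardFn y ((pmat s f).transpose.mulVec φ) + cardFn y ((pmat s g).transpose.mulVec φ) := by
      rw [map_add, Matrix.transpose_add, Matrix.add_mulVec]
      exact (cardL y).map_add _ _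
    rw [h1, inner_add_right, ← hf, ← hg, map_add, ← inner_add_left]
    rfl
  | single g r =>
    have h1 : act (reg X) (MonoidAlgebra.single g r) v = r • reg X g v := by
      simp [act]
    have h2 : cardFn y ((pmat s (MonoidAlgebra.single g r)).transpose.mulVec φ) =
        r • reg X g⁻¹ (cardFn y φ) := by
      ext h
      rw [single_apply_smul]
      simp only [PiLp.smul_apply, reg_apply, smul_eq_mul, inv_inv]
      simp [cardFn, mul_smul]
    rw [h1, h2, real_inner_smul_left, real_inner_smul_right, ← reg_orth X g v,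
      ← mul_apply_eq_comp (reg X g), ← map_mul, mul_inv_cancel, map_one]
    rfl

lemma adjoint_act_cardFn {s : ℕ} (m : MonoidAlgebra ℝ (Equiv.Perm X)) (y : Fin s ↪ X)
    (φ : (Fin s ↪ X) → ℝ) :
    (act (reg X) m).adjoint (cardFn y φ) = cardFn y ((pmat s m).transpose.mulVec φ) := by
  refine ext_inner_left ℝ fun v => ?_
  rw [ContinuousLinearMap.adjoint_inner_right]
  exact inner_act_cardFn m y φ v

/-! ### Right translations -/

/-- right translation -/
def rtr (τ : Equiv.Perm X) :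
    EuclideanSpace ℝ (Equiv.Perm X) ≃ₗᵢ[ℝ] EuclideanSpace ℝ (Equiv.Perm X) :=
  LinearIsometryEquiv.piLpCongrLeft 2 ℝ ℝ (Equiv.mulRight τ)

lemma rtr_apply (τ : Equiv.Perm X) (v : EuclideanSpace ℝ (Equiv.Perm X)) (h : Equiv.Perm X) :
    rtr τ v h = v (h * τ⁻¹) := by
  rfl

lemma rtr_act (τ : Equiv.Perm X) (m : MonoidAlgebra ℝ (Equiv.Perm X))
    (v : EuclideanSpace ℝ (Equiv.Perm X)) :
    act (reg X) m (rtr τ v) = rtr τ (act (reg X) m v) := by
  induction m using MonoidAlgebra.induction_linear with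
  | zero => simp
  | add f g hf hg =>
    have h1 : ∀ w, act (reg X) (f + g) w = act (reg X) f w + act (reg X) g w := by
      intro w; rw [map_add]; rfl
    rw [h1, h1, hf, hg, map_add]
  | single g r =>
    have h1 : ∀ w, act (reg X) (MonoidAlgebra.single g r) w = r • reg X g w := by
      intro w; simp [act]
    rw [h1, h1, map_smul]
    congr 1

lemma rtr_single (τ : Equiv.Perm X) :
    rtr τ (EuclideanSpace.single (1 : Equiv.Perm X) (1:ℝ)) = EuclideanSpace.single τ (1:ℝ) := by
  ext h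
  rw [rtr_apply]
  simp only [PiLp.single_apply]
  congr 1
  rw [eq_iff_iff, mul_inv_eq_one]

lemma rtr_cardFn {s : ℕ} (τ : Equiv.Perm X) (y : Fin s ↪ X) (φ : (Fin s ↪ X) → ℝ) :
    rtr τ (cardFn y φ) = cardFn (τ⁻¹ • y) φ := by
  ext h
  rw [rtr_apply]
  simp [cardFn, mul_smul]

lemma rtr_mem_lvl {s : ℕ} (τ : Equiv.Perm X) {f : EuclideanSpace ℝ (Equiv.Perm X)}
    (hf : f ∈ lvl X s) : rtr τ f ∈ lvl X s := by
  have h1 : lvl X s ≤ (lvl X s).comap (rtr τ).toLinearEquiv.toLinearMap := by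
    conv_lhs => rw [lvl]
    rw [Submodule.span_le]
    rintro _ ⟨⟨y, φ⟩, rfl⟩
    show rtr τ (cardFn y φ) ∈ lvl X s
    rw [rtr_cardFn]
    exact cardFn_in_lvl _ _
  exact h1 hf

lemma adjoint_mem_lvl {s : ℕ} (m : MonoidAlgebra ℝ (Equiv.Perm X))
    {f : EuclideanSpace ℝ (Equiv.Perm X)} (hf : f ∈ lvl X s) :
    (act (reg X) m).adjoint f ∈ lvl X s := by
  have h1 : lvl X s ≤ (lvl X s).comap ((act (reg X) m).adjoint.toLinearMap) := by
    conv_lhs => rw [lvl]
    rw [Submodule.span_le]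
    rintro _ ⟨⟨y, φ⟩, rfl⟩
    show (act (reg X) m).adjoint (cardFn y φ) ∈ lvl X s
    rw [adjoint_act_cardFn]
    exact cardFn_in_lvl _ _
  exact h1 hf

lemma proj_rtr {s : ℕ} (τ : Equiv.Perm X) (f : EuclideanSpace ℝ (Equiv.Perm X)) :
    (lvl X s).starProjection (rtr τ f) = rtr τ ((lvl X s).starProjection f) := by
  refine Submodule.eq_starProjection_of_mem_of_inner_eq_zero
    (rtr_mem_lvl τ (Submodule.starProjection_apply_mem _ _)) fun w hw => ?_
  have h1 : w = rtr τ (rtr τ⁻¹ w) := by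
    ext h
    simp [rtr_apply]
  rw [h1, ← map_sub, LinearIsometryEquiv.inner_map_map]
  exact Submodule.starProjection_inner_eq_zero _ _ (rtr_mem_lvl τ⁻¹ hw)

lemma norm_proj_single {s : ℕ} (m : MonoidAlgebra ℝ (Equiv.Perm X)) (g : Equiv.Perm X) :
    ‖act (reg X) m ((lvl X s).starProjection (EuclideanSpace.single g (1 : ℝ)))‖ =
      ‖act (reg X) m ((lvl X s).starProjection (EuclideanSpace.single 1 (1 : ℝ)))‖ := by
  rw [← rtr_single g, proj_rtr, rtr_act, LinearIsometryEquiv.norm_map]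

/-! ### The restriction of `A* A` to the level -/

/-- `A* A` on the level -/
def resL (X : Type) [Fintype X] [DecidableEq X] (s : ℕ) (m : MonoidAlgebra ℝ (Equiv.Perm X)) :
    lvl X s →ₗ[ℝ] lvl X s :=
  (((act (reg X) m).adjoint.toLinearMap ∘ₗ (act (reg X) m).toLinearMap) ∘ₗ
    (lvl X s).subtype).codRestrict (lvl X s) fun v =>
      adjoint_mem_lvl m (act_mem_lvl m v.2)

lemma resL_coe {s : ℕ} (m : MonoidAlgebra ℝ (Equiv.Perm X)) (v : lvl X s) :
    ((resL X s m v : lvl X s) : EuclideanSpace ℝ (Equiv.Perm X)) =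
      (act (reg X) m).adjoint (act (reg X) m v) := rfl

lemma trace_resL {s : ℕ} (m : MonoidAlgebra ℝ (Equiv.Perm X)) :
    LinearMap.trace ℝ (lvl X s) (resL X s m) = ((Fintype.card X).factorial : ℝ) *
      ‖act (reg X) m ((lvl X s).starProjection (EuclideanSpace.single 1 (1 : ℝ)))‖ ^ 2 := by
  set P : EuclideanSpace ℝ (Equiv.Perm X) →ₗ[ℝ] lvl X s :=
    (lvl X s).orthogonalProjectionOnto.toLinearMap with hP
  have h0 : ∀ v : EuclideanSpace ℝ (Equiv.Perm X),
      ((P v : lvl X s) : EuclideanSpace ℝ (Equiv.Perm X)) = (lvl X s).starProjection v := by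
    intro v; rfl
  have h1 : resL X s m = (resL X s m ∘ₗ P) ∘ₗ (lvl X s).subtype := by
    ext v
    simp [hP]
  rw [h1, LinearMap.trace_comp_comm', LinearMap.trace_eq_sum_inner _
    (EuclideanSpace.basisFun (Equiv.Perm X) ℝ)]
  have h2 : ∀ g : Equiv.Perm X, ⟪EuclideanSpace.basisFun (Equiv.Perm X) ℝ g,
      ((lvl X s).subtype ∘ₗ resL X s m ∘ₗ P) (EuclideanSpace.basisFun (Equiv.Perm X) ℝ g)⟫ =
      ‖act (reg X) m ((lvl X s).starProjection (EuclideanSpace.single 1 (1 : ℝ)))‖ ^ 2 := by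
    intro g
    rw [← norm_proj_single m g, EuclideanSpace.basisFun_apply]
    simp only [LinearMap.comp_apply, Submodule.subtype_apply, resL_coe, h0]
    set u := (lvl X s).starProjection (EuclideanSpace.single g (1 : ℝ)) with hu
    have hum : u ∈ lvl X s := Submodule.starProjection_apply_mem _ _
    have h3 : ⟪(EuclideanSpace.single g (1 : ℝ) : EuclideanSpace ℝ (Equiv.Perm X)) - u,
        (act (reg X) m).adjoint (act (reg X) m u)⟫ = 0 := 
      Submodule.starProjection_inner_eq_zero _ _ (adjoint_mem_lvl m (act_mem_lvl m hum))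
    rw [inner_sub_left, sub_eq_zero] at h3
    rw [h3, ContinuousLinearMap.adjoint_inner_right, real_inner_self_eq_norm_sq]
  rw [Finset.sum_congr rfl fun g _ => h2 g, Finset.sum_const, Finset.card_univ,
      Fintype.card_perm, nsmul_eq_mul]

/-! ### The direct sum over the sets of cards -/

/-- the sets of `s` cards -/
abbrev Sets (X : Type) [Fintype X] [DecidableEq X] (s : ℕ) := {S : Finset X // S.card = s}

/-- an enumeration of a set of `s` cards -/
def enumS {s : ℕ} (S : Sets X s) : Fin s ↪ X :=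
  (S.1.equivFinOfCardEq S.2).symm.toEmbedding.trans (Function.Embedding.subtype _)

lemma range_enumS {s : ℕ} (S : Sets X s) (x : X) (hx : x ∈ S.1) : ∃ i, enumS S i = x :=
  ⟨S.1.equivFinOfCardEq S.2 ⟨x, hx⟩, by simp [enumS]⟩

lemma exists_perm {s : ℕ} (y : Fin s ↪ X) :
    ∃ (S : Sets X s) (π : Fin s ↪ Fin s), y = π.trans (enumS S) := by
  refine ⟨⟨Finset.univ.map y, by simp⟩, ?_⟩
  have h1 : ∀ i, ∃ j, enumS (⟨Finset.univ.map y, by simp⟩ : Sets X s) j = y i := fun i =>
    range_enumS _ _ (by simp)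
  choose π hπ using h1
  refine ⟨⟨π, fun i j hij => ?_⟩, ?_⟩
  · apply y.injective
    rw [← hπ i, ← hπ j, hij]
  · ext i
    exact (hπ i).symm

/-- the block diagonal matrix -/
def blk (X : Type) [Fintype X] [DecidableEq X] (s : ℕ)
    (C : Matrix (Fin s ↪ X) (Fin s ↪ X) ℝ) :
    Matrix ((Fin s ↪ X) × Sets X s) ((Fin s ↪ X) × Sets X s) ℝ :=
  Matrix.blockDiagonal fun _ => C

/-- the sum of the functions of cards -/
def sumT (X : Type) [Fintype X] [DecidableEq X] (s : ℕ) :
    EuclideanSpace ℝ ((Fin s ↪ X) × Sets X s) →ₗ[ℝ] lvl X s where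
  toFun v := ⟨∑ S : Sets X s, cardFn (enumS S) (fun x => v (x, S)),
    Submodule.sum_mem _ fun S _ => cardFn_in_lvl _ _⟩
  map_add' v w := by
    apply Subtype.ext
    rw [Submodule.coe_add]
    simp only
    rw [← Finset.sum_add_distrib]
    exact Finset.sum_congr rfl fun S _ =>
      (cardL (enumS S)).map_add (fun x => v (x, S)) (fun x => w (x, S))
  map_smul' c v := by
    apply Subtype.ext
    rw [Submodule.coe_smul]
    simp only [RingHom.id_apply]
    rw [Finset.smul_sum]
    exact Finset.sum_congr rfl fun S _ => (cardL (enumS S)).map_smul c (fun x => v (x, S))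

lemma sumT_coe {s : ℕ} (v : EuclideanSpace ℝ ((Fin s ↪ X) × Sets X s)) :
    ((sumT X s v : lvl X s) : EuclideanSpace ℝ (Equiv.Perm X)) =
      ∑ S : Sets X s, cardFn (enumS S) (fun x => v (x, S)) := rfl

lemma blk_apply {s : ℕ} (C : Matrix (Fin s ↪ X) (Fin s ↪ X) ℝ)
    (v : EuclideanSpace ℝ ((Fin s ↪ X) × Sets X s)) (x : Fin s ↪ X) (S : Sets X s) :
    (Matrix.toLpLin 2 2 (blk X s C) v) (x, S) = C.mulVec (fun z => v (z, S)) x := by
  rw [Matrix.toLpLin_apply]
  simp only [Matrix.mulVec, dotProduct, blk, Fintype.sum_prod_type]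
  refine Finset.sum_congr rfl fun z _ => ?_
  rw [Finset.sum_eq_single S]
  · rw [Matrix.blockDiagonal_apply_eq]
  · intro S' _ hS'
    rw [Matrix.blockDiagonal_apply_ne _ _ _ (Ne.symm hS'), zero_mul]
  · intro h
    exact absurd (Finset.mem_univ _) h

lemma sumT_surjective (s : ℕ) : Function.Surjective (sumT X s) := by
  have h1 : lvl X s ≤ LinearMap.range ((lvl X s).subtype ∘ₗ sumT X s) := by
    conv_lhs => rw [lvl]
    rw [Submodule.span_le]
    rintro _ ⟨⟨y, φ⟩, rfl⟩
    obtain ⟨S, π, hy⟩ := exists_perm y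
    refine ⟨WithLp.toLp 2 fun p => if p.2 = S then φ (π.trans p.1) else 0, ?_⟩
    rw [LinearMap.comp_apply, Submodule.subtype_apply, sumT_coe]
    rw [Finset.sum_eq_single S]
    · ext h
      simp only [cardFn, hy, if_true]
      congr 1
    · intro S' _ hS'
      simp only [if_neg hS']
      exact (cardL (enumS S')).map_zero
    · intro h
      exact absurd (Finset.mem_univ _) h
  intro z
  obtain ⟨v, hv⟩ := h1 z.2
  exact ⟨v, Subtype.ext hv⟩

lemma blk_pos {s : ℕ} (B : Matrix (Fin s ↪ X) (Fin s ↪ X) ℝ) :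
    (Matrix.toLpLin 2 2 (blk X s (B.transpose * B))).IsPositive := by
  have h1 : blk X s (B.transpose * B) = (blk X s B).conjTranspose * blk X s B := by
    rw [Matrix.conjTranspose_eq_transpose_of_trivial, blk, blk, Matrix.blockDiagonal_transpose,
      ← Matrix.blockDiagonal_mul]
  rw [h1]
  exact Matrix.isPositive_toEuclideanLin_iff.2 (Matrix.posSemidef_conjTranspose_mul_self _)

/-- `n! ‖A P_s δ‖² ≤ C(n, s) tr ((A_s)ᵀ A_s)`, `P_s` the projection on the functions of `s` cards -/
theorem trace_level {s : ℕ} (hs : s ≤ Fintype.card X) (m : MonoidAlgebra ℝ (Equiv.Perm X)) :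
    ((Fintype.card X).factorial : ℝ) *
      ‖act (reg X) m ((lvl X s).starProjection (EuclideanSpace.single 1 (1 : ℝ)))‖ ^ 2 ≤
      ((Fintype.card X).choose s : ℝ) * ((pmat s m).transpose * pmat s m).trace := by
  rw [← trace_resL]
  have h1 := trace_le_of_surjective
    (Matrix.toLpLin 2 2 (blk X s ((pmat s m).transpose * pmat s m))) ?_ ?_ (resL X s m)
    (sumT X s) (sumT_surjective s) ?_
  · refine h1.trans (le_of_eq ?_)
    have h2 : LinearMap.trace ℝ _ (Matrix.toLpLin 2 2
        (blk X s ((pmat s m).transpose * pmat s m))) =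
        (blk X s ((pmat s m).transpose * pmat s m)).trace := by
      rw [Matrix.toLpLin_eq_toLin, Matrix.trace_toLin_eq]
    rw [h2, blk, Matrix.trace_blockDiagonal, Finset.sum_const, nsmul_eq_mul, Finset.card_univ]
    congr 2
    rw [Fintype.card_finset_len]
  · exact (blk_pos _).1
  · intro v
    exact (blk_pos (pmat s m)).2 v
  · intro v
    apply Subtype.ext
    rw [resL_coe, sumT_coe, sumT_coe, map_sum, map_sum]
    refine Finset.sum_congr rfl fun S _ => ?_
    rw [act_cardFn, adjoint_act_cardFn, Matrix.mulVec_mulVec]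
    congr 1
    ext x
    exact blk_apply _ _ _ _

end

end Vale.Agent.P162F
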