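import Vale.Agent.Lib.P162F.LevelNorm
import Vale.Agent.Lib.P162F.TraceLevel
import Vale.Agent.Lib.P162F.Tail
import Vale.Agent.Lib.P162F.PassTrace
import Vale.Agent.Lib.P162F.Numeric

/-!
# P162F.Assembly: the `L²` norm after a bounded number of passes
-/

namespace Vale.Agent.P162F

open Vale.Agent.P162
open scoped RealInnerProductSpace

noncomputable section

section general

variable {X : Type} [Fintype X] [DecidableEq X]

/-- the projections on the levels commute with the action -/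
theorem proj_act (s : ℕ) (m : MonoidAlgebra ℝ (Equiv.Perm X))
    (f : EuclideanSpace ℝ (Equiv.Perm X)) :
    (lvl X s).starProjection (act (reg X) m f) =
      act (reg X) m ((lvl X s).starProjection f) := by
  refine Submodule.eq_starProjection_of_mem_of_inner_eq_zero
    (act_mem_lvl m (Submodule.starProjection_apply_mem _ _)) ?_
  intro w hw
  rw [← map_sub]
  have h : f - (lvl X s).starProjection f ∈ (lvl X s)ᗮ :=
    Submodule.sub_starProjection_mem_orthogonal _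
  exact (Submodule.mem_orthogonal' _ _).mp (inner_act_lvl m h) w hw

end general

variable (e : ℕ)

/-- the deck -/
abbrev Deck (e : ℕ) := Fin (2 * 2 ^ e)

/-- the vector space -/
abbrev EV (e : ℕ) := EuclideanSpace ℝ (Equiv.Perm (Deck e))

/-- one pass as an operator -/
def passOp (e : ℕ) : EV e →L[ℝ] EV e := act (reg (Deck e)) (passElt e)

theorem passOp_eq : passOp e = (thorpOp (2 ^ e)) ^ (e + 1) := by
  rw [passOp, passElt, map_pow]
  rfl

theorem passOp_pow (N : ℕ) : passOp e ^ N = act (reg (Deck e)) (passElt e ^ N) := by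
  rw [passOp, map_pow]

theorem proj_passOp_pow (s N : ℕ) (f : EV e) :
    (lvl (Deck e) s).starProjection ((passOp e ^ N) f) =
      (passOp e ^ N) ((lvl (Deck e) s).starProjection f) := by
  rw [passOp_pow]
  exact proj_act s _ f

/-- the point mass at the identity -/
def del (e : ℕ) : EV e := EuclideanSpace.single 1 (1 : ℝ)

/-- the component of exact level `s + 1` -/
def comp (e s : ℕ) : EV e :=
  (lvl (Deck e) (s + 1)).starProjection (del e) - (lvl (Deck e) s).starProjection (del e)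

theorem comp_mem {s : ℕ} (hs : s + 1 ≤ 2 * 2 ^ e) : comp e s ∈ lvl (Deck e) (s + 1) :=
  Submodule.sub_mem _ (Submodule.starProjection_apply_mem _ _)
    (lvl_mono (X := Deck e) (Nat.le_succ s) (by rw [Fintype.card_fin]; exact hs)
      (Submodule.starProjection_apply_mem _ _))

theorem comp_mem' {s : ℕ} (hs : s + 1 ≤ 2 * 2 ^ e) : comp e s ∈ (lvl (Deck e) s)ᗮ := by
  have h1 : del e - (lvl (Deck e) s).starProjection (del e) ∈ (lvl (Deck e) s)ᗮ :=
    Submodule.sub_starProjection_mem_orthogonal _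
  have h2 : del e - (lvl (Deck e) (s + 1)).starProjection (del e) ∈ (lvl (Deck e) s)ᗮ := by
    refine Submodule.orthogonal_le
      (lvl_mono (X := Deck e) (Nat.le_succ s) (by rw [Fintype.card_fin]; exact hs)) ?_
    exact Submodule.sub_starProjection_mem_orthogonal _
  have h3 : comp e s = (del e - (lvl (Deck e) s).starProjection (del e)) -
      (del e - (lvl (Deck e) (s + 1)).starProjection (del e)) := by
    rw [comp]; abel
  rw [h3]
  exact Submodule.sub_mem _ h1 h2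

theorem pass_trace' (J : ℕ) (hJ : J = 512) (k q : ℕ) (hq : 1 ≤ q) :
    ((((pmat k (passElt e)).transpose * pmat k (passElt e)) ^ J).trace) ≤
      Real.exp (128 * k / 2 ^ q + (2 : ℝ) ^ (128 * q) * (k * (k / 2 ^ (e + 1)))) := by
  subst hJ
  exact pass_trace e k q hq

theorem pass_hs' (J : ℕ) (hJ : J = 512) (k q : ℕ) (hq : 1 ≤ q) :
    ((pmat k (passElt e ^ J)).transpose * pmat k (passElt e ^ J)).trace ≤
      Real.exp (128 * k / 2 ^ q + (2 : ℝ) ^ (128 * q) * (k * (k / 2 ^ (e + 1)))) := by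
  subst hJ
  exact pass_hs e k q hq

/-- `512` passes: Hilbert–Schmidt bound -/
theorem hs_bound (J : ℕ) (hJ : J = 512) {s q : ℕ} (hs : s + 1 ≤ 2 * 2 ^ e) (hq : 1 ≤ q) :
    ((2 * 2 ^ e).factorial : ℝ) * ‖(passOp e ^ J) (comp e s)‖ ^ 2 ≤
      ((2 * 2 ^ e).choose (s + 1) : ℝ) *
        Real.exp (128 * (s + 1 : ℕ) / 2 ^ q +
          (2 : ℝ) ^ (128 * q) * ((s + 1 : ℕ) * ((s + 1 : ℕ) / 2 ^ (e + 1)))) := by
  have h1 := trace_level (X := Deck e) (s := s + 1) (by rw [Fintype.card_fin]; exact hs)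
    (passElt e ^ J)
  rw [Fintype.card_fin] at h1
  -- `A (P_{s+1} - P_s) δ = (1 - P_s) A P_{s+1} δ`
  have h2 : ‖(passOp e ^ J) (comp e s)‖ ≤
      ‖(passOp e ^ J) ((lvl (Deck e) (s + 1)).starProjection (del e))‖ := by
    set w := (passOp e ^ J) ((lvl (Deck e) (s + 1)).starProjection (del e)) with hw
    have hP : (lvl (Deck e) s).starProjection ((lvl (Deck e) (s + 1)).starProjection (del e)) =
        (lvl (Deck e) s).starProjection (del e) := by
      have h3 : (lvl (Deck e) s).starProjection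
          ((lvl (Deck e) (s + 1)).starProjection (del e) - del e) = 0 := by
        rw [Submodule.starProjection_apply_eq_zero_iff]
        have h2 : del e - (lvl (Deck e) (s + 1)).starProjection (del e) ∈ (lvl (Deck e) s)ᗮ := by
          refine Submodule.orthogonal_le
            (lvl_mono (X := Deck e) (Nat.le_succ s) (by rw [Fintype.card_fin]; exact hs)) ?_
          exact Submodule.sub_starProjection_mem_orthogonal _
        have := Submodule.neg_mem _ h2
        rwa [neg_sub] at this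
      rw [map_sub, sub_eq_zero] at h3
      exact h3
    have h3 : (passOp e ^ J) (comp e s) = w - (lvl (Deck e) s).starProjection w := by
      rw [comp, map_sub, hw, proj_passOp_pow, hP]
    rw [h3]
    have h4 : w - (lvl (Deck e) s).starProjection w = ((lvl (Deck e) s)ᗮ).starProjection w := by
      rw [Submodule.starProjection_orthogonal_val]
    rw [h4]
    exact Submodule.norm_starProjection_apply_le _ _
  have h5 : ((2 * 2 ^ e).factorial : ℝ) * ‖(passOp e ^ J) (comp e s)‖ ^ 2 ≤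
      ((2 * 2 ^ e).factorial : ℝ) *
        ‖(passOp e ^ J) ((lvl (Deck e) (s + 1)).starProjection (del e))‖ ^ 2 := by
    gcongr
  refine h5.trans ?_
  rw [passOp_pow]
  refine h1.trans ?_
  gcongr
  exact pass_hs' e J hJ (s + 1) q hq

/-- iterating the level norm -/
theorem level_iter {s : ℕ} (β : ℝ) (hβ0 : 0 ≤ β)
    (hβ : ∀ f : EV e, f ∈ lvl (Deck e) (s + 1) → f ∈ (lvl (Deck e) s)ᗮ →
      ‖passOp e f‖ ^ 2 ≤ β * ‖f‖ ^ 2)
    (f : EV e) (hf : f ∈ lvl (Deck e) (s + 1)) (hf' : f ∈ (lvl (Deck e) s)ᗮ) (N : ℕ) :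
    ‖(passOp e ^ N) f‖ ^ 2 ≤ β ^ N * ‖f‖ ^ 2 := by
  induction N with
  | zero => simp
  | succ N ih =>
    have h1 : (passOp e ^ (N + 1)) f = passOp e ((passOp e ^ N) f) := by
      rw [pow_succ', mul_apply_eq_comp]
    have hm : (passOp e ^ N) f ∈ lvl (Deck e) (s + 1) := by
      rw [passOp_pow]; exact act_mem_lvl _ hf
    have hm' : (passOp e ^ N) f ∈ (lvl (Deck e) s)ᗮ := by
      rw [passOp_pow]; exact inner_act_lvl _ hf'
    rw [h1]
    calc ‖passOp e ((passOp e ^ N) f)‖ ^ 2 ≤ β * ‖(passOp e ^ N) f‖ ^ 2 := hβ _ hm hm'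
      _ ≤ β * (β ^ N * ‖f‖ ^ 2) := by gcongr
      _ = β ^ (N + 1) * ‖f‖ ^ 2 := by ring

/-- the low levels -/
theorem low_level (J : ℕ) (hJ : J = 512) {s q K N : ℕ} (hq : 400 ≤ q) (hK : 1 ≤ K) (hN : 1 ≤ N)
    (h1 : 2 ^ (130 * q) * (s + 1) ≤ 2 * 2 ^ e) (h2 : 2 * 2 ^ e < 2 ^ (130 * (q + 1)) * (s + 1)) :
    Real.sqrt ((2 * 2 ^ e).factorial : ℝ) *
      ‖(passOp e ^ (J * (1 + 1048 * K * N))) (comp e s)‖ ≤
        (((s + 1 : ℕ) : ℝ) / ((2 * 2 ^ e : ℕ) : ℝ)) ^ ((s + 1) * N) := by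
  set n : ℕ := 2 * 2 ^ e with hn
  have hnpos : 0 < n := by positivity
  have hn' : (0 : ℝ) < n := by exact_mod_cast hnpos
  have hpow1 : 4 ≤ 2 ^ (130 * q) := by
    calc 4 = 2 ^ 2 := by norm_num
      _ ≤ 2 ^ (130 * q) := Nat.pow_le_pow_right (by norm_num) (by omega)
  have hsn : 4 * (s + 1) ≤ n := (Nat.mul_le_mul_right _ hpow1).trans h1
  have hsn1 : s + 1 ≤ n := by omega
  set k : ℕ := (s + 1) * 2 ^ q with hk
  have hkn : k ≤ n := by
    refine le_trans ?_ h1
    rw [hk, mul_comm]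
    exact Nat.mul_le_mul_right _ (Nat.pow_le_pow_right (by norm_num) (by omega))
  have hsk : s + 1 ≤ k := Nat.le_mul_of_pos_right _ (by positivity)
  have hnR : ((n : ℕ) : ℝ) = 2 ^ (e + 1) := by rw [hn]; push_cast; ring
  have h1R : (2 : ℝ) ^ (130 * q) * ((s + 1 : ℕ) : ℝ) ≤ n := by exact_mod_cast h1
  have hq1 : 1 ≤ q := by omega
  -- the level norm
  set g : ℝ := 3 * Real.exp 129 / 2 ^ q with hg
  have hg0 : 0 < g := by positivity
  set β : ℝ := (g ^ (s + 1)) ^ ((J : ℝ)⁻¹) with hβ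
  have hβ0 : 0 ≤ β := by positivity
  have hJ0 : (J : ℝ) ≠ 0 := by rw [hJ]; norm_num
  have hβ512 : β ^ J = g ^ (s + 1) := by
    rw [hβ, ← Real.rpow_natCast, ← Real.rpow_mul (by positivity), inv_mul_cancel₀ hJ0,
      Real.rpow_one]
  have htr : 3 ^ (s + 1) * ((((pmat k (passElt e)).transpose * pmat k (passElt e)) ^ J).trace) ≤
      β ^ J * (k.choose (s + 1) : ℝ) := by
    have h3 := pass_trace' e J hJ k q hq1
    have h4 : 128 * (k : ℝ) / 2 ^ q + (2 : ℝ) ^ (128 * q) * (k * (k / 2 ^ (e + 1))) ≤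
        129 * ((s + 1 : ℕ) : ℝ) := by
      have h5 : (k : ℝ) = ((s + 1 : ℕ) : ℝ) * 2 ^ q := by rw [hk]; push_cast; ring
      have h6 : 128 * (k : ℝ) / 2 ^ q = 128 * ((s + 1 : ℕ) : ℝ) := by
        rw [h5]; field_simp
      have h7 : (2 : ℝ) ^ (128 * q) * (k * (k / 2 ^ (e + 1))) ≤ ((s + 1 : ℕ) : ℝ) := by
        rw [← hnR, h5]
        have h8 : (2 : ℝ) ^ (128 * q) * (((s + 1 : ℕ) : ℝ) * 2 ^ q *
            (((s + 1 : ℕ) : ℝ) * 2 ^ q / n)) =
            ((s + 1 : ℕ) : ℝ) * (((2 : ℝ) ^ (130 * q) * ((s + 1 : ℕ) : ℝ)) / n) := by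
          have h9 : (2 : ℝ) ^ (130 * q) = (2 : ℝ) ^ (128 * q) * 2 ^ q * 2 ^ q := by
            rw [← pow_add, ← pow_add]; congr 1; ring
          rw [h9]; ring
        rw [h8]
        have h10 : ((2 : ℝ) ^ (130 * q) * ((s + 1 : ℕ) : ℝ)) / n ≤ 1 := by
          rw [div_le_one hn']; exact h1R
        exact mul_le_of_le_one_right (Nat.cast_nonneg _) h10
      rw [h6]
      linarith
    have h5 : (((pmat k (passElt e)).transpose * pmat k (passElt e)) ^ J).trace ≤
        Real.exp (129 * ((s + 1 : ℕ) : ℝ)) := h3.trans (Real.exp_le_exp.mpr h4)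
    have h6 : ((2 : ℝ) ^ q) ^ (s + 1) ≤ (k.choose (s + 1) : ℝ) := by
      have := pow_le_choose_mul (2 ^ q) (s + 1) Nat.one_le_two_pow
      rw [← hk] at this
      exact_mod_cast this
    have h7 : Real.exp (129 * ((s + 1 : ℕ) : ℝ)) = Real.exp 129 ^ (s + 1) := by
      rw [← Real.exp_nat_mul]; ring_nf
    rw [hβ512]
    calc 3 ^ (s + 1) * ((((pmat k (passElt e)).transpose * pmat k (passElt e)) ^ J).trace)
        ≤ 3 ^ (s + 1) * Real.exp 129 ^ (s + 1) := by rw [← h7]; gcongr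
      _ = g ^ (s + 1) * ((2 : ℝ) ^ q) ^ (s + 1) := by
          rw [← mul_pow, ← mul_pow, hg, div_mul_cancel₀ _ (by positivity)]
      _ ≤ g ^ (s + 1) * (k.choose (s + 1) : ℝ) := by gcongr
  have hlev : ∀ f : EV e, f ∈ lvl (Deck e) (s + 1) → f ∈ (lvl (Deck e) s)ᗮ →
      ‖passOp e f‖ ^ 2 ≤ β * ‖f‖ ^ 2 := by
    intro f hf hf'
    exact level_norm (X := Deck e) (J := J) hsk (by rw [Fintype.card_fin]; exact hkn)
      (by rw [Fintype.card_fin]; exact hsn) (by omega) (passElt e) β hβ0 htr f hf hf'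
  -- iterate
  have hcm : (passOp e ^ J) (comp e s) ∈ lvl (Deck e) (s + 1) := by
    rw [passOp_pow]; exact act_mem_lvl _ (comp_mem e hsn1)
  have hcm' : (passOp e ^ J) (comp e s) ∈ (lvl (Deck e) s)ᗮ := by
    rw [passOp_pow]; exact inner_act_lvl _ (comp_mem' e hsn1)
  have hit := level_iter e β hβ0 hlev _ hcm hcm' (J * (1048 * K * N))
  have hsplit : (passOp e ^ (J * (1 + 1048 * K * N))) (comp e s) =
      (passOp e ^ (J * (1048 * K * N))) ((passOp e ^ J) (comp e s)) := by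
    rw [← mul_apply_eq_comp, ← pow_add]
    congr 2
    ring
  rw [← hsplit, pow_mul β, hβ512] at hit
  have hhs := hs_bound e J hJ (s := s) (q := q) hsn1 hq1
  have hhs2 : ((n.factorial : ℕ) : ℝ) * ‖(passOp e ^ J) (comp e s)‖ ^ 2 ≤
      (n.choose (s + 1) : ℝ) * Real.exp (129 * ((s + 1 : ℕ) : ℝ)) := by
    refine hhs.trans (mul_le_mul_of_nonneg_left (Real.exp_le_exp.mpr ?_) (Nat.cast_nonneg _))
    have h8 : 128 * ((s + 1 : ℕ) : ℝ) / 2 ^ q ≤ 128 * ((s + 1 : ℕ) : ℝ) :=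
      div_le_self (mul_nonneg (by norm_num) (Nat.cast_nonneg _)) (one_le_pow₀ (by norm_num))
    have h9 : (2 : ℝ) ^ (128 * q) * (((s + 1 : ℕ) : ℝ) * (((s + 1 : ℕ) : ℝ) / 2 ^ (e + 1))) ≤
        ((s + 1 : ℕ) : ℝ) := by
      rw [← hnR]
      have h10 : (2 : ℝ) ^ (128 * q) * (((s + 1 : ℕ) : ℝ) * (((s + 1 : ℕ) : ℝ) / n)) =
          ((s + 1 : ℕ) : ℝ) * (((2 : ℝ) ^ (128 * q) * ((s + 1 : ℕ) : ℝ)) / n) := by ring
      rw [h10]
      refine mul_le_of_le_one_right (Nat.cast_nonneg _) ?_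
      rw [div_le_one hn']
      refine le_trans (mul_le_mul_of_nonneg_right ?_ (Nat.cast_nonneg _)) h1R
      exact pow_le_pow_right₀ (by norm_num) (by omega)
    linarith
  have hnum := low_numeric n (s + 1) q K N (Nat.succ_pos s) hq hK hN h1 h2
  rw [← hg] at hnum
  have hfin : (Real.sqrt ((n.factorial : ℕ) : ℝ) *
      ‖(passOp e ^ (J * (1 + 1048 * K * N))) (comp e s)‖) ^ 2 ≤
      ((((s + 1 : ℕ) : ℝ) / (n : ℝ)) ^ ((s + 1) * N)) ^ 2 := by
    rw [mul_pow, Real.sq_sqrt (Nat.cast_nonneg _)]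
    calc ((n.factorial : ℕ) : ℝ) * ‖(passOp e ^ (J * (1 + 1048 * K * N))) (comp e s)‖ ^ 2
        ≤ ((n.factorial : ℕ) : ℝ) * ((g ^ (s + 1)) ^ (1048 * K * N) *
            ‖(passOp e ^ J) (comp e s)‖ ^ 2) :=
          mul_le_mul_of_nonneg_left hit (Nat.cast_nonneg _)
      _ = (g ^ (s + 1)) ^ (1048 * K * N) * (((n.factorial : ℕ) : ℝ) *
            ‖(passOp e ^ J) (comp e s)‖ ^ 2) := by ring
      _ ≤ (g ^ (s + 1)) ^ (1048 * K * N) *
            ((n.choose (s + 1) : ℝ) * Real.exp (129 * ((s + 1 : ℕ) : ℝ))) :=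
          mul_le_mul_of_nonneg_left hhs2 (by positivity)
      _ ≤ _ := hnum
  exact le_of_sq_le_sq hfin (pow_nonneg (div_nonneg (Nat.cast_nonneg _) (Nat.cast_nonneg _)) _)

/-- iterating the contraction of the high levels -/
theorem tail_iter {m : ℕ} (hm : m ≤ 2 * 2 ^ e) (f : EV e) (hf : f ∈ (lvl (Deck e) m)ᗮ) (N : ℕ) :
    ‖(passOp e ^ N) f‖ ^ 2 ≤ Real.exp (-((m : ℝ) + 1) / 128) ^ N * ‖f‖ ^ 2 := by
  induction N with
  | zero => simp
  | succ N ih =>
    have h1 : (passOp e ^ (N + 1)) f = passOp e ((passOp e ^ N) f) := by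
      rw [pow_succ', mul_apply_eq_comp]
    have hm' : (passOp e ^ N) f ∈ (lvl (Deck e) m)ᗮ := by
      rw [passOp_pow]; exact inner_act_lvl _ hf
    have h2 := tail_pass e m hm _ hm'
    rw [← passOp_eq] at h2
    rw [h1]
    calc ‖passOp e ((passOp e ^ N) f)‖ ^ 2
        ≤ Real.exp (-((m : ℝ) + 1) / 128) * ‖(passOp e ^ N) f‖ ^ 2 := h2
      _ ≤ Real.exp (-((m : ℝ) + 1) / 128) *
          (Real.exp (-((m : ℝ) + 1) / 128) ^ N * ‖f‖ ^ 2) :=
          mul_le_mul_of_nonneg_left ih (Real.exp_pos _).le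
      _ = Real.exp (-((m : ℝ) + 1) / 128) ^ (N + 1) * ‖f‖ ^ 2 := by ring

/-- `J = 512` passes, the whole space -/
theorem hs_all (J : ℕ) (hJ : J = 512) :
    ((2 * 2 ^ e).factorial : ℝ) * ‖(passOp e ^ J) (del e)‖ ^ 2 ≤
      Real.exp ((64 + (2 : ℝ) ^ 128) * ((2 * 2 ^ e : ℕ) : ℝ)) := by
  have h1 := trace_level (X := Deck e) (s := Fintype.card (Deck e)) le_rfl (passElt e ^ J)
  rw [lvl_card, Nat.choose_self, Nat.cast_one, one_mul, Submodule.starProjection_top] at h1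
  have h2 : Fintype.card (Deck e) = 2 * 2 ^ e := Fintype.card_fin _
  have h3 := pass_hs' e J hJ (Fintype.card (Deck e)) 1 le_rfl
  rw [passOp_pow]
  refine (le_trans (le_of_eq ?_) (h1.trans h3)).trans (Real.exp_le_exp.mpr ?_)
  · rw [h2]
    rfl
  · rw [h2]
    have h4 : (2 : ℝ) ^ (e + 1) = ((2 * 2 ^ e : ℕ) : ℝ) := by push_cast; ring
    have h5 : ((2 * 2 ^ e : ℕ) : ℝ) ≠ 0 := by
      have : (0 : ℕ) < 2 * 2 ^ e := Nat.mul_pos (by norm_num) (Nat.pow_pos (by norm_num))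
      exact_mod_cast this.ne'
    rw [h4, div_self h5, mul_one, mul_one, pow_one]
    refine le_of_eq ?_
    ring

/-- the high levels -/
theorem high_level (J : ℕ) (hJ : J = 512) {m K N : ℕ} (hm : m ≤ 2 * 2 ^ e) (hN : 1 ≤ N)
    (hK : (((2 * 2 ^ e : ℕ) : ℝ)) * ((2 : ℝ) ^ 128 + 66) ≤ 4192 * K * (m + 1)) :
    Real.sqrt ((2 * 2 ^ e).factorial : ℝ) *
      ‖(passOp e ^ (J * (1 + 1048 * K * N)))
        (del e - (lvl (Deck e) m).starProjection (del e))‖ ≤
        ((1 : ℝ) / ((2 * 2 ^ e : ℕ) : ℝ)) ^ N := by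
  set n : ℕ := 2 * 2 ^ e with hn
  have hnpos : 0 < n := Nat.mul_pos (by norm_num) (Nat.pow_pos (by norm_num))
  have hn' : (0 : ℝ) < n := by exact_mod_cast hnpos
  set w : EV e := del e - (lvl (Deck e) m).starProjection (del e) with hw
  have hwm : w ∈ (lvl (Deck e) m)ᗮ := Submodule.sub_starProjection_mem_orthogonal _
  have hAw : (passOp e ^ J) w ∈ (lvl (Deck e) m)ᗮ := by
    rw [passOp_pow]; exact inner_act_lvl _ hwm
  have hit := tail_iter e hm _ hAw (J * (1048 * K * N))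
  have hsplit : (passOp e ^ (J * (1 + 1048 * K * N))) w =
      (passOp e ^ (J * (1048 * K * N))) ((passOp e ^ J) w) := by
    rw [← mul_apply_eq_comp, ← pow_add]
    congr 2
    ring
  rw [← hsplit] at hit
  have hexp : Real.exp (-((m : ℝ) + 1) / 128) ^ (J * (1048 * K * N)) =
      Real.exp (-(4192 * K * (m + 1) * N)) := by
    rw [← Real.exp_nat_mul, hJ]
    congr 1
    push_cast
    ring
  rw [hexp] at hit
  have hnorm : ‖(passOp e ^ J) w‖ ≤ ‖(passOp e ^ J) (del e)‖ := by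
    have h3 : (passOp e ^ J) w = (passOp e ^ J) (del e) -
        (lvl (Deck e) m).starProjection ((passOp e ^ J) (del e)) := by
      rw [hw, map_sub, proj_passOp_pow]
    rw [h3]
    have h4 : (passOp e ^ J) (del e) - (lvl (Deck e) m).starProjection ((passOp e ^ J) (del e)) =
        ((lvl (Deck e) m)ᗮ).starProjection ((passOp e ^ J) (del e)) := by
      rw [Submodule.starProjection_orthogonal_val]
    rw [h4]
    exact Submodule.norm_starProjection_apply_le _ _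
  have hall : ((n.factorial : ℕ) : ℝ) * ‖(passOp e ^ J) (del e)‖ ^ 2 ≤
      Real.exp ((64 + (2 : ℝ) ^ 128) * (n : ℝ)) := hs_all e J hJ
  have hfin : (Real.sqrt ((n.factorial : ℕ) : ℝ) *
      ‖(passOp e ^ (J * (1 + 1048 * K * N))) w‖) ^ 2 ≤ (((1 : ℝ) / (n : ℝ)) ^ N) ^ 2 := by
    rw [mul_pow, Real.sq_sqrt (Nat.cast_nonneg _)]
    calc ((n.factorial : ℕ) : ℝ) * ‖(passOp e ^ (J * (1 + 1048 * K * N))) w‖ ^ 2
        ≤ ((n.factorial : ℕ) : ℝ) * (Real.exp (-(4192 * K * (m + 1) * N)) *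
            ‖(passOp e ^ J) w‖ ^ 2) := mul_le_mul_of_nonneg_left hit (Nat.cast_nonneg _)
      _ ≤ ((n.factorial : ℕ) : ℝ) * (Real.exp (-(4192 * K * (m + 1) * N)) *
            ‖(passOp e ^ J) (del e)‖ ^ 2) := by
          refine mul_le_mul_of_nonneg_left (mul_le_mul_of_nonneg_left ?_ (Real.exp_pos _).le)
            (Nat.cast_nonneg _)
          exact pow_le_pow_left₀ (norm_nonneg _) hnorm 2
      _ = Real.exp (-(4192 * K * (m + 1) * N)) * (((n.factorial : ℕ) : ℝ) *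
            ‖(passOp e ^ J) (del e)‖ ^ 2) := by ring
      _ ≤ Real.exp (-(4192 * K * (m + 1) * N)) *
            Real.exp ((64 + (2 : ℝ) ^ 128) * (n : ℝ)) :=
          mul_le_mul_of_nonneg_left hall (Real.exp_pos _).le
      _ = Real.exp (-(4192 * K * (m + 1) * N) + (64 + (2 : ℝ) ^ 128) * (n : ℝ)) := by
          rw [Real.exp_add]
      _ ≤ Real.exp (((2 * N : ℕ) : ℝ) * (-(n : ℝ))) := by
          refine Real.exp_le_exp.mpr ?_
          have hN' : (1 : ℝ) ≤ N := by exact_mod_cast hN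
          have h5 : (n : ℝ) * ((2 : ℝ) ^ 128 + 66) * N ≤ 4192 * K * (m + 1) * N :=
            mul_le_mul_of_nonneg_right hK (by linarith)
          have h6 : (0 : ℝ) ≤ (n : ℝ) * ((2 : ℝ) ^ 128 + 64) * (N - 1) := by
            refine mul_nonneg (mul_nonneg hn'.le ?_) (by linarith)
            have : (0 : ℝ) ≤ (2 : ℝ) ^ 128 := pow_nonneg (by norm_num) _
            linarith
          push_cast
          nlinarith
      _ = (Real.exp (-(n : ℝ))) ^ (2 * N) := by rw [Real.exp_nat_mul]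
      _ ≤ ((1 : ℝ) / (n : ℝ)) ^ (2 * N) := by
          refine pow_le_pow_left₀ (Real.exp_pos _).le ?_ _
          rw [Real.exp_neg, one_div]
          refine inv_anti₀ hn' ?_
          have := Real.add_one_le_exp (n : ℝ)
          linarith
      _ = (((1 : ℝ) / (n : ℝ)) ^ N) ^ 2 := by rw [← pow_mul, mul_comm]
  exact le_of_sq_le_sq hfin (pow_nonneg (div_nonneg zero_le_one (Nat.cast_nonneg _)) _)

/-- the projection on the constants -/
theorem proj_zero : (lvl (Deck e) 0).starProjection (del e) = unif (Deck e) := by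
  refine Submodule.eq_starProjection_of_mem_of_inner_eq_zero ?_ ?_
  · rw [lvl_zero, Submodule.mem_span_singleton]
    refine ⟨1 / (Fintype.card (Equiv.Perm (Deck e)) : ℝ), ?_⟩
    ext g
    simp [unif]
  · intro w hw
    rw [lvl_zero, Submodule.mem_span_singleton] at hw
    obtain ⟨c, rfl⟩ := hw
    have h1 : (WithLp.toLp 2 (fun _ => (1 : ℝ)) : EV e) =
        (Fintype.card (Equiv.Perm (Deck e)) : ℝ) • unif (Deck e) := by
      have hc : (Fintype.card (Equiv.Perm (Deck e)) : ℝ) ≠ 0 := by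
        exact_mod_cast Fintype.card_ne_zero
      ext g
      simp only [unif, PiLp.smul_apply, smul_eq_mul]
      field_simp
    rw [h1, inner_smul_right, inner_smul_right, inner_sub_left, inner_unif_unif,
      real_inner_comm, del, inner_unif_single, sub_self, mul_zero, mul_zero]

/-- telescoping -/
theorem telescope (m : ℕ) :
    del e - unif (Deck e) = (∑ s ∈ Finset.range m, comp e s) +
      (del e - (lvl (Deck e) m).starProjection (del e)) := by
  have h : ∑ s ∈ Finset.range m, comp e s =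
      (lvl (Deck e) m).starProjection (del e) - (lvl (Deck e) 0).starProjection (del e) :=
    Finset.sum_range_sub (fun s => (lvl (Deck e) s).starProjection (del e)) m
  rw [h, proj_zero]
  abel

/-- for each low level there is a good scale `q` -/
theorem exists_scale (n s q₁ : ℕ) (hs : 0 < s) (h : 2 ^ (130 * q₁) * s ≤ n) :
    ∃ q, q₁ ≤ q ∧ 2 ^ (130 * q) * s ≤ n ∧ n < 2 ^ (130 * (q + 1)) * s := by
  classical
  have hex : ∃ q, n < 2 ^ (130 * (q + 1)) * s := by
    refine ⟨n, ?_⟩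
    calc n < 2 ^ n := Nat.lt_two_pow_self
      _ ≤ 2 ^ (130 * (n + 1)) := Nat.pow_le_pow_right (by norm_num) (by omega)
      _ ≤ 2 ^ (130 * (n + 1)) * s := Nat.le_mul_of_pos_right _ hs
  set q := Nat.find hex with hq
  have h1 : n < 2 ^ (130 * (q + 1)) * s := Nat.find_spec hex
  have h2 : q₁ ≤ q := by
    by_contra hlt
    push Not at hlt
    have h3 : 2 ^ (130 * (q + 1)) ≤ 2 ^ (130 * q₁) :=
      Nat.pow_le_pow_right (by norm_num) (by omega)
    have h4 := Nat.mul_le_mul_right s h3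
    omega
  refine ⟨q, h2, ?_, h1⟩
  rcases Nat.eq_zero_or_pos q with h0 | h0
  · rw [h0]
    have h3 : 2 ^ (130 * 0) ≤ 2 ^ (130 * q₁) := Nat.pow_le_pow_right (by norm_num) (by omega)
    exact (Nat.mul_le_mul_right s h3).trans h
  · by_contra hlt
    push Not at hlt
    have h3 : q ≤ q - 1 := by
      refine Nat.find_min' hex ?_
      rw [Nat.sub_add_cancel h0]
      exact hlt
    omega

/-- the whole function -/
theorem chi_bound (J : ℕ) (hJ : J = 512) (q₁ K N : ℕ) (hq : 400 ≤ q₁) (hN : 1 ≤ N)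
    (hK : (2 : ℝ) ^ (130 * q₁) * ((2 : ℝ) ^ 128 + 66) ≤ K) :
    Real.sqrt ((2 * 2 ^ e).factorial : ℝ) *
      ‖(passOp e ^ (J * (1 + 1048 * K * N))) (del e - unif (Deck e))‖ ≤
        3 * ((1 : ℝ) / ((2 * 2 ^ e : ℕ) : ℝ)) ^ N := by
  set n : ℕ := 2 * 2 ^ e with hn
  have hnpos : 0 < n := Nat.mul_pos (by norm_num) (Nat.pow_pos (by norm_num))
  have hn' : (0 : ℝ) < n := by exact_mod_cast hnpos
  have hK1 : 1 ≤ K := by
    have h1 : (1 : ℝ) ≤ 2 ^ (130 * q₁) := one_le_pow₀ (by norm_num)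
    have h2 : (0 : ℝ) ≤ (2 : ℝ) ^ 128 := pow_nonneg (by norm_num) _
    have h3 : (1 : ℝ) ≤ K := by nlinarith
    exact_mod_cast h3
  set m : ℕ := n / 2 ^ (130 * q₁) with hm
  have hmn : m * 2 ^ (130 * q₁) ≤ n := Nat.div_mul_le_self _ _
  have hmn' : n < 2 ^ (130 * q₁) * (m + 1) := by
    rw [hm]
    exact Nat.lt_mul_div_succ n (Nat.pow_pos (by norm_num))
  have hpow4 : 4 ≤ 2 ^ (130 * q₁) := by
    calc 4 = 2 ^ 2 := by norm_num
      _ ≤ 2 ^ (130 * q₁) := Nat.pow_le_pow_right (by norm_num) (by omega)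
  have h4m : 4 * m ≤ n := by
    rw [mul_comm]
    exact (Nat.mul_le_mul_left m hpow4).trans hmn
  have hmle : m ≤ n := by omega
  rw [telescope e m, map_add, map_sum]
  have hKn : (n : ℝ) * ((2 : ℝ) ^ 128 + 66) ≤ 4192 * K * (m + 1) := by
    have h1 : (n : ℝ) ≤ 2 ^ (130 * q₁) * ((m : ℝ) + 1) := by exact_mod_cast hmn'.le
    have h2 : (0 : ℝ) ≤ (2 : ℝ) ^ 128 := pow_nonneg (by norm_num) _
    have h3 : (n : ℝ) * ((2 : ℝ) ^ 128 + 66) ≤
        2 ^ (130 * q₁) * ((m : ℝ) + 1) * ((2 : ℝ) ^ 128 + 66) :=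
      mul_le_mul_of_nonneg_right h1 (by linarith)
    have h4 : (0 : ℝ) ≤ (m : ℝ) + 1 := add_nonneg (Nat.cast_nonneg _) zero_le_one
    have h5 : (2 : ℝ) ^ (130 * q₁) * ((2 : ℝ) ^ 128 + 66) * ((m : ℝ) + 1) ≤ K * ((m : ℝ) + 1) :=
      mul_le_mul_of_nonneg_right hK h4
    have h6 : (0 : ℝ) ≤ K * ((m : ℝ) + 1) := mul_nonneg (Nat.cast_nonneg _) h4
    nlinarith
  have hhigh : Real.sqrt ((n.factorial : ℕ) : ℝ) *
      ‖(passOp e ^ (J * (1 + 1048 * K * N)))
        (del e - (lvl (Deck e) m).starProjection (del e))‖ ≤ ((1 : ℝ) / (n : ℝ)) ^ N :=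
    high_level e J hJ hmle hN hKn
  have hlow : ∀ s ∈ Finset.range m, Real.sqrt ((n.factorial : ℕ) : ℝ) *
      ‖(passOp e ^ (J * (1 + 1048 * K * N))) (comp e s)‖ ≤
        (((s + 1 : ℕ) : ℝ) / (n : ℝ)) ^ ((s + 1) * N) := by
    intro s hs
    rw [Finset.mem_range] at hs
    have h1 : 2 ^ (130 * q₁) * (s + 1) ≤ n := by
      refine le_trans (Nat.mul_le_mul_left _ (Nat.succ_le_of_lt hs)) ?_
      rw [mul_comm]
      exact hmn
    obtain ⟨q, hq1, hq2, hq3⟩ := exists_scale n (s + 1) q₁ (Nat.succ_pos s) h1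
    exact low_level e J hJ (hq.trans hq1) hK1 hN hq2 hq3
  have hsum := sum_low n m N hN hnpos h4m
  have htri : ‖∑ s ∈ Finset.range m, (passOp e ^ (J * (1 + 1048 * K * N))) (comp e s) +
      (passOp e ^ (J * (1 + 1048 * K * N)))
        (del e - (lvl (Deck e) m).starProjection (del e))‖ ≤
      ∑ s ∈ Finset.range m, ‖(passOp e ^ (J * (1 + 1048 * K * N))) (comp e s)‖ +
      ‖(passOp e ^ (J * (1 + 1048 * K * N)))
        (del e - (lvl (Deck e) m).starProjection (del e))‖ :=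
    (norm_add_le _ _).trans (add_le_add_left (norm_sum_le _ _) _)
  calc Real.sqrt ((n.factorial : ℕ) : ℝ) * _ ≤ Real.sqrt ((n.factorial : ℕ) : ℝ) * _ :=
        mul_le_mul_of_nonneg_left htri (Real.sqrt_nonneg _)
    _ = ∑ s ∈ Finset.range m, Real.sqrt ((n.factorial : ℕ) : ℝ) *
          ‖(passOp e ^ (J * (1 + 1048 * K * N))) (comp e s)‖ +
        Real.sqrt ((n.factorial : ℕ) : ℝ) * ‖(passOp e ^ (J * (1 + 1048 * K * N)))
          (del e - (lvl (Deck e) m).starProjection (del e))‖ := by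
        rw [mul_add, Finset.mul_sum]
    _ ≤ 2 * ((1 : ℝ) / n) ^ N + ((1 : ℝ) / (n : ℝ)) ^ N :=
        add_le_add ((Finset.sum_le_sum hlow).trans hsum) hhigh
    _ = 3 * ((1 : ℝ) / (n : ℝ)) ^ N := by ring

end

end Vale.Agent.P162F
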