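import Vale.Agent.Lib.P162F.Defs

/-!
# P162F.Avg: averages over coordinates
-/

namespace Vale.Agent.P162F

open Vale.Agent.P162

noncomputable section

variable {ι A : Type*} [DecidableEq ι] [Fintype A] [Nonempty A]

omit [Nonempty A] in
theorem av_mono {i : ι} {f g : (ι → A) → ℝ} (h : ∀ ω, f ω ≤ g ω) (ω : ι → A) :
    av i f ω ≤ av i g ω := by
  unfold av
  gcongr
  exact h _

omit [Nonempty A] in
theorem avL_mono {l : List ι} {f g : (ι → A) → ℝ} (h : ∀ ω, f ω ≤ g ω) (ω : ι → A) :
    avL l f ω ≤ avL l g ω := by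
  induction l generalizing ω with
  | nil => exact h ω
  | cons i l ih => exact av_mono ih ω

omit [Nonempty A] in
@[simp] theorem avL_nil (f : (ι → A) → ℝ) : avL [] f = f := rfl

omit [Nonempty A] in
@[simp] theorem avL_cons (i : ι) (l : List ι) (f : (ι → A) → ℝ) :
    avL (i :: l) f = av i (avL l f) := rfl

omit [Nonempty A] in
theorem avL_append (l l' : List ι) (f : (ι → A) → ℝ) : avL (l ++ l') f = avL l (avL l' f) := by
  simp [avL, List.foldr_append]

theorem av_of_indep {i : ι} {f : (ι → A) → ℝ} (h : Indep i f) : av i f = f := by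
  funext ω
  have hA : (Fintype.card A : ℝ) ≠ 0 := by
    exact_mod_cast Fintype.card_ne_zero
  rw [av, Finset.sum_congr rfl fun a _ => h ω a, Finset.sum_const, Finset.card_univ,
    nsmul_eq_mul]
  field_simp

theorem avL_of_indep {l : List ι} {f : (ι → A) → ℝ} (h : ∀ i ∈ l, Indep i f) : avL l f = f := by
  induction l with
  | nil => rfl
  | cons i l ih =>
    rw [avL_cons, ih fun i' hi' => h i' (List.mem_cons_of_mem _ hi'),
      av_of_indep (h i List.mem_cons_self)]

theorem avL_const (l : List ι) (c : ℝ) (ω : ι → A) : avL l (fun _ => c) ω = c := by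
  rw [avL_of_indep]
  intro i _ ω a
  rfl

omit [Nonempty A] in
theorem av_mul_left {i : ι} {g : (ι → A) → ℝ} (h : Indep i g) (f : (ι → A) → ℝ) :
    av i (fun ω => g ω * f ω) = fun ω => g ω * av i f ω := by
  funext ω
  have h1 : ∀ a : A, g (Function.update ω i a) * f (Function.update ω i a) =
      g ω * f (Function.update ω i a) := fun a => by rw [h ω a]
  unfold av
  simp only [h1]
  rw [← Finset.mul_sum, mul_div_assoc]

omit [Nonempty A] in
theorem av_smul (c : ℝ) (i : ι) (f : (ι → A) → ℝ) :
    av i (fun ω => c * f ω) = fun ω => c * av i f ω :=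
  av_mul_left (fun _ _ => rfl) f

omit [Nonempty A] in
theorem avL_smul (c : ℝ) (l : List ι) (f : (ι → A) → ℝ) :
    avL l (fun ω => c * f ω) = fun ω => c * avL l f ω := by
  induction l with
  | nil => rfl
  | cons i l ih => rw [avL_cons, ih, av_smul]; rfl

omit [Nonempty A] in
theorem av_sum {κ : Type*} (s : Finset κ) (i : ι) (f : κ → (ι → A) → ℝ) :
    av i (fun ω => ∑ k ∈ s, f k ω) = fun ω => ∑ k ∈ s, av i (f k) ω := by
  funext ω
  unfold av
  rw [Finset.sum_comm, Finset.sum_div]

omit [Nonempty A] in
theorem avL_sum {κ : Type*} (s : Finset κ) (l : List ι) (f : κ → (ι → A) → ℝ) :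
    avL l (fun ω => ∑ k ∈ s, f k ω) = fun ω => ∑ k ∈ s, avL l (f k) ω := by
  induction l with
  | nil => rfl
  | cons i l ih => rw [avL_cons, ih, av_sum]; rfl

omit [Nonempty A] in
theorem av_comm (i i' : ι) (f : (ι → A) → ℝ) : av i (av i' f) = av i' (av i f) := by
  by_cases h : i = i'
  · subst h; rfl
  · funext ω
    unfold av
    rw [← Finset.sum_div, ← Finset.sum_div, Finset.sum_comm]
    congr 2
    refine Finset.sum_congr rfl fun a _ => Finset.sum_congr rfl fun b _ => ?_
    rw [Function.update_comm h]

omit [Nonempty A] in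
theorem avL_perm {l l' : List ι} (h : l.Perm l') (f : (ι → A) → ℝ) : avL l f = avL l' f := by
  induction h with
  | nil => rfl
  | cons i _ ih => rw [avL_cons, avL_cons, ih]
  | swap i j l => rw [avL_cons, avL_cons, avL_cons, avL_cons, av_comm]
  | trans _ _ ih1 ih2 => rw [ih1, ih2]

omit [Nonempty A] in
theorem indep_av (i i' : ι) {f : (ι → A) → ℝ} (h : i = i' ∨ Indep i f) : Indep i (av i' f) := by
  intro ω a
  unfold av
  by_cases hii : i = i'
  · subst hii
    simp only [Function.update_idem]
  · rcases h with h | h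
    · exact absurd h hii
    · congr 1
      refine Finset.sum_congr rfl fun b _ => ?_
      rw [Function.update_comm hii, h]

omit [Nonempty A] in
theorem indep_avL {i : ι} {l : List ι} {f : (ι → A) → ℝ} (h : i ∈ l ∨ Indep i f) :
    Indep i (avL l f) := by
  induction l with
  | nil =>
    rcases h with h | h
    · exact absurd h List.not_mem_nil
    · exact h
  | cons i' l ih =>
    rw [avL_cons]
    refine indep_av _ _ ?_
    rcases h with h | h
    · rcases List.mem_cons.mp h with h | h
      · exact Or.inl h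
      · exact Or.inr (ih (Or.inl h))
    · exact Or.inr (ih (Or.inr h))

omit [Nonempty A] in
theorem avL_nonneg {l : List ι} {f : (ι → A) → ℝ} (h : ∀ ω, 0 ≤ f ω) (ω : ι → A) :
    0 ≤ avL l f ω := by
  induction l generalizing ω with
  | nil => exact h ω
  | cons i l ih =>
    rw [avL_cons]
    exact div_nonneg (Finset.sum_nonneg fun a _ => ih _) (Nat.cast_nonneg _)

theorem avL_le_of_le {l : List ι} {f : (ι → A) → ℝ} {c : ℝ} (h : ∀ ω, f ω ≤ c) (ω : ι → A) :
    avL l f ω ≤ c := (avL_mono h ω).trans (avL_const l c ω).le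

omit [Nonempty A] in
/-- only the configurations that agree with `ω` outside `l` matter -/
theorem avL_mono_of_agree {l : List ι} {f g : (ι → A) → ℝ} (ω : ι → A)
    (h : ∀ ω' : ι → A, (∀ i, i ∉ l → ω' i = ω i) → f ω' ≤ g ω') : avL l f ω ≤ avL l g ω := by
  induction l generalizing ω with
  | nil => exact h ω fun _ _ => rfl
  | cons i l ih =>
    rw [avL_cons, avL_cons]
    unfold av
    gcongr with a _
    refine ih _ fun ω' hω' => h ω' fun i' hi' => ?_
    rw [hω' i' fun h1 => hi' (List.mem_cons_of_mem _ h1)]
    have hne : i' ≠ i := by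
      rintro rfl
      exact hi' List.mem_cons_self
    exact Function.update_of_ne hne _ _

omit [Nonempty A] in
theorem avL_congr_of_agree {l : List ι} {f g : (ι → A) → ℝ} (ω : ι → A)
    (h : ∀ ω' : ι → A, (∀ i, i ∉ l → ω' i = ω i) → f ω' = g ω') : avL l f ω = avL l g ω :=
  le_antisymm (avL_mono_of_agree ω fun ω' h' => (h ω' h').le)
    (avL_mono_of_agree ω fun ω' h' => (h ω' h').ge)

/-- every iterated average is a finite uniform average over points -/
theorem avL_rep (l : List ι) (ω : ι → A) :
    ∃ (N : ℕ) (pt : Fin N → (ι → A)), 0 < N ∧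
      ∀ f : (ι → A) → ℝ, avL l f ω = (∑ i, f (pt i)) / (N : ℝ) := by
  classical
  induction l generalizing ω with
  | nil => exact ⟨1, fun _ => ω, one_pos, fun f => by simp⟩
  | cons i l ih =>
    choose N pt hN hf using fun a : A => ih (Function.update ω i a)
    -- all the `N a` are equal to the same number: use a common multiple
    let M : ℕ := ∏ a : A, N a
    have hM : 0 < M := Finset.prod_pos fun a _ => hN a
    have hdvd : ∀ a, N a ∣ M := fun a => Finset.dvd_prod_of_mem _ (Finset.mem_univ a)
    have key : ∀ (a : A) (f : (ι → A) → ℝ), avL l f (Function.update ω i a) =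
        (∑ p : Fin (M / N a) × Fin (N a), f (pt a p.2)) / (M : ℝ) := by
      intro a f
      rw [hf a f, Fintype.sum_prod_type]
      simp only [Finset.sum_const, Finset.card_univ, Fintype.card_fin, nsmul_eq_mul]
      obtain ⟨c, hc⟩ := hdvd a
      have hNa : (N a : ℝ) ≠ 0 := by exact_mod_cast (hN a).ne'
      have hc0 : c ≠ 0 := by
        rintro rfl
        rw [mul_zero] at hc
        omega
      have hcR : (c : ℝ) ≠ 0 := by exact_mod_cast hc0
      have h2 : M / N a = c := by rw [hc, Nat.mul_div_cancel_left _ (hN a)]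
      have h3 : (M : ℝ) = N a * c := by exact_mod_cast hc
      rw [h2, h3]
      field_simp
    let T := Σ a : A, Fin (M / N a) × Fin (N a)
    let e := Fintype.equivFin T
    have hcardT : (Fintype.card T : ℝ) = Fintype.card A * M := by
      simp only [T, Fintype.card_sigma, Fintype.card_prod, Fintype.card_fin]
      rw [Finset.sum_congr rfl fun a _ => Nat.div_mul_cancel (hdvd a)]
      simp
    refine ⟨Fintype.card T, fun q => pt (e.symm q).1 (e.symm q).2.2, ?_, fun f => ?_⟩
    · have : (0 : ℝ) < Fintype.card T := by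
        rw [hcardT]
        have h1 : (0 : ℝ) < Fintype.card A := by exact_mod_cast Fintype.card_pos
        have h2 : (0 : ℝ) < M := by exact_mod_cast hM
        positivity
      exact_mod_cast this
    · rw [avL_cons, hcardT, e.symm.sum_comp (fun t : T => f (pt t.1 t.2.2)), Fintype.sum_sigma]
      unfold av
      rw [Finset.sum_congr rfl fun a _ => key a f, ← Finset.sum_div, div_div]
      congr 1
      ring

end

end Vale.Agent.P162F
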