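import Vale.Agent.Lib.P162F.Defs

/-!
# P162F.Basic: bits and switches
-/

namespace Vale.Agent.P162F

open Vale.Agent.P162

noncomputable section

variable {d : ℕ}

theorem bit_ext {x y : Cube d} (h : ∀ j < d, bit j x = bit j y) : x = y := by
  funext ⟨j, hj⟩
  simpa [bit, hj] using h j hj

theorem sw_apply {j : ℕ} (hj : j < d) (t : Coin d) (x : Cube d) :
    sw j t x = if t (lo j x) then Function.update x ⟨j, hj⟩ (!x ⟨j, hj⟩) else x := by
  simp only [sw, lo, dif_pos hj]
  rfl

theorem fl_apply {j : ℕ} (hj : j < d) (x : Cube d) :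
    fl j x = Function.update x ⟨j, hj⟩ (!x ⟨j, hj⟩) := by
  rw [fl, sw_apply hj, if_pos rfl]

theorem sw_apply' {j : ℕ} (hj : j < d) (t : Coin d) (x : Cube d) :
    sw j t x = if t (lo j x) then fl j x else x := by
  rw [sw_apply hj, fl_apply hj]

theorem sw_of_le {j : ℕ} (hj : d ≤ j) (t : Coin d) : sw j t = 1 := by
  rw [sw, dif_neg (by omega)]

theorem bit_of_le {j : ℕ} (hj : d ≤ j) (x : Cube d) : bit j x = false := by
  rw [bit, dif_neg (by omega)]

theorem lo_of_le {j : ℕ} (hj : d ≤ j) (x : Cube d) : lo j x = x := by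
  rw [lo, dif_neg (by omega)]

theorem bit_lo_self (j : ℕ) (x : Cube d) : bit j (lo j x) = false := by
  rcases lt_or_ge j d with hj | hj
  · simp [bit, lo, hj]
  · exact bit_of_le hj _

theorem bit_lo_of_ne {i j : ℕ} (h : i ≠ j) (x : Cube d) : bit i (lo j x) = bit i x := by
  rcases lt_or_ge j d with hj | hj
  · rcases lt_or_ge i d with hi | hi
    · have : (⟨i, hi⟩ : Fin d) ≠ ⟨j, hj⟩ := fun h' => h (congrArg Fin.val h')
      simp [bit, lo, hj, hi, Function.update_of_ne this]
    · rw [bit_of_le hi, bit_of_le hi]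
  · rw [lo_of_le hj]

theorem bit_fl_self {j : ℕ} (hj : j < d) (x : Cube d) : bit j (fl j x) = !bit j x := by
  rw [fl_apply hj]; simp [bit, hj]

theorem bit_fl_of_ne {i j : ℕ} (h : i ≠ j) (x : Cube d) : bit i (fl j x) = bit i x := by
  rcases lt_or_ge j d with hj | hj
  · rcases lt_or_ge i d with hi | hi
    · have : (⟨i, hi⟩ : Fin d) ≠ ⟨j, hj⟩ := fun h' => h (congrArg Fin.val h')
      rw [fl_apply hj]
      simp [bit, hi, Function.update_of_ne this]
    · rw [bit_of_le hi, bit_of_le hi]
  · rw [fl, sw_of_le hj]; rfl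

theorem bit_sw_of_ne {i j : ℕ} (h : i ≠ j) (t : Coin d) (x : Cube d) :
    bit i (sw j t x) = bit i x := by
  rcases lt_or_ge j d with hj | hj
  · rw [sw_apply' hj]
    split_ifs
    · exact bit_fl_of_ne h x
    · rfl
  · rw [sw_of_le hj]; rfl

theorem bit_sw_self {j : ℕ} (hj : j < d) (t : Coin d) (x : Cube d) :
    bit j (sw j t x) = xor (t (lo j x)) (bit j x) := by
  rw [sw_apply' hj]
  cases h : t (lo j x)
  · simp
  · simp [bit_fl_self hj]

theorem ext_lo {j : ℕ} {x y : Cube d} (h : lo j x = lo j y) (hb : bit j x = bit j y) : x = y := by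
  refine bit_ext fun i hi => ?_
  by_cases hij : i = j
  · subst hij; exact hb
  · rw [← bit_lo_of_ne hij x, h, bit_lo_of_ne hij]

theorem lo_fl (j : ℕ) (x : Cube d) : lo j (fl j x) = lo j x := by
  refine bit_ext fun i hi => ?_
  by_cases hij : i = j
  · subst hij; rw [bit_lo_self, bit_lo_self]
  · rw [bit_lo_of_ne hij, bit_lo_of_ne hij, bit_fl_of_ne hij]

theorem lo_sw (j : ℕ) (t : Coin d) (x : Cube d) : lo j (sw j t x) = lo j x := by
  refine bit_ext fun i hi => ?_
  by_cases hij : i = j
  · subst hij; rw [bit_lo_self, bit_lo_self]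
  · rw [bit_lo_of_ne hij, bit_lo_of_ne hij, bit_sw_of_ne hij]

theorem lo_of_bit {j : ℕ} {x : Cube d} (h : bit j x = false) : lo j x = x := by
  refine bit_ext fun i hi => ?_
  by_cases hij : i = j
  · subst hij; rw [bit_lo_self, h]
  · rw [bit_lo_of_ne hij]

theorem lo_lo (j : ℕ) (x : Cube d) : lo j (lo j x) = lo j x := lo_of_bit (bit_lo_self j x)

theorem sw_sw (j : ℕ) (t : Coin d) (x : Cube d) : sw j t (sw j t x) = x := by
  rcases lt_or_ge j d with hj | hj
  · refine ext_lo (j := j) (by rw [lo_sw, lo_sw]) ?_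
    rw [bit_sw_self hj, bit_sw_self hj, lo_sw, ← Bool.xor_assoc, Bool.xor_self, Bool.false_xor]
  · rw [sw_of_le hj]; rfl

theorem sw_mul_self (j : ℕ) (t : Coin d) : sw j t * sw j t = 1 := by
  ext1 x; exact sw_sw j t x

theorem sw_inv (j : ℕ) (t : Coin d) : (sw j t)⁻¹ = sw j t :=
  inv_eq_of_mul_eq_one_left (sw_mul_self j t)

theorem fl_fl (j : ℕ) (x : Cube d) : fl j (fl j x) = x := sw_sw j _ x

theorem fl_inv (j : ℕ) : (fl j : Equiv.Perm (Cube d))⁻¹ = fl j := sw_inv j _

theorem fl_mul_self (j : ℕ) : (fl j : Equiv.Perm (Cube d)) * fl j = 1 := sw_mul_self j _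

theorem fl_ne {j : ℕ} (hj : j < d) (x : Cube d) : fl j x ≠ x := by
  intro h
  have := bit_fl_self hj x
  rw [h] at this
  simp at this

theorem lo_eq_lo_iff {j : ℕ} (hj : j < d) (x y : Cube d) :
    lo j x = lo j y ↔ y = x ∨ y = fl j x := by
  constructor
  · intro h
    by_cases hb : bit j x = bit j y
    · exact Or.inl (ext_lo h hb).symm
    · refine Or.inr (ext_lo (j := j) ?_ ?_)
      · rw [lo_fl, h]
      · rw [bit_fl_self hj]
        cases h1 : bit j x <;> cases h2 : bit j y <;> simp_all
  · rintro (rfl | rfl)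
    · rfl
    · rw [lo_fl]

/-- flipping commutes with the switches of another direction, up to relabelling of the coins -/
theorem fl_sw {i j : ℕ} (h : i ≠ j) (t : Coin d) (x : Cube d) :
    fl i (sw j t x) = sw j (t ∘ fl i) (fl i x) := by
  rcases lt_or_ge j d with hj | hj
  · have h1 : fl i (lo j (fl i x)) = lo j x := by
      refine bit_ext fun p hp => ?_
      by_cases hpi : p = i
      · subst hpi
        rw [bit_fl_self hp, bit_lo_of_ne h, bit_fl_self hp, bit_lo_of_ne h, Bool.not_not]
      · by_cases hpj : p = j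
        · subst hpj
          rw [bit_fl_of_ne hpi, bit_lo_self, bit_lo_self]
        · rw [bit_fl_of_ne hpi, bit_lo_of_ne hpj, bit_fl_of_ne hpi, bit_lo_of_ne hpj]
    rw [sw_apply' hj, sw_apply' hj]
    simp only [Function.comp, h1]
    split_ifs
    · refine bit_ext fun p hp => ?_
      by_cases hpi : p = i
      · subst hpi
        rw [bit_fl_self hp, bit_fl_of_ne h, bit_fl_of_ne h, bit_fl_self hp]
      · by_cases hpj : p = j
        · subst hpj
          rw [bit_fl_of_ne hpi, bit_fl_self hp, bit_fl_self hp, bit_fl_of_ne hpi]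
        · rw [bit_fl_of_ne hpi, bit_fl_of_ne hpj, bit_fl_of_ne hpj, bit_fl_of_ne hpi]
    · rfl
  · rw [sw_of_le hj, sw_of_le hj]; rfl

theorem bit_win_of_lt {p : ℕ} (i j : ℕ) (O : ℕ → Coin d) (x : Cube d) (hp : p < j ∨ j + i ≤ p) :
    bit p (win i j O x) = bit p x := by
  induction i generalizing j x with
  | zero => rfl
  | succ i ih =>
    rw [win, Equiv.Perm.mul_apply, bit_sw_of_ne (by omega), ih (j + 1) x (by omega)]

theorem bit_net_of_lt {p : ℕ} (m j : ℕ) (ω : Cfg d) (x : Cube d) (hp : p < j) :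
    bit p (net m j ω x) = bit p x := by
  induction m generalizing j x with
  | zero => rfl
  | succ m ih =>
    rw [net, Equiv.Perm.mul_apply, Equiv.Perm.mul_apply, bit_sw_of_ne (by omega),
      ih (j + 1) _ (by omega), bit_sw_of_ne (by omega)]

theorem bit_inp_of_le {p : ℕ} (m j : ℕ) (ω : Cfg d) (x : Cube d) (hp : p < j ∨ j + m ≤ p) :
    bit p (inp m j ω x) = bit p x := by
  induction m generalizing j x with
  | zero => rfl
  | succ m ih =>
    rw [inp, Equiv.Perm.mul_apply, ih (j + 1) _ (by omega), bit_sw_of_ne (by omega)]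

/-- the network only depends on the layers `j, ..., j + m - 1` -/
theorem net_congr (m j : ℕ) (ω ω' : Cfg d)
    (h : ∀ b l, j ≤ l → l < j + m → ω (b, l) = ω' (b, l)) : net m j ω = net m j ω' := by
  induction m generalizing j with
  | zero => rfl
  | succ m ih =>
    rw [net, net, h true j le_rfl (by omega), h false j le_rfl (by omega),
      ih (j + 1) (fun b l h1 h2 => h b l (by omega) (by omega))]

theorem win_congr (i j : ℕ) (O O' : ℕ → Coin d)
    (h : ∀ l, j ≤ l → l < j + i → O l = O' l) : win i j O = win i j O' := by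
  induction i generalizing j with
  | zero => rfl
  | succ i ih =>
    rw [win, win, h j le_rfl (by omega), ih (j + 1) (fun l h1 h2 => h l (by omega) (by omega))]

theorem inp_congr (m j : ℕ) (ω ω' : Cfg d)
    (h : ∀ l, j ≤ l → l < j + m → ω (false, l) = ω' (false, l)) : inp m j ω = inp m j ω' := by
  induction m generalizing j with
  | zero => rfl
  | succ m ih =>
    rw [inp, inp, h j le_rfl (by omega), ih (j + 1) (fun l h1 h2 => h l (by omega) (by omega))]

/-- splitting off the first `a` output layers and the first `a` input layers -/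
theorem net_add (a b j : ℕ) (ω : Cfg d) :
    net (a + b) j ω = win a j (fun p => ω (true, p)) * net b (j + a) ω * inp a j ω := by
  induction a generalizing j with
  | zero => simp [win, inp]
  | succ a ih =>
    rw [show a + 1 + b = (a + b) + 1 by omega, net, ih (j + 1), win, inp,
      show j + (a + 1) = j + 1 + a by omega]
    simp only [mul_assoc]

end

end Vale.Agent.P162F
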