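import Vale.Agent.Lib.P162F.Defs
import Vale.Agent.Lib.P162.HeatTrace

/-!
# P162F.Cards: functions of `s` cards in `L²` of the symmetric group
-/

namespace Vale.Agent.P162F

open Vale.Agent.P162
open scoped RealInnerProductSpace

noncomputable section

variable {X : Type} [Fintype X] [DecidableEq X]

/-- the function of the positions of the cards `y`; `h : Perm X` sends a card to its position -/
def cardFn {s : ℕ} (y : Fin s ↪ X) (φ : (Fin s ↪ X) → ℝ) : EuclideanSpace ℝ (Equiv.Perm X) :=
  WithLp.toLp 2 (fun h => φ (h • y))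

/-- the span of the functions of `s` cards -/
def lvl (X : Type) [Fintype X] [DecidableEq X] (s : ℕ) :
    Submodule ℝ (EuclideanSpace ℝ (Equiv.Perm X)) :=
  Submodule.span ℝ (Set.range fun p : (Fin s ↪ X) × ((Fin s ↪ X) → ℝ) => cardFn p.1 p.2)

/-- harmonic functions of `s` cards: the sums over the position of one card vanish -/
def Harm {s : ℕ} (φ : (Fin s ↪ X) → ℝ) : Prop :=
  ∀ (c : Fin s) (x : Fin s ↪ X),
    ∑ z : Fin s ↪ X, (if ∀ c', c' ≠ c → z c' = x c' then φ z else 0) = 0

omit [Fintype X] [DecidableEq X] in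
lemma cardFn_apply {s : ℕ} (y : Fin s ↪ X) (φ : (Fin s ↪ X) → ℝ) (h : Equiv.Perm X) :
    cardFn y φ h = φ (h • y) := rfl

omit [Fintype X] [DecidableEq X] in
lemma cardFn_add {s : ℕ} (y : Fin s ↪ X) (φ ψ : (Fin s ↪ X) → ℝ) :
    cardFn y (φ + ψ) = cardFn y φ + cardFn y ψ := rfl

omit [Fintype X] [DecidableEq X] in
lemma cardFn_smul {s : ℕ} (y : Fin s ↪ X) (r : ℝ) (φ : (Fin s ↪ X) → ℝ) :
    cardFn y (r • φ) = r • cardFn y φ := rfl

lemma cardFn_mem_lvl {s : ℕ} (y : Fin s ↪ X) (φ : (Fin s ↪ X) → ℝ) : cardFn y φ ∈ lvl X s :=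
  Submodule.subset_span ⟨(y, φ), rfl⟩

lemma reg_cardFn {s : ℕ} (g : Equiv.Perm X) (y : Fin s ↪ X) (φ : (Fin s ↪ X) → ℝ) :
    reg X g (cardFn y φ) = cardFn y (fun x => φ (g⁻¹ • x)) := by
  ext h
  rw [reg_apply, cardFn_apply, cardFn_apply, mul_smul]

lemma permMat_mulVec {s : ℕ} (g : Equiv.Perm X) (φ : (Fin s ↪ X) → ℝ) :
    (permMat s g).mulVec φ = fun x => φ (g⁻¹ • x) := by
  funext x
  rw [Matrix.mulVec, dotProduct, Finset.sum_eq_single (g⁻¹ • x)]
  · simp [permMat]
  · intro z _ hz
    have : g • z ≠ x := fun h => hz (by rw [← h, inv_smul_smul])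
    simp [permMat, this]
  · intro h; exact absurd (Finset.mem_univ _) h

lemma act_single (g : Equiv.Perm X) (r : ℝ) :
    act (reg X) (MonoidAlgebra.single g r) = r • reg X g := by
  simp [act, MonoidAlgebra.lift_single]

lemma pmat_single (s : ℕ) (g : Equiv.Perm X) (r : ℝ) :
    pmat s (MonoidAlgebra.single g r) = r • permMat s g := by
  simp [pmat, MonoidAlgebra.lift_single]

/-- action of the group algebra on a function of `s` cards -/
theorem act_cardFn {s : ℕ} (m : MonoidAlgebra ℝ (Equiv.Perm X)) (y : Fin s ↪ X)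
    (φ : (Fin s ↪ X) → ℝ) :
    act (reg X) m (cardFn y φ) = cardFn y ((pmat s m).mulVec φ) := by
  induction m using MonoidAlgebra.induction_linear with
  | zero =>
    rw [map_zero, map_zero, Matrix.zero_mulVec]
    rfl
  | add a b ha hb =>
    rw [map_add, map_add, Matrix.add_mulVec, cardFn_add, ← ha, ← hb]
    rfl
  | single g r =>
    rw [act_single, pmat_single, Matrix.smul_mulVec, permMat_mulVec, cardFn_smul, ← reg_cardFn]
    rfl

theorem act_mem_lvl {s : ℕ} (m : MonoidAlgebra ℝ (Equiv.Perm X))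
    {f : EuclideanSpace ℝ (Equiv.Perm X)} (hf : f ∈ lvl X s) : act (reg X) m f ∈ lvl X s := by
  have hle : lvl X s ≤ (lvl X s).comap (act (reg X) m).toLinearMap := by
    refine Submodule.span_le.mpr ?_
    rintro _ ⟨p, rfl⟩
    change act (reg X) m (cardFn p.1 p.2) ∈ lvl X s
    rw [act_cardFn]
    exact cardFn_mem_lvl _ _
  exact hle hf

lemma reg_mem_lvl {s : ℕ} (g : Equiv.Perm X)
    {f : EuclideanSpace ℝ (Equiv.Perm X)} (hf : f ∈ lvl X s) : reg X g f ∈ lvl X s := by
  have h := act_mem_lvl (MonoidAlgebra.single g (1 : ℝ)) hf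
  rwa [act_single, one_smul] at h

lemma reg_mem_orth {s : ℕ} (g : Equiv.Perm X)
    {f : EuclideanSpace ℝ (Equiv.Perm X)} (hf : f ∈ (lvl X s)ᗮ) : reg X g f ∈ (lvl X s)ᗮ := by
  rw [Submodule.mem_orthogonal] at hf ⊢
  intro v hv
  have h1 : v = reg X g (reg X g⁻¹ v) := by
    ext h
    rw [reg_apply, reg_apply, inv_inv, mul_inv_cancel_left]
  rw [h1, reg_orth X]
  exact hf _ (reg_mem_lvl _ hv)

/-- the adjoint of the action of `m` also preserves the levels -/
theorem inner_act_lvl {s : ℕ} (m : MonoidAlgebra ℝ (Equiv.Perm X))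
    {f : EuclideanSpace ℝ (Equiv.Perm X)} (hf : f ∈ (lvl X s)ᗮ) :
    act (reg X) m f ∈ (lvl X s)ᗮ := by
  induction m using MonoidAlgebra.induction_linear with
  | zero =>
    rw [map_zero]
    exact Submodule.zero_mem _
  | add a b ha hb =>
    rw [map_add]
    exact Submodule.add_mem _ ha hb
  | single g r =>
    rw [act_single]
    exact Submodule.smul_mem _ r (reg_mem_orth g hf)

lemma lvl_succ {s : ℕ} (hs : s + 1 ≤ Fintype.card X) : lvl X s ≤ lvl X (s + 1) := by
  refine Submodule.span_le.mpr ?_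
  rintro _ ⟨p, rfl⟩
  obtain ⟨y, φ⟩ := p
  obtain ⟨z, hz⟩ : ∃ z : X, z ∉ Set.range y := by
    by_contra hcon
    push Not at hcon
    have hsurj : Function.Surjective y := hcon
    have h1 := Fintype.card_le_of_surjective y hsurj
    rw [Fintype.card_fin] at h1
    omega
  have h1 : cardFn y φ = cardFn (Fin.Embedding.snoc y hz)
      (fun x => φ (Fin.Embedding.init x)) := by
    ext h
    rw [cardFn_apply, cardFn_apply]
    congr 1
    ext i
    change h (y i) = h ((Fin.Embedding.snoc y hz) i.castSucc)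
    rw [Fin.Embedding.snoc_castSucc]
  change cardFn y φ ∈ lvl X (s + 1)
  rw [h1]
  exact cardFn_mem_lvl _ _

theorem lvl_mono {s s' : ℕ} (h : s ≤ s') (hs' : s' ≤ Fintype.card X) : lvl X s ≤ lvl X s' := by
  induction s', h using Nat.le_induction with
  | base => exact le_rfl
  | succ k hk ih => exact (ih (by omega)).trans (lvl_succ hs')

theorem lvl_card : lvl X (Fintype.card X) = ⊤ := by
  rw [eq_top_iff]
  intro f _
  set y : Fin (Fintype.card X) ↪ X := (Fintype.equivFin X).symm.toEmbedding with hy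
  have hinj : Function.Injective (fun h : Equiv.Perm X => h • y) := by
    intro h h' hh
    ext x
    have h1 := congrArg (fun e : Fin (Fintype.card X) ↪ X => e (Fintype.equivFin X x)) hh
    simp only [Function.Embedding.smul_apply, hy, Equiv.coe_toEmbedding,
      Equiv.symm_apply_apply, Equiv.Perm.smul_def] at h1
    exact h1
  have h1 : f = cardFn y (Function.extend (fun h : Equiv.Perm X => h • y) f 0) := by
    ext h
    rw [cardFn_apply]
    exact (hinj.extend_apply f 0 h).symm
  rw [h1]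
  exact cardFn_mem_lvl _ _

theorem lvl_zero : lvl X 0 = Submodule.span ℝ {WithLp.toLp 2 (fun _ => (1 : ℝ))} := by
  apply le_antisymm
  · refine Submodule.span_le.mpr ?_
    rintro _ ⟨p, rfl⟩
    obtain ⟨y, φ⟩ := p
    rw [SetLike.mem_coe, Submodule.mem_span_singleton]
    refine ⟨φ y, ?_⟩
    ext h
    rw [cardFn_apply, Subsingleton.elim (h • y) y]
    simp
  · rw [Submodule.span_singleton_le_iff_mem]
    have h1 : (WithLp.toLp 2 (fun _ => (1 : ℝ)) : EuclideanSpace ℝ (Equiv.Perm X)) =
        cardFn (⟨fun i => i.elim0, fun i => i.elim0⟩ : Fin 0 ↪ X) (fun _ => 1) := rfl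
    rw [h1]
    exact cardFn_mem_lvl _ _

lemma exists_emb_of_le [Nonempty X] {s : ℕ} (hs : s ≤ Fintype.card X) (y : Fin s → X) :
    ∃ (y' : Fin s ↪ X) (σ : Fin s → Fin s), ∀ l, y l = y' (σ l) := by
  classical
  have h1 : (Finset.univ.image y).card ≤ s := by
    refine Finset.card_image_le.trans ?_
    rw [Finset.card_univ, Fintype.card_fin]
  obtain ⟨A, hA1, _, hA2⟩ := Finset.exists_subsuperset_card_eq
    (Finset.subset_univ (Finset.univ.image y)) h1 (by rwa [Finset.card_univ])
  set e : Fin s ≃ A := (finCongr hA2.symm).trans A.equivFin.symm with he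
  refine ⟨e.toEmbedding.trans (Function.Embedding.subtype _),
    fun l => e.symm ⟨y l, hA1 (Finset.mem_image_of_mem _ (Finset.mem_univ _))⟩, fun l => ?_⟩
  simp

lemma cardW_le_lvl [Nonempty X] {s : ℕ} (hs : s ≤ Fintype.card X) : cardW X s ≤ lvl X s := by
  classical
  refine Submodule.span_le.mpr ?_
  rintro _ ⟨p, rfl⟩
  obtain ⟨x, y⟩ := p
  obtain ⟨y', σ, hσ⟩ := exists_emb_of_le hs y
  have h1 : cardF s (x, y) = cardFn y' (fun z => if ∀ l, z (σ l) = x l then (1 : ℝ) else 0) := by
    ext h
    rw [cardFn_apply]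
    simp only [cardF]
    refine if_congr ?_ rfl rfl
    rw [funext_iff]
    refine forall_congr' fun l => ?_
    rw [Function.Embedding.smul_apply, ← hσ, Equiv.Perm.smul_def, Equiv.Perm.inv_eq_iff_eq]
    exact eq_comm
  change cardF s (x, y) ∈ lvl X s
  rw [h1]
  exact cardFn_mem_lvl _ _

/-- landed level condition -/
theorem level_of_orth_lvl [Nonempty X] {s : ℕ} (hs : s ≤ Fintype.card X)
    (w : EuclideanSpace ℝ (Equiv.Perm X)) (hw : w ∈ (lvl X s)ᗮ) :
    LevelGE (reg X) Finset.univ (s + 1) w :=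
  level_of_orth s w (Submodule.orthogonal_le (cardW_le_lvl hs) hw)

/-- the number of permutations with given positions of the cards -/
lemma card_smul_eq {k : ℕ} (y x : Fin k ↪ X) :
    (Finset.univ.filter fun h : Equiv.Perm X => h • y = x).card = (Fintype.card X - k).factorial := by
  classical
  have hk : k ≤ Fintype.card X := by
    have := Fintype.card_le_of_embedding y
    rwa [Fintype.card_fin] at this
  -- all the fibres have the same cardinality
  have h1 : ∀ z : Fin k ↪ X, (Finset.univ.filter fun h : Equiv.Perm X => h • y = z).card =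
      (Finset.univ.filter fun h : Equiv.Perm X => h • y = x).card := by
    intro z
    obtain ⟨g, hg⟩ := Equiv.Perm.exists_smul_eq_embedding z x
    refine Finset.card_bij (fun h _ => g * h) ?_ ?_ ?_
    · intro h hh
      rw [Finset.mem_filter] at hh ⊢
      refine ⟨Finset.mem_univ _, ?_⟩
      rw [mul_smul, hh.2, hg]
    · intro a _ b _ hab
      exact mul_left_cancel hab
    · intro b hb
      rw [Finset.mem_filter] at hb
      refine ⟨g⁻¹ * b, ?_, by group⟩
      rw [Finset.mem_filter]
      refine ⟨Finset.mem_univ _, ?_⟩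
      rw [mul_smul, hb.2, ← hg, inv_smul_smul]
  have h2 : (Fintype.card X).factorial = ∑ z : Fin k ↪ X,
      (Finset.univ.filter fun h : Equiv.Perm X => h • y = z).card := by
    rw [← Finset.card_eq_sum_card_fiberwise (fun h _ => Finset.mem_univ _), Finset.card_univ,
      Fintype.card_perm]
  rw [Finset.sum_congr rfl fun z _ => h1 z, Finset.sum_const, Finset.card_univ,
    Fintype.card_embedding_eq, Fintype.card_fin, smul_eq_mul, mul_comm] at h2
  have h3 := Nat.factorial_mul_descFactorial hk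
  have h4 : 0 < (Fintype.card X).descFactorial k := Nat.descFactorial_pos.mpr hk
  rw [← h3] at h2
  exact (Nat.eq_of_mul_eq_mul_right h4 h2).symm

/-- the law of the positions of `k` cards: each placement has the same number of permutations -/
theorem sum_smul_eq {k : ℕ} (y : Fin k ↪ X) (F : (Fin k ↪ X) → ℝ) :
    ∑ h : Equiv.Perm X, F (h • y) =
      ((Fintype.card X - k).factorial : ℝ) * ∑ x : Fin k ↪ X, F x := by
  classical
  rw [← Finset.sum_fiberwise_of_maps_to (g := fun h : Equiv.Perm X => h • y)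
    (fun h _ => Finset.mem_univ _), Finset.mul_sum]
  refine Finset.sum_congr rfl fun x _ => ?_
  rw [← card_smul_eq y x, ← nsmul_eq_mul, ← Finset.sum_const]
  refine Finset.sum_congr rfl fun h hh => ?_
  rw [(Finset.mem_filter.mp hh).2]

end

end Vale.Agent.P162F
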