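import Mathlib
import Vale.Agent.Lib.P162.ThorpPass

/-!
# P162F: definitions for the proof that the Thorp shuffle of `2 ^ d` cards mixes in `O(d)` shuffles

Blueprint: `Vale/Agent/Lib/P162F/blueprint.md`.
-/

namespace Vale.Agent.P162F

open Vale.Agent.P162

noncomputable section

/-! ### The cube, the switches -/

/-- positions -/
abbrev Cube (d : ℕ) := Fin d → Bool

/-- the coins of one layer of switches -/
abbrev Coin (d : ℕ) := Cube d → Bool

/-- the bit `j` of `x` (`false` if `j ≥ d`) -/
def bit {d : ℕ} (j : ℕ) (x : Cube d) : Bool := if h : j < d then x ⟨j, h⟩ else false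

/-- the layer of switches in direction `j` with coins `t` (the identity if `j ≥ d`) -/
def sw {d : ℕ} (j : ℕ) (t : Coin d) : Equiv.Perm (Cube d) :=
  if h : j < d then Pass.flp ⟨j, h⟩ t else 1

/-- flip the bit `j` -/
def fl {d : ℕ} (j : ℕ) : Equiv.Perm (Cube d) := sw j (fun _ => true)

/-- set the bit `j` to `false` -/
def lo {d : ℕ} (j : ℕ) (x : Cube d) : Cube d :=
  if h : j < d then Function.update x ⟨j, h⟩ false else x

/-! ### Averages over coordinates -/

section avg

variable {ι A : Type*} [DecidableEq ι] [Fintype A]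

/-- the average over the coordinate `i` -/
def av (i : ι) (f : (ι → A) → ℝ) : (ι → A) → ℝ :=
  fun ω => (∑ a : A, f (Function.update ω i a)) / (Fintype.card A : ℝ)

/-- the average over a list of coordinates -/
def avL (l : List ι) (f : (ι → A) → ℝ) : (ι → A) → ℝ := l.foldr av f

/-- `f` does not depend on the coordinate `i` -/
def Indep (i : ι) (f : (ι → A) → ℝ) : Prop := ∀ ω a, f (Function.update ω i a) = f ω

end avg

/-! ### Networks -/

/-- the product `sw j (O j) * sw (j + 1) (O (j + 1)) * ... * sw (j + i - 1) (O (j + i - 1))` -/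
def win {d : ℕ} : (i j : ℕ) → (ℕ → Coin d) → Equiv.Perm (Cube d)
  | 0, _, _ => 1
  | i + 1, j, O => sw j (O j) * win i (j + 1) O

/-- indices of the layers: `(false, j)` is the input layer `j`, `(true, j)` the output layer `j` -/
abbrev Idx := Bool × ℕ

/-- configurations of all the coins -/
abbrev Cfg (d : ℕ) := Idx → Coin d

/-- the symmetric network with the layers `j, ..., j + m - 1` -/
def net {d : ℕ} : (m j : ℕ) → Cfg d → Equiv.Perm (Cube d)
  | 0, _, _ => 1
  | m + 1, j, ω => sw j (ω (true, j)) * net m (j + 1) ω * sw j (ω (false, j))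

/-- the permutation performed by the input layers `j, ..., j + m - 1` -/
def inp {d : ℕ} : (m j : ℕ) → Cfg d → Equiv.Perm (Cube d)
  | 0, _, _ => 1
  | m + 1, j, ω => inp m (j + 1) ω * sw j (ω (false, j))

/-- the indices of all the layers `j, ..., j + m - 1` -/
def layers : (m j : ℕ) → List Idx
  | 0, _ => []
  | m + 1, j => (false, j) :: (true, j) :: layers m (j + 1)

/-! ### Cycles -/

section cyc

variable {β : Type*} [Fintype β] [DecidableEq β]

/-- the cycle of `y` -/
def cyc (σ : Equiv.Perm β) (y : β) : Finset β := Finset.univ.filter fun z => σ.SameCycle y z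

/-- the number of cycles (fixed points included) of `σ` contained in `Y` -/
def ncyc (σ : Equiv.Perm β) (Y : Finset β) : ℕ :=
  ((Finset.univ.image (cyc σ)).filter (· ⊆ Y)).card

end cyc

/-- the lower points of the pairs in direction `j` both of whose points are in `X` -/
def dblm {d : ℕ} (j : ℕ) (X : Finset (Cube d)) : Finset (Cube d) :=
  X.filter fun ξ => bit j ξ = false ∧ fl j ξ ∈ X

/-- the commutator of the flip `j` and `G` -/
def com {d : ℕ} (j : ℕ) (G : Equiv.Perm (Cube d)) : Equiv.Perm (Cube d) :=
  fl j * G * fl j * G⁻¹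

/-- closed cycles at level `j` for the inner permutation `G` and the marked set `X` -/
def cc {d : ℕ} (j : ℕ) (G : Equiv.Perm (Cube d)) (X : Finset (Cube d)) : ℕ :=
  ncyc (com j G) ((dblm j X).map G.toEmbedding)

/-- closed cycles at level `l`, as a function of all the coins and of the marked set at level `0` -/
def lv {d : ℕ} (l : ℕ) (ω : Cfg d) (X : Finset (Cube d)) : ℕ :=
  cc l (net (d - l - 1) (l + 1) ω) (X.map (inp l 0 ω).toEmbedding)

/-- weighted sum over the levels `j, ..., j + m - 1` of the numbers of closed cycles -/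
def ctot {d : ℕ} (v : ℕ → ℝ) : (m j : ℕ) → Cfg d → Finset (Cube d) → ℝ
  | 0, _, _, _ => 0
  | m + 1, j, ω, X =>
      v j * (cc j (net m (j + 1) ω) X : ℝ) +
        ctot v m (j + 1) ω (X.map (sw j (ω (false, j))).toEmbedding)

/-! ### Kernels on `k` cards -/

/-- the kernel of the symmetric network with the layers `j, ..., j + m - 1` on `k` cards -/
def ker {d k : ℕ} : (m j : ℕ) → (Fin k ↪ Cube d) → (Fin k ↪ Cube d) → ℝ
  | 0, _, x, z => if x = z then 1 else 0
  | m + 1, j, x, z =>
      (∑ s : Coin d, ∑ t : Coin d, ker m (j + 1) (sw j s • x) (sw j t • z)) /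
        (Fintype.card (Coin d) : ℝ) ^ 2

/-- the kernel of the whole network as a matrix -/
def kerM (d k : ℕ) : Matrix (Fin k ↪ Cube d) (Fin k ↪ Cube d) ℝ := Matrix.of (ker d 0)

/-- the set of the positions of the cards -/
def mk {d k : ℕ} (x : Fin k ↪ Cube d) : Finset (Cube d) := Finset.univ.map x

/-! ### Permutation matrices on `k` cards -/

section pmat

variable {X : Type*} [Fintype X] [DecidableEq X]

/-- the matrices of the action of permutations on `k` cards -/
def permMat (k : ℕ) : Equiv.Perm X →* Matrix (Fin k ↪ X) (Fin k ↪ X) ℝ where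
  toFun g := Matrix.of fun x z => if g • z = x then 1 else 0
  map_one' := by
    ext x z
    simp [Matrix.one_apply, eq_comm]
  map_mul' g h := by
    ext x z
    rw [Matrix.mul_apply]
    simp only [Matrix.of_apply]
    rw [Finset.sum_eq_single (h • z)]
    · simp [mul_smul]
    · intro y _ hy
      rw [if_neg (Ne.symm hy), mul_zero]
    · intro h'
      exact absurd (Finset.mem_univ _) h'

/-- the matrix of an element of the group algebra on the functions of `k` cards -/
def pmat (k : ℕ) : MonoidAlgebra ℝ (Equiv.Perm X) →ₐ[ℝ] Matrix (Fin k ↪ X) (Fin k ↪ X) ℝ :=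
  MonoidAlgebra.lift ℝ _ (Equiv.Perm X) (permMat k)

end pmat

end

end Vale.Agent.P162F
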