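import Vale.Agent.Lib.P162F.Overlap

/-!
# P162F.Encode: the probability that given cycles close with few shared switches

`O : Fin i → Coin d` are the coins of the window `j, ..., j + i - 1`.
-/

namespace Vale.Agent.P162F

noncomputable section

variable {d : ℕ}


/-! ### Keys of a strand -/

/-- the keys (layer, lower point of the pair) of the switches used by the strand `w` -/
def keys : (i j : ℕ) → (ℕ → Coin d) → Cube d → Finset (ℕ × Cube d)
  | 0, _, _, _ => ∅
  | i + 1, j, O, w => insert (j, lo j (win i (j + 1) O w)) (keys i (j + 1) O w)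

theorem keys_fst (i j : ℕ) (O : ℕ → Coin d) (w : Cube d) (κ : ℕ × Cube d)
    (h : κ ∈ keys i j O w) : j ≤ κ.1 ∧ κ.1 < j + i := by
  induction i generalizing j with
  | zero => simp [keys] at h
  | succ i ih =>
    rw [keys, Finset.mem_insert] at h
    rcases h with rfl | h
    · simp only
      omega
    · have := ih (j + 1) h
      omega

theorem sw_congr (j : ℕ) (t t' : Coin d) (x : Cube d) (h : t (lo j x) = t' (lo j x)) :
    sw j t x = sw j t' x := by
  rcases lt_or_ge j d with hj | hj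
  · rw [sw_apply' hj, sw_apply' hj, h]
  · rw [sw_of_le hj, sw_of_le hj]

theorem win_eq_of_keys (i j : ℕ) (O O' : ℕ → Coin d) (w : Cube d)
    (h : ∀ κ ∈ keys i j O w, O κ.1 κ.2 = O' κ.1 κ.2) : win i j O w = win i j O' w := by
  induction i generalizing j with
  | zero => rfl
  | succ i ih =>
    have h1 : win i (j + 1) O w = win i (j + 1) O' w := by
      refine ih (j + 1) fun κ hκ => h κ ?_
      rw [keys]
      exact Finset.mem_insert_of_mem hκ
    have h2 := h (j, lo j (win i (j + 1) O w)) (by rw [keys]; exact Finset.mem_insert_self _ _)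
    rw [win, win, Equiv.Perm.mul_apply, Equiv.Perm.mul_apply, ← h1]
    exact sw_congr j _ _ _ h2

theorem keys_of_win_eq (i j : ℕ) (hj : j + i ≤ d) (O O' : ℕ → Coin d) (w : Cube d)
    (h : win i j O w = win i j O' w) :
    keys i j O w = keys i j O' w ∧ ∀ κ ∈ keys i j O w, O κ.1 κ.2 = O' κ.1 κ.2 := by
  induction i generalizing j with
  | zero => simp [keys]
  | succ i ih =>
    rw [win, win, Equiv.Perm.mul_apply, Equiv.Perm.mul_apply] at h
    have hx : win i (j + 1) O w = win i (j + 1) O' w := by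
      refine bit_ext fun p hp => ?_
      by_cases hpj : p = j
      · subst hpj
        rw [bit_win_of_lt _ _ _ _ (Or.inl (Nat.lt_succ_self p)),
          bit_win_of_lt _ _ _ _ (Or.inl (Nat.lt_succ_self p))]
      · rw [← bit_sw_of_ne hpj (O j) (win i (j + 1) O w), h, bit_sw_of_ne hpj]
    have hrec := ih (j + 1) (by omega) hx
    have hcoin : O j (lo j (win i (j + 1) O w)) = O' j (lo j (win i (j + 1) O w)) := by
      have h1 := bit_sw_self (show j < d by omega) (O j) (win i (j + 1) O w)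
      have h2 := bit_sw_self (show j < d by omega) (O' j) (win i (j + 1) O' w)
      rw [h, h2, ← hx] at h1
      cases hb : bit j (win i (j + 1) O w) <;> rw [hb] at h1 <;> simp at h1 <;> exact h1.symm
    refine ⟨?_, ?_⟩
    · rw [keys, keys, hx, hrec.1]
    · intro κ hκ
      rw [keys, Finset.mem_insert] at hκ
      rcases hκ with rfl | hκ
      · exact hcoin
      · exact hrec.2 κ hκ

open Classical in
theorem card_keys_ge (i j : ℕ) (hj : j + i ≤ d) (O : ℕ → Coin d) (A Fi : Finset (Cube d))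
    (hFi : Fi ⊆ A) :
    i * Fi.card ≤ ((Fi.biUnion (keys i j O)) \ ((A \ Fi).biUnion (keys i j O))).card +
      ∑ w ∈ Fi, ov i j O w A := by
  induction i generalizing j with
  | zero => simp
  | succ i ih =>
    have hrec := ih (j + 1) (by omega)
    set x : Cube d → Cube d := fun w => win i (j + 1) O w with hx
    have hxinj : Function.Injective x := (win i (j + 1) O).injective
    set P : Finset (Cube d) :=
      Fi.filter (fun w => ¬ fl j (x w) ∈ A.map (win i (j + 1) O).toEmbedding) with hP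
    set K1 := (Fi.biUnion (keys i (j + 1) O)) \ ((A \ Fi).biUnion (keys i (j + 1) O)) with hK1
    set K2 := (Fi.biUnion (keys (i + 1) j O)) \ ((A \ Fi).biUnion (keys (i + 1) j O)) with hK2
    have hmemA : ∀ w ∈ A, x w ∈ A.map (win i (j + 1) O).toEmbedding := fun w hw =>
      Finset.mem_map_of_mem _ hw
    have hinj : Set.InjOn (fun w => (j, lo j (x w))) (P : Set (Cube d)) := by
      intro w hw w' hw' h
      simp only [Prod.mk.injEq, true_and] at h
      rw [Finset.mem_coe, hP, Finset.mem_filter] at hw hw'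
      rcases (lo_eq_lo_iff (show j < d by omega) _ _).mp h with h1 | h1
      · exact (hxinj h1).symm
      · exact absurd (h1 ▸ hmemA w' (hFi hw'.1)) hw.2
    have hsub1 : P.image (fun w => (j, lo j (x w))) ⊆ K2 := by
      intro κ hκ
      rw [Finset.mem_image] at hκ
      obtain ⟨w, hw, rfl⟩ := hκ
      rw [hP, Finset.mem_filter] at hw
      rw [hK2, Finset.mem_sdiff, Finset.mem_biUnion, Finset.mem_biUnion]
      refine ⟨⟨w, hw.1, by rw [keys]; exact Finset.mem_insert_self _ _⟩, ?_⟩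
      rintro ⟨w', hw', hmem⟩
      rw [Finset.mem_sdiff] at hw'
      rw [keys, Finset.mem_insert] at hmem
      rcases hmem with h | h
      · simp only [Prod.mk.injEq, true_and] at h
        rcases (lo_eq_lo_iff (show j < d by omega) _ _).mp h with h1 | h1
        · exact hw'.2 (hxinj h1 ▸ hw.1)
        · exact hw.2 (h1 ▸ hmemA w' hw'.1)
      · have := (keys_fst _ _ _ _ _ h).1
        simp only at this
        omega
    have hsub2 : K1 ⊆ K2 := by
      intro κ hκ
      rw [hK1, Finset.mem_sdiff, Finset.mem_biUnion, Finset.mem_biUnion] at hκ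
      obtain ⟨⟨w, hw, hκw⟩, hnot⟩ := hκ
      rw [hK2, Finset.mem_sdiff, Finset.mem_biUnion, Finset.mem_biUnion]
      refine ⟨⟨w, hw, by rw [keys]; exact Finset.mem_insert_of_mem hκw⟩, ?_⟩
      rintro ⟨w', hw', hmem⟩
      rw [keys, Finset.mem_insert] at hmem
      rcases hmem with h | h
      · have := (keys_fst _ _ _ _ _ hκw).1
        rw [h] at this
        simp only at this
        omega
      · exact hnot ⟨w', hw', h⟩
    have hdisj : Disjoint (P.image (fun w => (j, lo j (x w)))) K1 := by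
      rw [Finset.disjoint_left]
      intro κ hκ hκ1
      rw [Finset.mem_image] at hκ
      obtain ⟨w, hw, rfl⟩ := hκ
      rw [hK1, Finset.mem_sdiff, Finset.mem_biUnion] at hκ1
      obtain ⟨⟨w', hw', hκw⟩, -⟩ := hκ1
      have := (keys_fst _ _ _ _ _ hκw).1
      simp only at this
      omega
    have hcard : P.card + K1.card ≤ K2.card := by
      rw [← Finset.card_image_of_injOn hinj, ← Finset.card_union_of_disjoint hdisj]
      exact Finset.card_le_card (Finset.union_subset hsub1 hsub2)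
    have hov : ∑ w ∈ Fi, ov (i + 1) j O w A =
        (Fi.filter (fun w => fl j (x w) ∈ A.map (win i (j + 1) O).toEmbedding)).card +
          ∑ w ∈ Fi, ov i (j + 1) O w A := by
      simp only [ov]
      rw [Finset.sum_add_distrib, Finset.card_filter]
    have hsplit : (Fi.filter (fun w => fl j (x w) ∈ A.map (win i (j + 1) O).toEmbedding)).card +
        P.card = Fi.card := Finset.card_filter_add_card_filter_not _
    rw [hov, add_mul, one_mul]
    omega

/-- coins of the window `[j, j + i)` as a function on `ℕ` -/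
def ext (i j : ℕ) (O : Fin i → Coin d) : ℕ → Coin d :=
  fun l => if h : j ≤ l ∧ l < j + i then O ⟨l - j, by omega⟩ else fun _ => false

/-- the starting points of all the strands of the cycles of `θ ∈ Θ`, of lengths `ℓ θ` -/
def strands (σ u : Equiv.Perm (Cube d)) (Θ : Finset (Cube d)) (ℓ : Cube d → ℕ) :
    Finset (Cube d) :=
  Θ.biUnion fun θ => (Finset.range (ℓ θ)).image fun m => u ((σ ^ m) θ)

/-- the event: every `θ ∈ Θ` is on a cycle of length `ℓ θ` of `win * u`, these cycles are distinct,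
and the last strands of the cycles (those that arrive at `θ`) share at most `F` switches with other
strands of these cycles -/
def Ev (i j : ℕ) (u : Equiv.Perm (Cube d)) (Θ : Finset (Cube d)) (ℓ : Cube d → ℕ) (F : ℕ)
    (O : Fin i → Coin d) : Prop :=
  (∀ θ ∈ Θ, 0 < ℓ θ) ∧
  (∀ θ ∈ Θ, ((win i j (ext i j O) * u) ^ ℓ θ) θ = θ) ∧
  (∀ θ ∈ Θ, ∀ θ' ∈ Θ, ∀ m < ℓ θ, ∀ m' < ℓ θ',
    ((win i j (ext i j O) * u) ^ m) θ = ((win i j (ext i j O) * u) ^ m') θ' → θ = θ' ∧ m = m') ∧
  ∑ θ ∈ Θ, ov i j (ext i j O) (u (((win i j (ext i j O) * u) ^ (ℓ θ - 1)) θ))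
    (strands (win i j (ext i j O) * u) u Θ ℓ) ≤ F


/-- the coins `O` with the coins at the keys in `S` flipped -/
def flipO (i j : ℕ) (O : Fin i → Coin d) (S : Finset (ℕ × Cube d)) : Fin i → Coin d :=
  fun a ξ => xor (O a ξ) (decide ((j + (a : ℕ), ξ) ∈ S))

theorem ext_flipO (i j : ℕ) (O : Fin i → Coin d) (S : Finset (ℕ × Cube d)) (l : ℕ)
    (h : j ≤ l ∧ l < j + i) (ξ : Cube d) :
    ext i j (flipO i j O S) l ξ = xor (ext i j O l ξ) (decide ((l, ξ) ∈ S)) := by
  unfold ext
  rw [dif_pos h, dif_pos h]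
  unfold flipO
  simp only
  rw [Nat.add_sub_cancel' h.1]

open Classical in
/-- the last strands -/
def fins (i j : ℕ) (u : Equiv.Perm (Cube d)) (Θ : Finset (Cube d)) (ℓ : Cube d → ℕ)
    (O : Fin i → Coin d) : Finset (Cube d) :=
  Θ.image fun θ => u (((win i j (ext i j O) * u) ^ (ℓ θ - 1)) θ)

open Classical in
/-- the keys that can be flipped -/
def KO (i j : ℕ) (u : Equiv.Perm (Cube d)) (Θ : Finset (Cube d)) (ℓ : Cube d → ℕ)
    (O : Fin i → Coin d) : Finset (ℕ × Cube d) :=
  ((fins i j u Θ ℓ O).biUnion (keys i j (ext i j O))) \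
    ((strands (win i j (ext i j O) * u) u Θ ℓ \ fins i j u Θ ℓ O).biUnion
      (keys i j (ext i j O)))

theorem fins_subset (i j : ℕ) (u : Equiv.Perm (Cube d)) (Θ : Finset (Cube d)) (ℓ : Cube d → ℕ)
    (O : Fin i → Coin d) (hℓ : ∀ θ ∈ Θ, 0 < ℓ θ) :
    fins i j u Θ ℓ O ⊆ strands (win i j (ext i j O) * u) u Θ ℓ := by
  classical
  intro w hw
  unfold fins at hw
  rw [Finset.mem_image] at hw
  obtain ⟨θ, hθ, rfl⟩ := hw
  unfold strands
  rw [Finset.mem_biUnion]
  refine ⟨θ, hθ, Finset.mem_image.mpr ⟨ℓ θ - 1, ?_, rfl⟩⟩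
  have := hℓ θ hθ
  rw [Finset.mem_range]
  omega

theorem card_KO (i j : ℕ) (hj : j + i ≤ d) (u : Equiv.Perm (Cube d)) (Θ : Finset (Cube d))
    (ℓ : Cube d → ℕ) (F : ℕ) (O : Fin i → Coin d) (h : Ev i j u Θ ℓ F O) :
    i * Θ.card ≤ (KO i j u Θ ℓ O).card + F := by
  classical
  obtain ⟨h0, h1, h2, h3⟩ := h
  have hinj : Set.InjOn (fun θ => u (((win i j (ext i j O) * u) ^ (ℓ θ - 1)) θ))
      (Θ : Set (Cube d)) := by
    intro θ hθ θ' hθ' h
    have h4 := u.injective h
    have h5 := h0 θ hθ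
    have h6 := h0 θ' hθ'
    exact (h2 θ hθ θ' hθ' (ℓ θ - 1) (by omega) (ℓ θ' - 1) (by omega) h4).1
  have hc : (fins i j u Θ ℓ O).card = Θ.card := by
    unfold fins
    exact Finset.card_image_of_injOn hinj
  have hmain := card_keys_ge i j hj (ext i j O) (strands (win i j (ext i j O) * u) u Θ ℓ)
    (fins i j u Θ ℓ O) (fins_subset i j u Θ ℓ O h0)
  rw [hc] at hmain
  have hsum : ∑ w ∈ fins i j u Θ ℓ O, ov i j (ext i j O) w
      (strands (win i j (ext i j O) * u) u Θ ℓ) ≤ F := by
    unfold fins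
    rw [Finset.sum_image hinj]
    exact h3
  have hK : (KO i j u Θ ℓ O).card = ((fins i j u Θ ℓ O).biUnion (keys i j (ext i j O)) \
    (strands (win i j (ext i j O) * u) u Θ ℓ \ fins i j u Θ ℓ O).biUnion
      (keys i j (ext i j O))).card := by
    unfold KO
    congr!
  rw [hK]
  have h7 : i * Θ.card ≤ ((fins i j u Θ ℓ O).biUnion (keys i j (ext i j O)) \
    (strands (win i j (ext i j O) * u) u Θ ℓ \ fins i j u Θ ℓ O).biUnion
      (keys i j (ext i j O))).card + ∑ w ∈ fins i j u Θ ℓ O, ov i j (ext i j O) w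
      (strands (win i j (ext i j O) * u) u Θ ℓ) := by
    convert hmain
  omega

/-- the non final strands are kept by the flips -/
theorem pow_flipO (i j : ℕ) (u : Equiv.Perm (Cube d)) (Θ : Finset (Cube d))
    (ℓ : Cube d → ℕ) (F : ℕ) (O : Fin i → Coin d) (h : Ev i j u Θ ℓ F O)
    (S : Finset (ℕ × Cube d)) (hS : S ⊆ KO i j u Θ ℓ O) (θ : Cube d) (hθ : θ ∈ Θ) (m : ℕ)
    (hm : m ≤ ℓ θ - 1) : ((win i j (ext i j O) * u) ^ m) θ =
      ((win i j (ext i j (flipO i j O S)) * u) ^ m) θ := by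
  classical
  obtain ⟨h0, h1, h2, h3⟩ := h
  induction m with
  | zero => rfl
  | succ m ih =>
    have ih' := ih (by omega)
    have e1 : ∀ B : Equiv.Perm (Cube d), ((B * u) ^ (m + 1)) θ = B (u (((B * u) ^ m) θ)) := by
      intro B
      rw [pow_succ', Equiv.Perm.mul_apply, Equiv.Perm.mul_apply]
    rw [e1, e1, ← ih']
    set w := u (((win i j (ext i j O) * u) ^ m) θ) with hw
    refine win_eq_of_keys i j _ _ w fun κ hκ => ?_
    rw [ext_flipO i j O S κ.1 (keys_fst _ _ _ _ _ hκ) κ.2]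
    have hnot : (κ.1, κ.2) ∉ S := by
      intro hκS
      have h4 := hS hκS
      unfold KO at h4
      rw [Finset.mem_sdiff] at h4
      apply h4.2
      rw [Finset.mem_biUnion]
      refine ⟨w, ?_, hκ⟩
      rw [Finset.mem_sdiff]
      constructor
      · unfold strands
        rw [Finset.mem_biUnion]
        exact ⟨θ, hθ, Finset.mem_image.mpr ⟨m, Finset.mem_range.mpr (by omega), rfl⟩⟩
      · intro hf
        unfold fins at hf
        rw [Finset.mem_image] at hf
        obtain ⟨θ', hθ', he⟩ := hf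
        have h5 := u.injective he
        have h6 := h0 θ' hθ'
        obtain ⟨rfl, h7⟩ := h2 θ' hθ' θ hθ (ℓ θ' - 1) (by omega) m (by omega) h5
        omega
    simp [hnot]

theorem flipO_inj (i j : ℕ) (hj : j + i ≤ d) (u : Equiv.Perm (Cube d)) (Θ : Finset (Cube d))
    (ℓ : Cube d → ℕ) (F : ℕ) (O O2 : Fin i → Coin d) (h : Ev i j u Θ ℓ F O)
    (h' : Ev i j u Θ ℓ F O2) (S S2 : Finset (ℕ × Cube d)) (hS : S ⊆ KO i j u Θ ℓ O)
    (hS2 : S2 ⊆ KO i j u Θ ℓ O2) (he : flipO i j O S = flipO i j O2 S2) : O = O2 ∧ S = S2 := by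
  classical
  have hpow : ∀ θ ∈ Θ, ∀ m ≤ ℓ θ - 1, ((win i j (ext i j O) * u) ^ m) θ =
      ((win i j (ext i j O2) * u) ^ m) θ := by
    intro θ hθ m hm
    rw [pow_flipO i j u Θ ℓ F O h S hS θ hθ m hm, he,
      ← pow_flipO i j u Θ ℓ F O2 h' S2 hS2 θ hθ m hm]
  have hstr : strands (win i j (ext i j O) * u) u Θ ℓ =
      strands (win i j (ext i j O2) * u) u Θ ℓ := by
    unfold strands
    refine Finset.biUnion_congr rfl fun θ hθ => Finset.image_congr fun m hm => ?_
    rw [Finset.mem_coe, Finset.mem_range] at hm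
    rw [hpow θ hθ m (by omega)]
  have hfin : fins i j u Θ ℓ O = fins i j u Θ ℓ O2 := by
    unfold fins
    refine Finset.image_congr fun θ hθ => ?_
    rw [hpow θ hθ _ le_rfl]
  have hwin : ∀ w ∈ strands (win i j (ext i j O) * u) u Θ ℓ,
      win i j (ext i j O) w = win i j (ext i j O2) w := by
    intro w hw
    unfold strands at hw
    rw [Finset.mem_biUnion] at hw
    obtain ⟨θ, hθ, hw⟩ := hw
    rw [Finset.mem_image] at hw
    obtain ⟨m, hm, rfl⟩ := hw
    rw [Finset.mem_range] at hm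
    have e1 : win i j (ext i j O) (u (((win i j (ext i j O) * u) ^ m) θ)) =
        ((win i j (ext i j O) * u) ^ (m + 1)) θ := by
      rw [pow_succ', Equiv.Perm.mul_apply, Equiv.Perm.mul_apply]
    have e2 : win i j (ext i j O2) (u (((win i j (ext i j O) * u) ^ m) θ)) =
        ((win i j (ext i j O2) * u) ^ (m + 1)) θ := by
      rw [hpow θ hθ m (by omega), pow_succ', Equiv.Perm.mul_apply, Equiv.Perm.mul_apply]
    rw [e1, e2]
    rcases Nat.lt_or_ge (m + 1) (ℓ θ) with h4 | h4
    · exact hpow θ hθ (m + 1) (by omega)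
    · have h5 : m + 1 = ℓ θ := by omega
      rw [h5, h.2.1 θ hθ, h'.2.1 θ hθ]
  have hkeys := fun w hw => keys_of_win_eq i j hj (ext i j O) (ext i j O2) w (hwin w hw)
  have hfs := fins_subset i j u Θ ℓ O h.1
  have hKO : KO i j u Θ ℓ O = KO i j u Θ ℓ O2 := by
    unfold KO
    rw [← hstr, ← hfin]
    congr 1
    · exact Finset.biUnion_congr rfl fun w hw => (hkeys w (hfs hw)).1
    · exact Finset.biUnion_congr rfl fun w hw => (hkeys w (Finset.mem_sdiff.mp hw).1).1
  have hO : O = O2 := by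
    funext a ξ
    have ha : j ≤ j + (a : ℕ) ∧ j + (a : ℕ) < j + i := ⟨by omega, by have := a.2; omega⟩
    have hext : ∀ Q : Fin i → Coin d, ext i j Q (j + (a : ℕ)) ξ = Q a ξ := by
      intro Q
      unfold ext
      rw [dif_pos ha]
      have : (⟨j + (a : ℕ) - j, by omega⟩ : Fin i) = a := by
        ext
        simp
      rw [this]
    by_cases hκ : (j + (a : ℕ), ξ) ∈ KO i j u Θ ℓ O
    · have h4 := hκ
      unfold KO at h4
      rw [Finset.mem_sdiff, Finset.mem_biUnion] at h4
      obtain ⟨⟨w, hw, hκw⟩, -⟩ := h4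
      have h5 := (hkeys w (hfs hw)).2 _ hκw
      simp only at h5
      rw [hext, hext] at h5
      exact h5
    · have h4 : (j + (a : ℕ), ξ) ∉ S := fun h5 => hκ (hS h5)
      have h6 : (j + (a : ℕ), ξ) ∉ S2 := fun h5 => hκ (hKO ▸ hS2 h5)
      have h7 := congrFun (congrFun he a) ξ
      unfold flipO at h7
      simpa [h4, h6] using h7
  refine ⟨hO, ?_⟩
  subst hO
  have hrange : ∀ κ ∈ KO i j u Θ ℓ O, j ≤ κ.1 ∧ κ.1 < j + i := by
    intro κ hκ
    unfold KO at hκ
    rw [Finset.mem_sdiff, Finset.mem_biUnion] at hκ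
    obtain ⟨⟨w, hw, hκw⟩, -⟩ := hκ
    exact keys_fst _ _ _ _ _ hκw
  have hmem : ∀ κ ∈ KO i j u Θ ℓ O, (κ ∈ S ↔ κ ∈ S2) := by
    intro κ hκ
    have hr := hrange κ hκ
    have h7 := congrFun (congrFun (congrArg (ext i j) he) κ.1) κ.2
    rw [ext_flipO i j O S κ.1 hr, ext_flipO i j O S2 κ.1 hr] at h7
    have h8 : decide ((κ.1, κ.2) ∈ S) = decide ((κ.1, κ.2) ∈ S2) := by
      cases hb : ext i j O κ.1 κ.2 <;> rw [hb] at h7 <;> simpa using h7
    rw [decide_eq_decide] at h8
    exact h8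
  ext κ
  constructor
  · intro hκ
    exact (hmem κ (hS hκ)).mp hκ
  · intro hκ
    exact (hmem κ (hS2 hκ)).mpr hκ

open Classical in
/-- encoding: flipping the coins of the last strands at switches not used by the other strands
keeps these strands, so `|Ev| * 2 ^ (i * |Θ| - F) ≤ |Ω|` -/
theorem card_Ev_le (i j : ℕ) (hj : j + i ≤ d) (u : Equiv.Perm (Cube d)) (Θ : Finset (Cube d))
    (ℓ : Cube d → ℕ) (F : ℕ) :
    ((Finset.univ.filter fun O : Fin i → Coin d => Ev i j u Θ ℓ F O).card : ℝ) ≤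
      (Fintype.card (Fin i → Coin d) : ℝ) * (2 : ℝ) ^ F / 2 ^ (i * Θ.card) := by
  set E := Finset.univ.filter fun O : Fin i → Coin d => Ev i j u Θ ℓ F O with hE
  have hEmem : ∀ O ∈ E, Ev i j u Θ ℓ F O := fun O hO => (Finset.mem_filter.mp hO).2
  let T : Finset ((_ : Fin i → Coin d) × Finset (ℕ × Cube d)) :=
    E.sigma fun O => (KO i j u Θ ℓ O).powerset
  have hT : T.card ≤ Fintype.card (Fin i → Coin d) := by
    rw [← Finset.card_univ]
    refine Finset.card_le_card_of_injOn (fun p => flipO i j p.1 p.2) (fun _ _ =>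
      Finset.mem_coe.mpr (Finset.mem_univ _)) ?_
    rintro ⟨O, S⟩ hp ⟨O2, S2⟩ hp2 he
    rw [Finset.mem_coe, Finset.mem_sigma, Finset.mem_powerset] at hp hp2
    obtain ⟨rfl, rfl⟩ := flipO_inj i j hj u Θ ℓ F O O2 (hEmem _ hp.1) (hEmem _ hp2.1) S S2 hp.2
      hp2.2 he
    rfl
  have hTc : T.card = ∑ O ∈ E, 2 ^ (KO i j u Θ ℓ O).card := by
    rw [Finset.card_sigma]
    exact Finset.sum_congr rfl fun O _ => Finset.card_powerset _
  have hnat : E.card * 2 ^ (i * Θ.card) ≤ Fintype.card (Fin i → Coin d) * 2 ^ F := by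
    calc E.card * 2 ^ (i * Θ.card) = ∑ O ∈ E, 2 ^ (i * Θ.card) := by
          rw [Finset.sum_const, smul_eq_mul]
      _ ≤ ∑ O ∈ E, 2 ^ (KO i j u Θ ℓ O).card * 2 ^ F := by
          refine Finset.sum_le_sum fun O hO => ?_
          rw [← pow_add]
          exact Nat.pow_le_pow_right (by norm_num) (card_KO i j hj u Θ ℓ F O (hEmem O hO))
      _ = T.card * 2 ^ F := by rw [hTc, Finset.sum_mul]
      _ ≤ _ := Nat.mul_le_mul_right _ hT
  rw [le_div_iff₀ (by positivity)]
  exact_mod_cast hnat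

end

end Vale.Agent.P162F
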