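import Vale.Agent.Lib.P162F.Cards
import Vale.Agent.Lib.P162F.LinAlg

/-!
# P162F.Gram: almost orthogonality of the copies of a harmonic function
-/

namespace Vale.Agent.P162F

open Vale.Agent.P162
open scoped RealInnerProductSpace

noncomputable section

variable {X : Type} [Fintype X] [DecidableEq X]

/-- the number of cards of `y'` that are not cards of `y` -/
def dif {s : ℕ} (y y' : Fin s ↪ X) : ℕ :=
  (Finset.univ.filter fun c : Fin s => ∀ c', y c' ≠ y' c).card

theorem gram_inner {s : ℕ} (y y' : Fin s ↪ X) (φ ψ : (Fin s ↪ X) → ℝ) :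
    ⟪cardFn y φ, cardFn y' ψ⟫ = ∑ h : Equiv.Perm X, φ (h • y) * ψ (h • y') := by
  unfold cardFn
  rw [PiLp.inner_apply]
  refine Finset.sum_congr rfl fun h _ => ?_
  rw [real_inner_eq_re_inner, RCLike.inner_apply, conj_trivial, RCLike.re_to_real]
  exact mul_comm _ _

theorem gram_norm_sq {s : ℕ} (y : Fin s ↪ X) (φ : (Fin s ↪ X) → ℝ) :
    ‖cardFn y φ‖ ^ 2 = ((Fintype.card X - s).factorial : ℝ) * ∑ x : Fin s ↪ X, φ x ^ 2 := by
  rw [← real_inner_self_eq_norm_sq, gram_inner, ← sum_smul_eq y (fun x => φ x ^ 2)]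
  refine Finset.sum_congr rfl fun h _ => ?_
  ring

theorem gram_norm_eq {s : ℕ} (y y' : Fin s ↪ X) (φ : (Fin s ↪ X) → ℝ) :
    ‖cardFn y φ‖ = ‖cardFn y' φ‖ := by
  rw [← sq_eq_sq₀ (norm_nonneg _) (norm_nonneg _), gram_norm_sq, gram_norm_sq]

omit [Fintype X] [DecidableEq X] in
theorem gram_smul_apply {s : ℕ} (h : Equiv.Perm X) (y : Fin s ↪ X) (c : Fin s) :
    (h • y) c = h (y c) := rfl

theorem gram_inner_smul {s : ℕ} (τ : Equiv.Perm X) (y y' : Fin s ↪ X)
    (φ ψ : (Fin s ↪ X) → ℝ) (hy : τ • y = y) :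
    ⟪cardFn y φ, cardFn (τ • y') ψ⟫ = ⟪cardFn y φ, cardFn y' ψ⟫ := by
  rw [gram_inner, gram_inner]
  calc ∑ h : Equiv.Perm X, φ (h • y) * ψ (h • τ • y')
      = ∑ h : Equiv.Perm X, φ ((h * τ) • y) * ψ ((h * τ) • y') := by
        refine Finset.sum_congr rfl fun h _ => ?_
        rw [mul_smul, mul_smul, hy]
    _ = ∑ h : Equiv.Perm X, φ (h • y) * ψ (h • y') :=
        Equiv.sum_comp (Equiv.mulRight τ) (fun h => φ (h • y) * ψ (h • y'))

theorem gram_harm_sum {s : ℕ} (y y' : Fin s ↪ X) (φ ψ : (Fin s ↪ X) → ℝ) (hψ : Harm ψ)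
    (c : Fin s) :
    ∑ z ∈ Finset.univ.filter (fun z : Fin s ↪ X => ∀ c', c' ≠ c → z c' = y' c'),
      ⟪cardFn y φ, cardFn z ψ⟫ = 0 := by
  simp_rw [gram_inner]
  rw [Finset.sum_comm]
  refine Finset.sum_eq_zero fun h _ => ?_
  rw [← Finset.mul_sum]
  have h1 := hψ c (h • y')
  rw [← Equiv.sum_comp (MulAction.toPerm h)] at h1
  rw [Finset.sum_filter]
  refine mul_eq_zero_of_right _ ?_
  rw [← h1]
  refine Finset.sum_congr rfl fun z _ => ?_
  rw [MulAction.toPerm_apply]
  congr 1
  refine propext (forall_congr' fun c' => forall_congr' fun _ => ?_)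
  rw [gram_smul_apply, gram_smul_apply, h.injective.eq_iff]

/-- `|⟪φ_y, ψ_{y'}⟫| ≤ r! / ((n - s) (n - s - 1) ... (n - s - r + 1)) ‖φ_y‖ ‖ψ_{y'}‖`,
`r = dif y y'`, `ψ` harmonic; here weakened for `4 s ≤ n`. -/
theorem inner_cardFn_le {s : ℕ} (hs : 4 * s ≤ Fintype.card X) (y y' : Fin s ↪ X)
    (φ ψ : (Fin s ↪ X) → ℝ) (hψ : Harm ψ) :
    |⟪cardFn y φ, cardFn y' ψ⟫| ≤
      ((dif y y').factorial : ℝ) * (2 / (Fintype.card X : ℝ)) ^ (dif y y') *
        (‖cardFn y φ‖ * ‖cardFn y' ψ‖) := by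
  obtain ⟨r, hr⟩ : ∃ r, dif y y' = r := ⟨_, rfl⟩
  rw [hr]
  induction r generalizing y' with
  | zero =>
    rw [Nat.factorial_zero, Nat.cast_one, pow_zero, one_mul, one_mul]
    exact abs_real_inner_le_norm _ _
  | succ r ih =>
    obtain ⟨c, hc⟩ : ∃ c, ∀ c', y c' ≠ y' c := by
      have h0 : (Finset.univ.filter fun c : Fin s => ∀ c', y c' ≠ y' c).Nonempty := by
        rw [← Finset.card_pos]
        unfold dif at hr
        omega
      obtain ⟨c, hc⟩ := h0
      exact ⟨c, (Finset.mem_filter.mp hc).2⟩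
    set Z := Finset.univ.filter (fun z : Fin s ↪ X => ∀ c', c' ≠ c → z c' = y' c') with hZ
    have hsum := gram_harm_sum y y' φ ψ hψ c
    rw [← hZ, ← Finset.sum_filter_add_sum_filter_not Z (fun z => ∀ c', y c' ≠ z c)] at hsum
    have h1 : ∀ z ∈ Z.filter (fun z => ∀ c', y c' ≠ z c),
        ⟪cardFn y φ, cardFn z ψ⟫ = ⟪cardFn y φ, cardFn y' ψ⟫ := by
      intro z hz
      rw [Finset.mem_filter, hZ, Finset.mem_filter] at hz
      obtain ⟨⟨-, hz1⟩, hz2⟩ := hz
      have e1 : Equiv.swap (y' c) (z c) • y = y := by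
        ext c'
        rw [gram_smul_apply, Equiv.swap_apply_of_ne_of_ne (hc c') (hz2 c')]
      have e2 : Equiv.swap (y' c) (z c) • y' = z := by
        ext c'
        rw [gram_smul_apply]
        by_cases h : c' = c
        · rw [h, Equiv.swap_apply_left]
        · rw [Equiv.swap_apply_of_ne_of_ne (fun h' => h (y'.injective h'))
            (fun h' => h (z.injective (by rw [hz1 c' h, h']))), hz1 c' h]
      rw [← e2, gram_inner_smul _ _ _ _ _ e1]
    have hdif : ∀ z ∈ Z.filter (fun z => ¬ ∀ c', y c' ≠ z c), dif y z = r := by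
      intro z hz
      rw [Finset.mem_filter, hZ, Finset.mem_filter] at hz
      obtain ⟨⟨-, hz1⟩, hz2⟩ := hz
      have e1 : (Finset.univ.filter fun c : Fin s => ∀ c', y c' ≠ z c) =
          (Finset.univ.filter fun c : Fin s => ∀ c', y c' ≠ y' c).erase c := by
        ext c'
        rw [Finset.mem_erase, Finset.mem_filter, Finset.mem_filter]
        by_cases h : c' = c
        · subst h
          constructor
          · intro h'
            exact absurd h'.2 hz2
          · intro h'
            exact absurd rfl h'.1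
        · rw [hz1 c' h]
          simp [h]
      unfold dif
      rw [e1, Finset.card_erase_of_mem (Finset.mem_filter.mpr ⟨Finset.mem_univ _, hc⟩)]
      unfold dif at hr
      rw [hr]
      rfl
    have h2 : ∀ z ∈ Z.filter (fun z => ¬ ∀ c', y c' ≠ z c), |⟪cardFn y φ, cardFn z ψ⟫| ≤
        (r.factorial : ℝ) * (2 / (Fintype.card X : ℝ)) ^ r *
          (‖cardFn y φ‖ * ‖cardFn y' ψ‖) := by
      intro z hz
      rw [gram_norm_eq y' z ψ]
      exact ih z (hdif z hz)
    have hinjZ : ∀ z ∈ Z, ∀ z' ∈ Z, z c = z' c → z = z' := by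
      intro z hz z' hz' h
      rw [hZ, Finset.mem_filter] at hz hz'
      ext c'
      by_cases h' : c' = c
      · rw [h', h]
      · rw [hz.2 c' h', hz'.2 c' h']
    have hc2 : (Z.filter (fun z => ¬ ∀ c', y c' ≠ z c)).card ≤ r + 1 := by
      have e1 : ((Finset.univ.image y') \ (Finset.univ.image y)).card = r + 1 := by
        have e2 : (Finset.univ.image y') \ (Finset.univ.image y) =
            (Finset.univ.filter fun c : Fin s => ∀ c', y c' ≠ y' c).map y' := by
          ext b
          simp only [Finset.mem_sdiff, Finset.mem_image, Finset.mem_univ, true_and,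
            Finset.mem_map, Finset.mem_filter, not_exists]
          constructor
          · rintro ⟨⟨c', hc'⟩, h⟩
            exact ⟨c', fun c'' => by rw [hc']; exact h c'', hc'⟩
          · rintro ⟨c', h, hc'⟩
            exact ⟨⟨c', hc'⟩, fun c'' => by rw [← hc']; exact h c''⟩
        rw [e2, Finset.card_map]
        unfold dif at hr
        exact hr
      rw [← e1, ← Finset.card_sdiff_comm (by
        rw [Finset.card_image_of_injective _ y.injective,
          Finset.card_image_of_injective _ y'.injective])]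
      refine Finset.card_le_card_of_injOn (fun z => z c) ?_ ?_
      · intro z hz
        rw [Finset.mem_coe, Finset.mem_filter] at hz
        obtain ⟨hzZ, hz2⟩ := hz
        rw [hZ, Finset.mem_filter] at hzZ
        push Not at hz2
        obtain ⟨c₁, hc₁⟩ := hz2
        rw [Finset.mem_coe, Finset.mem_sdiff, Finset.mem_image, Finset.mem_image]
        refine ⟨⟨c₁, Finset.mem_univ _, hc₁⟩, ?_⟩
        rintro ⟨c₂, -, hc₂⟩
        change y' c₂ = z c at hc₂
        by_cases h : c₂ = c
        · rw [h, ← hc₁] at hc₂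
          exact hc c₁ hc₂.symm
        · rw [← hzZ.2 c₂ h] at hc₂
          exact h (z.injective hc₂)
      · intro z hz z' hz' h
        exact hinjZ z (Finset.mem_filter.mp hz).1 z' (Finset.mem_filter.mp hz').1 h
    have hc1 : Fintype.card X ≤ 2 * (Z.filter (fun z => ∀ c', y c' ≠ z c)).card := by
      have e1 : (Finset.univ \ (Finset.univ.image y ∪ Finset.univ.image y')).card ≤
          (Z.filter (fun z => ∀ c', y c' ≠ z c)).card := by
        refine Finset.card_le_card_of_injOn (fun b => Equiv.swap (y' c) b • y') ?_ ?_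
        · intro b hb
          rw [Finset.mem_coe, Finset.mem_sdiff, Finset.mem_union, not_or] at hb
          obtain ⟨-, hb1, hb2⟩ := hb
          rw [Finset.mem_coe, Finset.mem_filter, hZ, Finset.mem_filter]
          refine ⟨⟨Finset.mem_univ _, fun c' hc' => ?_⟩, fun c' => ?_⟩
          · rw [gram_smul_apply]
            refine Equiv.swap_apply_of_ne_of_ne (fun h' => hc' (y'.injective h')) ?_
            intro h'
            exact hb2 (Finset.mem_image.mpr ⟨c', Finset.mem_univ _, h'⟩)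
          · rw [gram_smul_apply, Equiv.swap_apply_left]
            intro h'
            exact hb1 (Finset.mem_image.mpr ⟨c', Finset.mem_univ _, h'⟩)
        · intro b _ b' _ h
          have h' : (Equiv.swap (y' c) b • y') c = (Equiv.swap (y' c) b' • y') c := by
            rw [show Equiv.swap (y' c) b • y' = Equiv.swap (y' c) b' • y' from h]
          rwa [gram_smul_apply, gram_smul_apply, Equiv.swap_apply_left,
            Equiv.swap_apply_left] at h'
      have e2 : (Finset.univ.image y ∪ Finset.univ.image y').card ≤ s + s := by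
        refine (Finset.card_union_le _ _).trans (add_le_add ?_ ?_)
        · exact Finset.card_image_le.trans (by rw [Finset.card_univ, Fintype.card_fin])
        · exact Finset.card_image_le.trans (by rw [Finset.card_univ, Fintype.card_fin])
      have e3 : Fintype.card X ≤ (Finset.univ \ (Finset.univ.image y ∪ Finset.univ.image y')).card +
          (Finset.univ.image y ∪ Finset.univ.image y').card := by
        rw [← Finset.card_univ (α := X)]
        exact Finset.card_le_card_sdiff_add_card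
      omega
    have hn : 0 < (Fintype.card X : ℝ) := by
      have h3 : 0 < s := Fin.pos c
      have h4 : 0 < Fintype.card X := by omega
      exact_mod_cast h4
    rw [Finset.sum_congr rfl h1, Finset.sum_const, nsmul_eq_mul] at hsum
    have h5 : ((Z.filter (fun z => ∀ c', y c' ≠ z c)).card : ℝ) * |⟪cardFn y φ, cardFn y' ψ⟫| ≤
        ((r : ℝ) + 1) * ((r.factorial : ℝ) * (2 / (Fintype.card X : ℝ)) ^ r *
          (‖cardFn y φ‖ * ‖cardFn y' ψ‖)) := by
      have h6 : ((Z.filter (fun z => ∀ c', y c' ≠ z c)).card : ℝ) * |⟪cardFn y φ, cardFn y' ψ⟫| =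
          |∑ z ∈ Z.filter (fun z => ¬ ∀ c', y c' ≠ z c), ⟪cardFn y φ, cardFn z ψ⟫| := by
        rw [← abs_of_nonneg (Nat.cast_nonneg (α := ℝ)
          (Z.filter (fun z => ∀ c', y c' ≠ z c)).card), ← abs_mul,
          eq_neg_of_add_eq_zero_left hsum, abs_neg]
      rw [h6]
      refine (Finset.abs_sum_le_sum_abs _ _).trans ((Finset.sum_le_sum h2).trans ?_)
      rw [Finset.sum_const, nsmul_eq_mul]
      refine mul_le_mul_of_nonneg_right ?_ (by positivity)
      exact_mod_cast hc2
    have h7 : (Fintype.card X : ℝ) / 2 * |⟪cardFn y φ, cardFn y' ψ⟫| ≤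
        ((r : ℝ) + 1) * ((r.factorial : ℝ) * (2 / (Fintype.card X : ℝ)) ^ r *
          (‖cardFn y φ‖ * ‖cardFn y' ψ‖)) := by
      refine le_trans (mul_le_mul_of_nonneg_right ?_ (abs_nonneg _)) h5
      have h8 : (Fintype.card X : ℝ) ≤ 2 * ((Z.filter (fun z => ∀ c', y c' ≠ z c)).card : ℝ) := by
        exact_mod_cast hc1
      linarith
    calc |⟪cardFn y φ, cardFn y' ψ⟫|
        = (2 / (Fintype.card X : ℝ)) * ((Fintype.card X : ℝ) / 2 *
          |⟪cardFn y φ, cardFn y' ψ⟫|) := by field_simp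
      _ ≤ (2 / (Fintype.card X : ℝ)) * (((r : ℝ) + 1) * ((r.factorial : ℝ) *
          (2 / (Fintype.card X : ℝ)) ^ r * (‖cardFn y φ‖ * ‖cardFn y' ψ‖))) := by gcongr
      _ = _ := by
          rw [Nat.factorial_succ, Nat.cast_mul, Nat.cast_add, Nat.cast_one, pow_succ]
          ring

/-- the order embedding of a subset of `Fin k` of size `s` -/
def emb {k s : ℕ} (S : {S : Finset (Fin k) // S.card = s}) : Fin s ↪ Fin k :=
  (S.1.orderEmbOfFin S.2).toEmbedding

theorem gram_mem_emb {k s : ℕ} (S : {S : Finset (Fin k) // S.card = s}) (a : Fin k) :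
    a ∈ S.1 ↔ ∃ c, emb S c = a := by
  have h := Finset.range_orderEmbOfFin S.1 S.2
  have h2 : a ∈ Set.range (S.1.orderEmbOfFin S.2) ↔ a ∈ (S.1 : Set (Fin k)) := by rw [h]
  rw [Finset.mem_coe] at h2
  rw [← h2]
  rfl

omit [Fintype X] in
theorem gram_dif_emb {k s : ℕ} (y : Fin k ↪ X) (S S' : {S : Finset (Fin k) // S.card = s}) :
    dif ((emb S).trans y) ((emb S').trans y) = (S'.1 \ S.1).card := by
  have e2 : S'.1 \ S.1 = (Finset.univ.filter fun c : Fin s =>
      ∀ c', ((emb S).trans y) c' ≠ ((emb S').trans y) c).map (emb S') := by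
    ext a
    rw [Finset.mem_sdiff, gram_mem_emb, gram_mem_emb, Finset.mem_map]
    simp only [Finset.mem_filter, Finset.mem_univ, true_and, Function.Embedding.trans_apply]
    constructor
    · rintro ⟨⟨c, hc⟩, h⟩
      exact ⟨c, fun c' hc' => h ⟨c', by rw [← hc]; exact y.injective hc'⟩, hc⟩
    · rintro ⟨c, h, hc⟩
      exact ⟨⟨c, hc⟩, fun ⟨c', hc'⟩ => h c' (by rw [hc', hc])⟩
  rw [e2, Finset.card_map]
  rfl

/-- row sums -/
theorem row_sum_le {k s : ℕ} (y : Fin k ↪ X) (hk : k ≤ Fintype.card X)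
    (S : {S : Finset (Fin k) // S.card = s}) :
    ∑ S' : {S : Finset (Fin k) // S.card = s},
      ((dif ((emb S).trans y) ((emb S').trans y)).factorial : ℝ) *
        (2 / (Fintype.card X : ℝ)) ^ (dif ((emb S).trans y) ((emb S').trans y)) ≤ 3 ^ s := by
  have hkn : (k : ℝ) * (2 / (Fintype.card X : ℝ)) ≤ 2 := by
    rcases Nat.eq_zero_or_pos (Fintype.card X) with h0 | h0
    · rw [h0, Nat.cast_zero, div_zero, mul_zero]
      norm_num
    · have h1 : (0 : ℝ) < Fintype.card X := by exact_mod_cast h0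
      have h2 : (k : ℝ) ≤ Fintype.card X := by exact_mod_cast hk
      rw [mul_div_assoc', div_le_iff₀ h1]
      linarith
  have hcard : ∀ S' : {S : Finset (Fin k) // S.card = s}, (S'.1 \ S.1).card = (S.1 \ S'.1).card :=
    fun S' => Finset.card_sdiff_comm (by rw [S'.2, S.2])
  simp_rw [gram_dif_emb, hcard]
  rw [← Finset.sum_fiberwise_of_maps_to (s := Finset.univ) (t := S.1.powerset)
    (g := fun S' : {S : Finset (Fin k) // S.card = s} => S.1 \ S'.1)
    (fun S' _ => Finset.mem_powerset.mpr Finset.sdiff_subset)]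
  have key : ∀ T ∈ S.1.powerset, ∑ S' ∈ Finset.univ.filter
      (fun S' : {S : Finset (Fin k) // S.card = s} => S.1 \ S'.1 = T),
      ((S.1 \ S'.1).card.factorial : ℝ) * (2 / (Fintype.card X : ℝ)) ^ (S.1 \ S'.1).card ≤
      2 ^ T.card * 1 ^ (S.1.card - T.card) := by
    intro T _
    have h1 : ∀ S' ∈ Finset.univ.filter
        (fun S' : {S : Finset (Fin k) // S.card = s} => S.1 \ S'.1 = T),
        ((S.1 \ S'.1).card.factorial : ℝ) * (2 / (Fintype.card X : ℝ)) ^ (S.1 \ S'.1).card =
        (T.card.factorial : ℝ) * (2 / (Fintype.card X : ℝ)) ^ T.card := by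
      intro S' hS'
      rw [(Finset.mem_filter.mp hS').2]
    have h2 : (Finset.univ.filter
        (fun S' : {S : Finset (Fin k) // S.card = s} => S.1 \ S'.1 = T)).card ≤
        k.choose T.card := by
      have h3 : k.choose T.card = (Finset.powersetCard T.card (Finset.univ : Finset (Fin k))).card := by
        rw [Finset.card_powersetCard, Finset.card_univ, Fintype.card_fin]
      rw [h3]
      refine Finset.card_le_card_of_injOn (fun S' => S'.1 \ S.1) ?_ ?_
      · intro S' hS'
        rw [Finset.mem_coe, Finset.mem_filter] at hS'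
        rw [Finset.mem_coe, Finset.mem_powersetCard]
        exact ⟨Finset.subset_univ _, by rw [hcard S', hS'.2]⟩
      · intro S₁ h₁ S₂ h₂ h
        rw [Finset.mem_coe, Finset.mem_filter] at h₁ h₂
        have h4 : S.1 \ S₁.1 = S.1 \ S₂.1 := by rw [h₁.2, h₂.2]
        have h5 : S₁.1 \ S.1 = S₂.1 \ S.1 := h
        apply Subtype.ext
        ext a
        have h6 := congrArg (fun A => a ∈ A) h4
        have h7 := congrArg (fun A => a ∈ A) h5
        simp only [Finset.mem_sdiff, eq_iff_iff] at h6 h7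
        by_cases ha : a ∈ S.1
        · simp only [ha, true_and] at h6
          exact not_iff_not.mp h6
        · simp only [ha, not_false_eq_true, and_true] at h7
          exact h7
    rw [Finset.sum_congr rfl h1, Finset.sum_const, nsmul_eq_mul, one_pow, mul_one]
    have hd : 0 ≤ (2 / (Fintype.card X : ℝ)) := by positivity
    calc ((Finset.univ.filter
        (fun S' : {S : Finset (Fin k) // S.card = s} => S.1 \ S'.1 = T)).card : ℝ) *
        ((T.card.factorial : ℝ) * (2 / (Fintype.card X : ℝ)) ^ T.card)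
        ≤ (k.choose T.card : ℝ) *
          ((T.card.factorial : ℝ) * (2 / (Fintype.card X : ℝ)) ^ T.card) := by
          refine mul_le_mul_of_nonneg_right ?_ (by positivity)
          exact_mod_cast h2
      _ = ((k.descFactorial T.card : ℕ) : ℝ) * (2 / (Fintype.card X : ℝ)) ^ T.card := by
          rw [Nat.descFactorial_eq_factorial_mul_choose, Nat.cast_mul]
          ring
      _ ≤ (k : ℝ) ^ T.card * (2 / (Fintype.card X : ℝ)) ^ T.card := by
          refine mul_le_mul_of_nonneg_right ?_ (by positivity)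
          exact_mod_cast Nat.descFactorial_le_pow k T.card
      _ = ((k : ℝ) * (2 / (Fintype.card X : ℝ))) ^ T.card := (mul_pow _ _ _).symm
      _ ≤ 2 ^ T.card := by gcongr
  refine (Finset.sum_le_sum key).trans (le_of_eq ?_)
  rw [Finset.sum_pow_mul_eq_add_pow, S.2]
  norm_num

theorem gram_permMat_mulVec {k : ℕ} (g : Equiv.Perm X) (f : (Fin k ↪ X) → ℝ) (x : Fin k ↪ X) :
    ((permMat k g).mulVec f) x = f (g⁻¹ • x) := by
  have h1 : ((permMat k g).mulVec f) x = ∑ z, (if g • z = x then 1 else 0) * f z := rfl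
  rw [h1, Finset.sum_eq_single (g⁻¹ • x)]
  · rw [smul_inv_smul, if_pos rfl, one_mul]
  · intro z _ hz
    rw [if_neg, zero_mul]
    intro h
    exact hz (by rw [← h, inv_smul_smul])
  · intro h
    exact absurd (Finset.mem_univ _) h

theorem gram_permMat_transpose_mulVec {k : ℕ} (g : Equiv.Perm X) (f : (Fin k ↪ X) → ℝ)
    (x : Fin k ↪ X) : ((permMat k g).transpose.mulVec f) x = f (g • x) := by
  have h1 : ((permMat k g).transpose.mulVec f) x =
    ∑ z, (if g • x = z then 1 else 0) * f z := rfl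
  rw [h1, Finset.sum_eq_single (g • x)]
  · rw [if_pos rfl, one_mul]
  · intro z _ hz
    rw [if_neg (Ne.symm hz), zero_mul]
  · intro h
    exact absurd (Finset.mem_univ _) h

theorem gram_pmat_eq {k : ℕ} (m : MonoidAlgebra ℝ (Equiv.Perm X)) :
    pmat k m = ∑ g ∈ m.coeff.support, m.coeff g • permMat k g := by
  unfold pmat
  rw [MonoidAlgebra.lift_apply]
  rfl

theorem gram_pmat_mulVec {k : ℕ} (m : MonoidAlgebra ℝ (Equiv.Perm X)) (f : (Fin k ↪ X) → ℝ)
    (x : Fin k ↪ X) :
    ((pmat k m).mulVec f) x = ∑ g ∈ m.coeff.support, m.coeff g * f (g⁻¹ • x) := by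
  rw [gram_pmat_eq, Matrix.sum_mulVec, Finset.sum_apply]
  refine Finset.sum_congr rfl fun g _ => ?_
  rw [Matrix.smul_mulVec, Pi.smul_apply, gram_permMat_mulVec, smul_eq_mul]

theorem gram_pmat_transpose_mulVec {k : ℕ} (m : MonoidAlgebra ℝ (Equiv.Perm X))
    (f : (Fin k ↪ X) → ℝ) (x : Fin k ↪ X) :
    ((pmat k m).transpose.mulVec f) x = ∑ g ∈ m.coeff.support, m.coeff g * f (g • x) := by
  rw [gram_pmat_eq, Matrix.transpose_sum, Matrix.sum_mulVec, Finset.sum_apply]
  refine Finset.sum_congr rfl fun g _ => ?_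
  rw [Matrix.transpose_smul, Matrix.smul_mulVec, Pi.smul_apply, gram_permMat_transpose_mulVec,
    smul_eq_mul]

/-- the copy of a function of `s` cards on the cards `S` -/
def gramCopy {k s : ℕ} (S : {S : Finset (Fin k) // S.card = s}) (φ : (Fin s ↪ X) → ℝ) :
    (Fin k ↪ X) → ℝ := fun x => φ ((emb S).trans x)

theorem gram_copy_mulVec {k s : ℕ} (S : {S : Finset (Fin k) // S.card = s})
    (m : MonoidAlgebra ℝ (Equiv.Perm X)) (φ : (Fin s ↪ X) → ℝ) :
    (pmat k m).mulVec (gramCopy S φ) = gramCopy S ((pmat s m).mulVec φ) := by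
  ext x
  rw [gram_pmat_mulVec]
  unfold gramCopy
  rw [gram_pmat_mulVec]
  rfl

theorem gram_copy_transpose_mulVec {k s : ℕ} (S : {S : Finset (Fin k) // S.card = s})
    (m : MonoidAlgebra ℝ (Equiv.Perm X)) (φ : (Fin s ↪ X) → ℝ) :
    (pmat k m).transpose.mulVec (gramCopy S φ) = gramCopy S ((pmat s m).transpose.mulVec φ) := by
  ext x
  rw [gram_pmat_transpose_mulVec]
  unfold gramCopy
  rw [gram_pmat_transpose_mulVec]
  rfl

theorem gram_copy_pow {k s : ℕ} (S : {S : Finset (Fin k) // S.card = s})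
    (m : MonoidAlgebra ℝ (Equiv.Perm X)) (φ : (Fin s ↪ X) → ℝ) (β : ℝ)
    (hβ : ((pmat s m).transpose * pmat s m).mulVec φ = β • φ) (J : ℕ) :
    (((pmat k m).transpose * pmat k m) ^ J).mulVec (gramCopy S φ) = β ^ J • gramCopy S φ := by
  induction J with
  | zero => rw [pow_zero, pow_zero, Matrix.one_mulVec, one_smul]
  | succ J ih =>
    have h1 : ((pmat k m).transpose * pmat k m).mulVec (gramCopy S φ) = β • gramCopy S φ := by
      rw [← Matrix.mulVec_mulVec, gram_copy_mulVec, gram_copy_transpose_mulVec,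
        Matrix.mulVec_mulVec, hβ]
      rfl
    rw [pow_succ, ← Matrix.mulVec_mulVec, h1, Matrix.mulVec_smul, ih, smul_smul, pow_succ']

theorem gram_copy_inner {k s : ℕ} (y : Fin k ↪ X) (S S' : {S : Finset (Fin k) // S.card = s})
    (φ : (Fin s ↪ X) → ℝ) :
    ((Fintype.card X - k).factorial : ℝ) *
      ⟪(WithLp.toLp 2 (gramCopy S φ) : EuclideanSpace ℝ (Fin k ↪ X)),
        WithLp.toLp 2 (gramCopy S' φ)⟫ =
      ⟪cardFn ((emb S).trans y) φ, cardFn ((emb S').trans y) φ⟫ := by
  rw [gram_inner, PiLp.inner_apply]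
  have h1 := sum_smul_eq y (fun x => gramCopy S φ x * gramCopy S' φ x)
  have h2 : ∑ i : Fin k ↪ X, ⟪(WithLp.toLp 2 (gramCopy S φ) : EuclideanSpace ℝ (Fin k ↪ X)).ofLp i,
      (WithLp.toLp 2 (gramCopy S' φ) : EuclideanSpace ℝ (Fin k ↪ X)).ofLp i⟫ =
      ∑ x, gramCopy S φ x * gramCopy S' φ x := by
    refine Finset.sum_congr rfl fun x _ => ?_
    rw [real_inner_eq_re_inner, RCLike.inner_apply, conj_trivial, RCLike.re_to_real]
    exact mul_comm _ _
  rw [h2, ← h1]
  rfl

/-- The eigenvalue of a harmonic eigenfunction of `s` cards is at most `3 ^ s` times the trace on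
`k` cards, divided by the number of subsets. -/
theorem gram_bound {k s : ℕ} (hk : k ≤ Fintype.card X) (hs : 4 * s ≤ Fintype.card X)
    (m : MonoidAlgebra ℝ (Equiv.Perm X)) (φ : (Fin s ↪ X) → ℝ) (hφ : Harm φ) (hφ0 : φ ≠ 0)
    (β : ℝ) (hβ : ((pmat s m).transpose * pmat s m).mulVec φ = β • φ) (J : ℕ) :
    β ^ J * (k.choose s : ℝ) ≤ 3 ^ s * ((((pmat k m).transpose * pmat k m) ^ J).trace) := by
  obtain ⟨y⟩ : Nonempty (Fin k ↪ X) :=
    Function.Embedding.nonempty_of_card_le (by rwa [Fintype.card_fin])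
  set A : Matrix (Fin k ↪ X) (Fin k ↪ X) ℝ := ((pmat k m).transpose * pmat k m) ^ J with hA
  have hpsd : A.PosSemidef := by
    rw [hA]
    refine Matrix.PosSemidef.pow ?_ J
    have := Matrix.posSemidef_conjTranspose_mul_self (pmat k m)
    rwa [Matrix.conjTranspose_eq_transpose_of_trivial] at this
  set M : EuclideanSpace ℝ (Fin k ↪ X) →ₗ[ℝ] EuclideanSpace ℝ (Fin k ↪ X) :=
    Matrix.toEuclideanLin A with hM
  have hMsym : M.IsSymmetric := Matrix.isSymmetric_toEuclideanLin_iff.mpr hpsd.isHermitian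
  have hMapp : ∀ v : (Fin k ↪ X) → ℝ, M (WithLp.toLp 2 v) = WithLp.toLp 2 (A.mulVec v) :=
    fun v => rfl
  have hMpos : ∀ v, 0 ≤ ⟪M v, v⟫ := by
    intro v
    have h1 := hpsd.dotProduct_mulVec_nonneg v.ofLp
    have h2 : ⟪M v, v⟫ = v.ofLp ⬝ᵥ star (A.mulVec v.ofLp) := by
      rw [EuclideanSpace.inner_eq_star_dotProduct]
      rfl
    rw [h2]
    simpa using h1
  have htr : LinearMap.trace ℝ _ M = A.trace := by
    rw [hM, Matrix.toEuclideanLin_eq_toLin_orthonormal, Matrix.trace_toLin_eq]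
  set F : ℝ := ((Fintype.card X - k).factorial : ℝ) with hF
  have hF0 : 0 < F := by
    rw [hF]
    exact_mod_cast Nat.factorial_pos _
  set N : ℝ := ((Fintype.card X - s).factorial : ℝ) * ∑ x : Fin s ↪ X, φ x ^ 2 with hN
  have hN0 : 0 < N := by
    rw [hN]
    refine mul_pos (by exact_mod_cast Nat.factorial_pos _) ?_
    obtain ⟨x, hx⟩ := Function.ne_iff.mp hφ0
    refine Finset.sum_pos' (fun x _ => sq_nonneg _) ⟨x, Finset.mem_univ _, ?_⟩
    have : φ x ≠ 0 := hx
    positivity
  have hin : ∀ S S' : {S : Finset (Fin k) // S.card = s},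
      ⟪(WithLp.toLp 2 (gramCopy S φ) : EuclideanSpace ℝ (Fin k ↪ X)),
        WithLp.toLp 2 (gramCopy S' φ)⟫ =
      F⁻¹ * ⟪cardFn ((emb S).trans y) φ, cardFn ((emb S').trans y) φ⟫ := by
    intro S S'
    rw [← gram_copy_inner, ← mul_assoc, inv_mul_cancel₀ hF0.ne', one_mul]
  have hnorm : ∀ S : {S : Finset (Fin k) // S.card = s},
      ‖cardFn ((emb S).trans y) φ‖ ^ 2 = N := fun S => gram_norm_sq _ _
  have hrow : ∀ S : {S : Finset (Fin k) // S.card = s},
      ∑ S' : {S : Finset (Fin k) // S.card = s},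
        |⟪(WithLp.toLp 2 (gramCopy S φ) : EuclideanSpace ℝ (Fin k ↪ X)),
          WithLp.toLp 2 (gramCopy S' φ)⟫| ≤ 3 ^ s * (F⁻¹ * N) := by
    intro S
    have h1 : ∀ S' ∈ (Finset.univ : Finset {S : Finset (Fin k) // S.card = s}),
        |⟪(WithLp.toLp 2 (gramCopy S φ) : EuclideanSpace ℝ (Fin k ↪ X)),
          WithLp.toLp 2 (gramCopy S' φ)⟫| ≤
        (((dif ((emb S).trans y) ((emb S').trans y)).factorial : ℝ) *
        (2 / (Fintype.card X : ℝ)) ^ (dif ((emb S).trans y) ((emb S').trans y))) * (F⁻¹ * N) := by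
      intro S' _
      rw [hin, abs_mul, abs_of_pos (inv_pos.mpr hF0)]
      have h2 := inner_cardFn_le hs ((emb S).trans y) ((emb S').trans y) φ φ hφ
      rw [gram_norm_eq ((emb S').trans y) ((emb S).trans y) φ, ← sq, hnorm] at h2
      calc F⁻¹ * |⟪cardFn ((emb S).trans y) φ, cardFn ((emb S').trans y) φ⟫|
          ≤ F⁻¹ * (((dif ((emb S).trans y) ((emb S').trans y)).factorial : ℝ) *
            (2 / (Fintype.card X : ℝ)) ^ (dif ((emb S).trans y) ((emb S').trans y)) * N) := by
            gcongr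
        _ = _ := by ring
    refine (Finset.sum_le_sum h1).trans ?_
    rw [← Finset.sum_mul]
    exact mul_le_mul_of_nonneg_right (row_sum_le y hk S) (by positivity)
  have hmain := sum_inner_le_trace M hMsym hMpos
    (fun S : {S : Finset (Fin k) // S.card = s} =>
      (WithLp.toLp 2 (gramCopy S φ) : EuclideanSpace ℝ (Fin k ↪ X))) (3 ^ s * (F⁻¹ * N)) (by positivity) hrow
  have hleft : ∀ S ∈ (Finset.univ : Finset {S : Finset (Fin k) // S.card = s}),
      ⟪M (WithLp.toLp 2 (gramCopy S φ)), (WithLp.toLp 2 (gramCopy S φ) :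
        EuclideanSpace ℝ (Fin k ↪ X))⟫ = β ^ J * (F⁻¹ * N) := by
    intro S _
    rw [hMapp, hA, gram_copy_pow S m φ β hβ J, WithLp.toLp_smul, real_inner_smul_left, hin,
      real_inner_self_eq_norm_sq, hnorm]
  rw [Finset.sum_congr rfl hleft, Finset.sum_const, nsmul_eq_mul, Finset.card_univ,
    Fintype.card_finset_len, Fintype.card_fin, htr] at hmain
  have hpos : 0 < F⁻¹ * N := by positivity
  refine le_of_mul_le_mul_right ?_ hpos
  calc β ^ J * (k.choose s : ℝ) * (F⁻¹ * N) = (k.choose s : ℝ) * (β ^ J * (F⁻¹ * N)) := by ring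
    _ ≤ 3 ^ s * (F⁻¹ * N) * A.trace := hmain
    _ = _ := by ring

end

end Vale.Agent.P162F
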