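import Vale.Agent.Lib.P162F.Defs

/-!
# P162F.Ncyc: counting the cycles contained in a set; Lemma C

Lemma C: for uniform coins `t`, the probability that `t (σ η) = t η` for all `η ∈ Y` is at most
`2 ^ (ncyc σ Y - |Y|)`.
-/

namespace Vale.Agent.P162F

noncomputable section

variable {β : Type*} [Fintype β] [DecidableEq β]

theorem mem_cyc {σ : Equiv.Perm β} {y z : β} : z ∈ cyc σ y ↔ σ.SameCycle y z := by
  simp [cyc]

theorem self_mem_cyc (σ : Equiv.Perm β) (y : β) : y ∈ cyc σ y :=
  mem_cyc.2 (Equiv.Perm.SameCycle.refl σ y)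

theorem cyc_eq_of_mem {σ : Equiv.Perm β} {y z : β} (h : z ∈ cyc σ y) : cyc σ z = cyc σ y := by
  rw [mem_cyc] at h
  ext w
  rw [mem_cyc, mem_cyc]
  exact ⟨fun h' => h.trans h', fun h' => h.symm.trans h'⟩

theorem pow_mem_cyc (σ : Equiv.Perm β) (y : β) (m : ℕ) : (σ ^ m) y ∈ cyc σ y := by
  rw [mem_cyc]
  exact ⟨m, by rw [zpow_natCast]⟩

theorem exists_pow_of_mem_cyc {σ : Equiv.Perm β} {y z : β} (h : z ∈ cyc σ y) :
    ∃ m : ℕ, (σ ^ m) y = z := by
  rw [mem_cyc] at h
  obtain ⟨i, _, hi⟩ := h.exists_pow_eq'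
  exact ⟨i, hi⟩

theorem cyc_congr {σ τ : Equiv.Perm β} {Y : Finset β} (h : ∀ y ∈ Y, σ y = τ y) {y : β}
    (hy : cyc σ y ⊆ Y) : cyc τ y = cyc σ y := by
  have hpow : ∀ m : ℕ, (τ ^ m) y = (σ ^ m) y := by
    intro m
    induction m with
    | zero => simp
    | succ m ih =>
      rw [pow_succ', pow_succ', Equiv.Perm.mul_apply, Equiv.Perm.mul_apply, ih,
        h _ (hy (pow_mem_cyc σ y m))]
  ext z
  constructor
  · intro hz
    obtain ⟨m, rfl⟩ := exists_pow_of_mem_cyc hz
    rw [hpow]
    exact pow_mem_cyc σ y m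
  · intro hz
    obtain ⟨m, rfl⟩ := exists_pow_of_mem_cyc hz
    rw [← hpow]
    exact pow_mem_cyc τ y m

/-- `ncyc σ Y` only depends on the restriction of `σ` to `Y`. -/
theorem ncyc_congr {σ τ : Equiv.Perm β} {Y : Finset β} (h : ∀ y ∈ Y, σ y = τ y) :
    ncyc σ Y = ncyc τ Y := by
  have key : ∀ {σ τ : Equiv.Perm β}, (∀ y ∈ Y, σ y = τ y) →
      (Finset.univ.image (cyc σ)).filter (· ⊆ Y) ⊆ (Finset.univ.image (cyc τ)).filter (· ⊆ Y) := by
    intro σ τ h c hc
    rw [Finset.mem_filter, Finset.mem_image] at hc ⊢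
    obtain ⟨⟨y, _, rfl⟩, hY⟩ := hc
    exact ⟨⟨y, Finset.mem_univ _, cyc_congr h hY⟩, hY⟩
  unfold ncyc
  congr 1
  exact Finset.Subset.antisymm (key h) (key fun y hy => (h y hy).symm)

theorem ncyc_le_card (σ : Equiv.Perm β) (Y : Finset β) : ncyc σ Y ≤ Y.card := by
  unfold ncyc
  refine (Finset.card_le_card (t := Y.image (cyc σ)) ?_).trans Finset.card_image_le
  intro c hc
  rw [Finset.mem_filter, Finset.mem_image] at hc
  obtain ⟨⟨y, _, rfl⟩, hY⟩ := hc
  exact Finset.mem_image_of_mem _ (hY (self_mem_cyc σ y))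

theorem ncyc_erase_of_not_subset {σ : Equiv.Perm β} {Y : Finset β} {y : β} (hy : y ∈ Y)
    (h : ¬ cyc σ y ⊆ Y) : ncyc σ (Y.erase y) = ncyc σ Y := by
  unfold ncyc
  congr 1
  apply Finset.filter_congr
  intro c hc
  rw [Finset.mem_image] at hc
  obtain ⟨z, _, rfl⟩ := hc
  rw [Finset.subset_erase]
  refine ⟨fun h' => h'.1, fun h' => ⟨h', fun hyz => h ?_⟩⟩
  rw [cyc_eq_of_mem hyz]
  exact h'

theorem ncyc_erase_of_subset {σ : Equiv.Perm β} {Y : Finset β} {y : β} (hy : y ∈ Y)
    (h : cyc σ y ⊆ Y) : ncyc σ (Y.erase y) + 1 = ncyc σ Y := by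
  unfold ncyc
  have e : (Finset.univ.image (cyc σ)).filter (· ⊆ Y) =
      insert (cyc σ y) ((Finset.univ.image (cyc σ)).filter (· ⊆ Y.erase y)) := by
    ext c
    rw [Finset.mem_insert, Finset.mem_filter, Finset.mem_filter, Finset.subset_erase]
    constructor
    · rintro ⟨hc, hcY⟩
      by_cases hyc : y ∈ c
      · left
        rw [Finset.mem_image] at hc
        obtain ⟨z, _, rfl⟩ := hc
        exact (cyc_eq_of_mem hyc).symm
      · exact Or.inr ⟨hc, hcY, hyc⟩
    · rintro (rfl | ⟨hc, hcY, _⟩)
      · exact ⟨Finset.mem_image_of_mem _ (Finset.mem_univ _), h⟩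
      · exact ⟨hc, hcY⟩
  rw [e, Finset.card_insert_of_notMem]
  rw [Finset.mem_filter, Finset.subset_erase]
  rintro ⟨_, _, h'⟩
  exact h' (self_mem_cyc σ y)

/-- Lemma C. Induction on `|Y|`: if some `η ∈ Y` has `σ η ∉ Y`, remove it: the coin `t (σ η)` occurs
in no other constraint, so that flipping it halves the number of solutions, and `ncyc` does not
change; if `Y` is invariant remove any `η ∈ Y`: `ncyc` decreases by one. -/
theorem lemmaC (σ : Equiv.Perm β) (Y : Finset β) :
    (Finset.univ.filter fun t : β → Bool => ∀ η ∈ Y, t (σ η) = t η).card * 2 ^ Y.card ≤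
      2 ^ (Fintype.card β + ncyc σ Y) := by
  induction hk : Y.card generalizing Y with
  | zero =>
    rw [pow_zero, mul_one]
    refine (Finset.card_le_univ _).trans ?_
    rw [Fintype.card_fun, Fintype.card_bool]
    exact Nat.pow_le_pow_right (by norm_num) (Nat.le_add_right _ _)
  | succ k ih =>
    by_cases hinv : ∃ η ∈ Y, σ η ∉ Y
    · obtain ⟨η, hη, hσ⟩ := hinv
      have hcard : (Y.erase η).card = k := by
        rw [Finset.card_erase_of_mem hη, hk]; rfl
      have h1 := ih (Y.erase η) hcard
      have hne : ¬ cyc σ η ⊆ Y := by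
        intro h
        apply hσ
        apply h
        have := pow_mem_cyc σ η 1
        rwa [pow_one] at this
      rw [ncyc_erase_of_not_subset hη hne] at h1
      have hση : σ η ≠ η := fun h => hσ (by rw [h]; exact hη)
      let ψ : (β → Bool) → (β → Bool) := fun t => Function.update t (σ η) (!t (σ η))
      have hψ : Function.Injective ψ := by
        intro s t hst
        have h2 : ∀ z, ψ s z = ψ t z := fun z => congrFun hst z
        funext z
        have h3 := h2 z
        simp only [ψ] at h3
        by_cases hz : z = σ η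
        · subst hz
          rw [Function.update_self, Function.update_self] at h3
          exact Bool.not_inj h3
        · rwa [Function.update_of_ne hz, Function.update_of_ne hz] at h3
      set A := Finset.univ.filter fun t : β → Bool => ∀ η ∈ Y, t (σ η) = t η with hA
      set A' := Finset.univ.filter fun t : β → Bool => ∀ y ∈ Y.erase η, t (σ y) = t y with hA'
      have hsub : A ⊆ A' := by
        intro t ht
        rw [hA, Finset.mem_filter] at ht
        rw [hA', Finset.mem_filter]
        exact ⟨Finset.mem_univ _, fun y hy => ht.2 y (Finset.mem_of_mem_erase hy)⟩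
      have hsub2 : A.image ψ ⊆ A' := by
        intro t' ht'
        rw [Finset.mem_image] at ht'
        obtain ⟨t, ht, rfl⟩ := ht'
        rw [hA, Finset.mem_filter] at ht
        rw [hA', Finset.mem_filter]
        refine ⟨Finset.mem_univ _, fun y hy => ?_⟩
        rw [Finset.mem_erase] at hy
        have n1 : σ y ≠ σ η := fun h => hy.1 (σ.injective h)
        have n2 : y ≠ σ η := fun h => hσ (by rw [← h]; exact hy.2)
        simp only [ψ]
        rw [Function.update_of_ne n1, Function.update_of_ne n2]
        exact ht.2 y hy.2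
      have hdisj : Disjoint A (A.image ψ) := by
        rw [Finset.disjoint_left]
        intro s hs hs'
        rw [Finset.mem_image] at hs'
        obtain ⟨t, ht, rfl⟩ := hs'
        rw [hA, Finset.mem_filter] at hs ht
        have h3 := hs.2 η hη
        have h4 := ht.2 η hη
        simp only [ψ] at h3
        rw [Function.update_self, Function.update_of_ne (Ne.symm hση), h4] at h3
        cases h5 : t η <;> rw [h5] at h3 <;> simp at h3
      have h5 : A.card + A.card ≤ A'.card := by
        calc A.card + A.card = A.card + (A.image ψ).card := by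
              rw [Finset.card_image_of_injective _ hψ]
          _ = (A ∪ A.image ψ).card := (Finset.card_union_of_disjoint hdisj).symm
          _ ≤ A'.card := Finset.card_le_card (Finset.union_subset hsub hsub2)
      calc A.card * 2 ^ (k + 1) = (A.card + A.card) * 2 ^ k := by rw [pow_succ]; ring
        _ ≤ A'.card * 2 ^ k := Nat.mul_le_mul_right _ h5
        _ ≤ _ := h1
    · push Not at hinv
      have hne : Y.Nonempty := by
        rw [← Finset.card_pos]; omega
      obtain ⟨η, hη⟩ := hne
      have hcard : (Y.erase η).card = k := by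
        rw [Finset.card_erase_of_mem hη, hk]; rfl
      have h1 := ih (Y.erase η) hcard
      have hsub : cyc σ η ⊆ Y := by
        intro z hz
        obtain ⟨m, rfl⟩ := exists_pow_of_mem_cyc hz
        induction m with
        | zero => simpa using hη
        | succ m ihm =>
          rw [pow_succ', Equiv.Perm.mul_apply]
          exact hinv _ (ihm (pow_mem_cyc σ η m))
      have h2 := ncyc_erase_of_subset hη hsub
      set A := Finset.univ.filter fun t : β → Bool => ∀ η ∈ Y, t (σ η) = t η with hA
      set A' := Finset.univ.filter fun t : β → Bool => ∀ y ∈ Y.erase η, t (σ y) = t y with hA'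
      have hsub : A ⊆ A' := by
        intro t ht
        rw [hA, Finset.mem_filter] at ht
        rw [hA', Finset.mem_filter]
        exact ⟨Finset.mem_univ _, fun y hy => ht.2 y (Finset.mem_of_mem_erase hy)⟩
      calc A.card * 2 ^ (k + 1) ≤ A'.card * 2 ^ (k + 1) :=
            Nat.mul_le_mul_right _ (Finset.card_le_card hsub)
        _ = (A'.card * 2 ^ k) * 2 := by rw [pow_succ]; ring
        _ ≤ 2 ^ (Fintype.card β + ncyc σ (Y.erase η)) * 2 := Nat.mul_le_mul_right _ h1
        _ = 2 ^ (Fintype.card β + ncyc σ Y) := by rw [← pow_succ, ← h2]; rfl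

end

end Vale.Agent.P162F
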