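import Vale.Agent.Lib.P162F.Basic
import Vale.Agent.Lib.P162F.Avg
import Vale.Agent.Lib.P162F.Ncyc

/-!
# P162F.Levels: explicit form of the exponent, order of the layers
-/

namespace Vale.Agent.P162F

noncomputable section

variable {d : ℕ}

theorem levels_map_one (X : Finset (Cube d)) :
    X.map (1 : Equiv.Perm (Cube d)).toEmbedding = X := by
  exact Finset.map_refl

theorem levels_map_mul (g h : Equiv.Perm (Cube d)) (X : Finset (Cube d)) :
    X.map (g * h).toEmbedding = (X.map h.toEmbedding).map g.toEmbedding := by
  rw [Finset.map_map]
  rfl

/-- the explicit form of the exponent for a part of the network -/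
theorem ctot_gen (v : ℕ → ℝ) (ω : Cfg d) (m : ℕ) : ∀ (j : ℕ) (X : Finset (Cube d)),
    ctot v m j ω X = ∑ p ∈ Finset.range m,
      v (j + p) * (cc (j + p) (net (m - p - 1) (j + p + 1) ω)
        (X.map (inp p j ω).toEmbedding) : ℝ) := by
  induction m with
  | zero => intro j X; simp [ctot]
  | succ m ih =>
    intro j X
    rw [ctot, ih (j + 1), Finset.sum_range_succ', add_comm]
    congr 1
    · refine Finset.sum_congr rfl fun p _ => ?_
      rw [inp, levels_map_mul]
      rw [show j + 1 + p = j + (p + 1) by ring, show m + 1 - (p + 1) - 1 = m - p - 1 by omega]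
    · rw [inp, levels_map_one]
      simp

theorem ctot_eq (v : ℕ → ℝ) (ω : Cfg d) (X : Finset (Cube d)) :
    ctot v d 0 ω X = ∑ l ∈ Finset.range d, v l * (lv l ω X : ℝ) := by
  rw [ctot_gen]
  refine Finset.sum_congr rfl fun l _ => ?_
  rw [lv, zero_add]

theorem layers_perm_gen (m : ℕ) : ∀ j : ℕ, (layers m j).Perm
    ((List.range' j m).map (fun l => (false, l)) ++
      (List.range' j m).map (fun l => (true, l))) := by
  induction m with
  | zero => intro j; simp [layers]
  | succ m ih =>
    intro j
    rw [layers, List.range'_succ, List.map_cons, List.map_cons, List.cons_append]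
    refine List.Perm.cons _ ?_
    exact ((ih (j + 1)).cons _).trans List.perm_middle.symm

theorem layers_perm (d : ℕ) : (layers d 0).Perm
    ((List.range d).map (fun l => (false, l)) ++ (List.range d).map (fun l => (true, l))) := by
  rw [List.range_eq_range']
  exact layers_perm_gen d 0

/-- the count at level `l` does not depend on the output coins of the layers `p ≤ l` -/
theorem lv_indep {l p : ℕ} (h : p ≤ l) (φ : ℕ → ℝ) (X : Finset (Cube d)) :
    Indep (true, p) (fun ω : Cfg d => φ (lv l ω X)) := by
  intro ω a
  have h1 : net (d - l - 1) (l + 1) (Function.update ω (true, p) a) =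
      net (d - l - 1) (l + 1) ω := by
    apply net_congr
    intro b q hq _
    rw [Function.update_of_ne]
    intro hcon
    have : q = p := congrArg Prod.snd hcon
    omega
  have h2 : inp l 0 (Function.update ω (true, p) a) = inp l 0 ω := by
    apply inp_congr
    intro q _ _
    rw [Function.update_of_ne]
    intro hcon
    have : false = true := congrArg Prod.fst hcon
    exact absurd this (by decide)
  simp only [lv, h1, h2]

end

end Vale.Agent.P162F
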