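import Vale.Agent.Lib.P162F.Marking
import Vale.Agent.Lib.P162F.Levels
import Vale.Agent.Lib.P162F.Ncyc

/-!
# P162F.Inner: the inner levels
-/

namespace Vale.Agent.P162F

noncomputable section

variable {d k : ℕ}

theorem inner_cyc_eq {β : Type*} [Fintype β] [DecidableEq β] (σ : Equiv.Perm β) {y z : β}
    (h : z ∈ cyc σ y) : cyc σ z = cyc σ y := by
  rw [mem_cyc] at h
  ext u
  rw [mem_cyc, mem_cyc]
  exact ⟨fun hu => h.trans hu, fun hu => h.symm.trans hu⟩

theorem inner_ai {β : Type*} (σ : Equiv.Perm β) (y : β) : σ (σ⁻¹ y) = y := by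
  rw [← Equiv.Perm.mul_apply, mul_inv_cancel, Equiv.Perm.one_apply]

theorem inner_ia {β : Type*} (σ : Equiv.Perm β) (y : β) : σ⁻¹ (σ y) = y := by
  rw [← Equiv.Perm.mul_apply, inv_mul_cancel, Equiv.Perm.one_apply]

/-- The combinatorial heart: the closed cycles at level `l` inject into a family of disjoint
pairs of positions. -/
theorem inner_blocks (l : ℕ) (hl : l < d) (ω : Cfg d) :
    ∃ B : Finset (Finset (Cube d)), (B : Set (Finset (Cube d))).PairwiseDisjoint id ∧
      (∀ b ∈ B, b.card = 2) ∧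
      ∀ X : Finset (Cube d), lv l ω X ≤ (B.filter fun b => b ⊆ X).card := by
  classical
  obtain ⟨G, hG⟩ : ∃ G : Equiv.Perm (Cube d), G = net (d - l - 1) (l + 1) ω := ⟨_, rfl⟩
  obtain ⟨τ, hτ⟩ : ∃ τ : Equiv.Perm (Cube d), τ = inp l 0 ω := ⟨_, rfl⟩
  obtain ⟨σ, hσ⟩ : ∃ σ : Equiv.Perm (Cube d), σ = com l G := ⟨_, rfl⟩
  have hbitG : ∀ ξ, bit l (G ξ) = bit l ξ := fun ξ => by
    rw [hG]; exact bit_net_of_lt _ _ _ _ (by omega)
  have hbitG' : ∀ y, bit l (G⁻¹ y) = bit l y := fun y => by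
    rw [← hbitG, inner_ai]
  -- representatives
  have hrep : ∀ c : Finset (Cube d), ∃ y : Cube d, c.Nonempty → y ∈ c := fun c => by
    by_cases h : c.Nonempty
    · obtain ⟨y, hy⟩ := h
      exact ⟨y, fun _ => hy⟩
    · exact ⟨fun _ => false, fun h' => absurd h' h⟩
  choose rep hrep using hrep
  let blk : Finset (Cube d) → Finset (Cube d) := fun c =>
    {τ⁻¹ (G⁻¹ (rep c)), τ⁻¹ (fl l (G⁻¹ (rep c)))}
  let 𝒞 : Finset (Finset (Cube d)) :=
    (Finset.univ.image (cyc σ)).filter fun c => ∀ y ∈ c, bit l y = false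
  have hne : ∀ c ∈ Finset.univ.image (cyc σ), c.Nonempty := by
    intro c hc
    obtain ⟨y, -, rfl⟩ := Finset.mem_image.mp hc
    exact ⟨y, mem_cyc.mpr (Equiv.Perm.SameCycle.refl _ _)⟩
  have hrepc : ∀ c ∈ 𝒞, rep c ∈ c := fun c hc => hrep c (hne c (Finset.mem_filter.mp hc).1)
  have hrepb : ∀ c ∈ 𝒞, bit l (rep c) = false := fun c hc =>
    (Finset.mem_filter.mp hc).2 _ (hrepc c hc)
  have hinj : ∀ c ∈ 𝒞, ∀ c' ∈ 𝒞, rep c = rep c' → c = c' := by
    intro c hc c' hc' h
    obtain ⟨y, -, hy⟩ := Finset.mem_image.mp (Finset.mem_filter.mp hc).1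
    obtain ⟨y', -, hy'⟩ := Finset.mem_image.mp (Finset.mem_filter.mp hc').1
    have h1 : rep c ∈ cyc σ y := by rw [hy]; exact hrepc c hc
    have h2 : rep c ∈ cyc σ y' := by rw [hy', h]; exact hrepc c' hc'
    rw [← hy, ← hy', ← inner_cyc_eq σ h1, ← inner_cyc_eq σ h2]
  have hdisj : ∀ c ∈ 𝒞, ∀ c' ∈ 𝒞, ∀ y, y ∈ blk c → y ∈ blk c' → c = c' := by
    intro c hc c' hc' y hy hy'
    simp only [blk, Finset.mem_insert, Finset.mem_singleton] at hy hy'
    have hb := hrepb c hc
    have hb' := hrepb c' hc'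
    apply hinj c hc c' hc'
    have key : ∀ u v : Cube d, bit l u = false → bit l v = false → (y = τ⁻¹ u ∨ y = τ⁻¹ (fl l u)) →
        (y = τ⁻¹ v ∨ y = τ⁻¹ (fl l v)) → u = v := by
      intro u v hu hv h1 h2
      rcases h1 with h1 | h1 <;> rcases h2 with h2 | h2
      · exact (τ⁻¹).injective (h1.symm.trans h2)
      · have h3 : u = fl l v := (τ⁻¹).injective (h1.symm.trans h2)
        rw [h3, bit_fl_self hl, hv] at hu
        simp at hu
      · have h3 : fl l u = v := (τ⁻¹).injective (h1.symm.trans h2)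
        rw [← h3, bit_fl_self hl, hu] at hv
        simp at hv
      · exact (fl l).injective ((τ⁻¹).injective (h1.symm.trans h2))
    exact (G⁻¹).injective (key _ _ (by rw [hbitG', hb]) (by rw [hbitG', hb']) hy hy')
  have hblkne : ∀ c, (blk c).Nonempty := fun c => ⟨_, Finset.mem_insert_self _ _⟩
  refine ⟨𝒞.image blk, ?_, ?_, ?_⟩
  · intro b hb b' hb' hbb'
    rw [Finset.mem_coe, Finset.mem_image] at hb hb'
    obtain ⟨c, hc, rfl⟩ := hb
    obtain ⟨c', hc', rfl⟩ := hb'
    change Disjoint (blk c) (blk c')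
    rw [Finset.disjoint_left]
    intro y hy hy'
    exact hbb' (by rw [hdisj c hc c' hc' y hy hy'])
  · intro b hb
    obtain ⟨c, hc, rfl⟩ := Finset.mem_image.mp hb
    refine Finset.card_pair ?_
    intro h
    exact fl_ne hl _ ((τ⁻¹).injective h).symm
  · intro X
    have hlv : lv l ω X = ((Finset.univ.image (cyc σ)).filter
        (· ⊆ (dblm l (X.map τ.toEmbedding)).map G.toEmbedding)).card := by
      rw [lv, cc, ncyc, hσ, hG, hτ]
    rw [hlv]
    have hY : ∀ y ∈ (dblm l (X.map τ.toEmbedding)).map G.toEmbedding,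
        bit l y = false ∧ τ⁻¹ (G⁻¹ y) ∈ X ∧ τ⁻¹ (fl l (G⁻¹ y)) ∈ X := by
      intro y hy
      obtain ⟨ξ, hξ, rfl⟩ := Finset.mem_map.mp hy
      have h1 := Finset.mem_filter.mp hξ
      obtain ⟨h2, h3, h4⟩ := h1
      obtain ⟨p, hp, hpξ⟩ := Finset.mem_map.mp h2
      obtain ⟨p', hp', hpξ'⟩ := Finset.mem_map.mp h4
      have e1 : G⁻¹ (G.toEmbedding ξ) = ξ := inner_ia G ξ
      rw [e1, ← hpξ]
      refine ⟨?_, ?_, ?_⟩
      · show bit l (G (τ p)) = false
        rw [hbitG]
        have : τ p = ξ := hpξ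
        rw [this]; exact h3
      · show τ⁻¹ (τ p) ∈ X
        rw [inner_ia]; exact hp
      · rw [hpξ, ← hpξ']
        show τ⁻¹ (τ p') ∈ X
        rw [inner_ia]; exact hp'
    have hmaps : ∀ c ∈ (Finset.univ.image (cyc σ)).filter
        (· ⊆ (dblm l (X.map τ.toEmbedding)).map G.toEmbedding),
        c ∈ 𝒞 := by
      intro c hc
      have h1 := Finset.mem_filter.mp hc
      exact Finset.mem_filter.mpr ⟨h1.1, fun y hy => (hY y (h1.2 hy)).1⟩
    refine Finset.card_le_card_of_injOn blk ?_ ?_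
    · intro c hc
      rw [Finset.mem_coe] at hc ⊢
      have h1 := hmaps c hc
      have h2 := (Finset.mem_filter.mp hc).2
      refine Finset.mem_filter.mpr ⟨Finset.mem_image_of_mem _ h1, ?_⟩
      have h3 := hY _ (h2 (hrepc c h1))
      intro y hy
      simp only [blk, Finset.mem_insert, Finset.mem_singleton] at hy
      rcases hy with rfl | rfl
      · exact h3.2.1
      · exact h3.2.2
    · intro c hc c' hc' h
      obtain ⟨y, hy⟩ := hblkne c
      exact hdisj c (hmaps c hc) c' (hmaps c' hc') y hy (h ▸ hy)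

/-- the inner level `l`, for fixed coins and random cards: distinct closed cycles give disjoint
pairs of positions occupied by cards -/
theorem inner_level (l : ℕ) (hl : l < d) (ω : Cfg d) (z : ℝ) (hz : 1 ≤ z) :
    ∑ x : Fin k ↪ Cube d, z ^ (lv l ω (mk x)) ≤
      (Fintype.card (Fin k ↪ Cube d) : ℝ) * Real.exp (z * (k * (k / 2 ^ d)) / 2) := by
  classical
  obtain ⟨B, hB1, hB2, hB3⟩ := inner_blocks l hl ω
  have h1 : ∑ x : Fin k ↪ Cube d, z ^ (lv l ω (mk x)) ≤
      ∑ x : Fin k ↪ Cube d, z ^ (B.filter fun b => b ⊆ Finset.univ.map x).card :=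
    Finset.sum_le_sum fun x _ => pow_le_pow_right₀ hz (hB3 (mk x))
  refine h1.trans ((marking k B hB1 (fun b hb => (hB2 b hb).ge) z hz).trans ?_)
  refine mul_le_mul_of_nonneg_left ?_ (Nat.cast_nonneg _)
  have hcardB : 2 * B.card ≤ 2 ^ d := by
    have h2 := Finset.card_biUnion (s := B) (t := id) hB1
    have h3 : (B.biUnion id).card ≤ 2 ^ d := by
      refine (Finset.card_le_univ _).trans (le_of_eq ?_)
      simp [Cube]
    rw [h2] at h3
    have h4 : ∑ b ∈ B, (id b).card = 2 * B.card := by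
      have h5 : ∑ b ∈ B, (id b).card = ∑ b ∈ B, 2 :=
        Finset.sum_congr rfl fun b hb => hB2 b hb
      rw [h5, Finset.sum_const, smul_eq_mul, mul_comm]
    rw [h4] at h3
    exact h3
  have hcardC : (Fintype.card (Cube d) : ℝ) = 2 ^ d := by simp [Cube]
  rw [hcardC]
  set ρ : ℝ := (k : ℝ) / 2 ^ d with hρ
  have hz1 : 0 ≤ z - 1 := by linarith
  have hBr : 2 * (B.card : ℝ) ≤ 2 ^ d := by exact_mod_cast hcardB
  have h5 : (1 + (z - 1) * ρ ^ 2) ^ B.card ≤ Real.exp ((z - 1) * ρ ^ 2 * B.card) := by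
    rw [mul_comm _ (B.card : ℝ), Real.exp_nat_mul]
    refine pow_le_pow_left₀ (by positivity) ?_ _
    rw [add_comm]
    exact Real.add_one_le_exp _
  refine h5.trans (Real.exp_le_exp.mpr ?_)
  have h6 : ρ ^ 2 * 2 ^ d = k * ρ := by
    rw [hρ]; field_simp
  have h7 : (z - 1) * ρ ^ 2 * B.card ≤ z * ρ ^ 2 * (2 ^ d / 2) := by
    refine mul_le_mul ?_ (by linarith) (Nat.cast_nonneg _) (by positivity)
    exact mul_le_mul_of_nonneg_right (by linarith) (sq_nonneg _)
  refine h7.trans (le_of_eq ?_)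
  rw [← h6]; ring

/-- one pass, inner levels, random cards -/
theorem inner_bound (q₀ : ℕ) (hq : 1 ≤ q₀) (ω : Cfg d) :
    ∑ x : Fin k ↪ Cube d, avL (layers d 0)
      (fun ω => (2 : ℝ) ^
        (2 * ctot (fun l => if q₀ ≤ (d - l - 1) / 64 then 0 else 1) d 0 ω (mk x))) ω ≤
      (Fintype.card (Fin k ↪ Cube d) : ℝ) *
        Real.exp ((2 : ℝ) ^ (128 * q₀) * (k * (k / 2 ^ d)) / 2) := by
  classical
  set v : ℕ → ℝ := fun l => if q₀ ≤ (d - l - 1) / 64 then 0 else 1 with hv
  obtain ⟨E, hE⟩ : ∃ E : ℝ, E = Real.exp ((2 : ℝ) ^ (128 * q₀) * (k * (k / 2 ^ d)) / 2) :=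
    ⟨_, rfl⟩
  rw [← hE]
  have hE1 : 1 ≤ E := by
    rw [hE]
    exact Real.one_le_exp (by positivity)
  have hswap := avL_sum (A := Coin d) (Finset.univ : Finset (Fin k ↪ Cube d)) (layers d 0)
    (fun x ω => (2 : ℝ) ^ (2 * ctot v d 0 ω (mk x)))
  have hswap' := congrFun hswap ω
  rw [← hswap']
  refine avL_le_of_le (fun ω => ?_) ω
  -- now the coins are fixed
  let R : Finset ℕ := (Finset.range d).filter fun l => ¬ q₀ ≤ (d - l - 1) / 64
  have hRcard : R.card ≤ 64 * q₀ := by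
    have h1 : R.card ≤ (Finset.range (64 * q₀)).card := by
      refine Finset.card_le_card_of_injOn (fun l => d - l - 1) ?_ ?_
      · intro l hl
        have h2 := Finset.mem_filter.mp (Finset.mem_coe.mp hl)
        have h3 := Finset.mem_range.mp h2.1
        rw [Finset.mem_coe, Finset.mem_range]
        have h4 := h2.2
        dsimp only
        omega
      · intro l hl l' hl' h
        have h2 := Finset.mem_range.mp (Finset.mem_filter.mp (Finset.mem_coe.mp hl)).1
        have h3 := Finset.mem_range.mp (Finset.mem_filter.mp (Finset.mem_coe.mp hl')).1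
        dsimp only at h
        omega
    simpa using h1
  have hctot : ∀ x : Fin k ↪ Cube d, (2 : ℝ) ^ (2 * ctot v d 0 ω (mk x))
      = ∏ l ∈ R, ((2 : ℝ) ^ 2) ^ (lv l ω (mk x)) := by
    intro x
    have h1 : ctot v d 0 ω (mk x) = ((∑ l ∈ R, lv l ω (mk x) : ℕ) : ℝ) := by
      rw [ctot_eq, Finset.sum_filter]
      push_cast
      refine Finset.sum_congr rfl fun l _ => ?_
      by_cases hc : q₀ ≤ (d - l - 1) / 64 <;> simp [hv, hc]
    rw [h1, Finset.prod_pow_eq_pow_sum, ← Real.rpow_natCast, ← Real.rpow_natCast,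
      ← Real.rpow_mul (by norm_num)]
    norm_num
  simp only [hctot]
  rcases R.eq_empty_or_nonempty with hR | hR
  · rw [hR]
    simp only [Finset.prod_empty, Finset.sum_const, Finset.card_univ, nsmul_eq_mul, mul_one]
    have h0 : (0 : ℝ) ≤ (Fintype.card (Fin k ↪ Cube d) : ℝ) := Nat.cast_nonneg _
    nlinarith
  · have hm : 0 < R.card := Finset.card_pos.mpr hR
    have hmr : (0 : ℝ) < R.card := by exact_mod_cast hm
    obtain ⟨z, hz⟩ : ∃ z : ℝ, z = ((2 : ℝ) ^ 2) ^ R.card := ⟨_, rfl⟩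
    have hz1 : 1 ≤ z := by
      rw [hz]; exact one_le_pow₀ (by norm_num)
    have hzle : z ≤ (2 : ℝ) ^ (128 * q₀) := by
      rw [hz, ← pow_mul]
      exact pow_le_pow_right₀ (by norm_num) (by omega)
    have hamgm : ∀ x : Fin k ↪ Cube d, ∏ l ∈ R, ((2 : ℝ) ^ 2) ^ (lv l ω (mk x)) ≤
        ∑ l ∈ R, (1 / (R.card : ℝ)) * z ^ (lv l ω (mk x)) := by
      intro x
      have h1 := Real.geom_mean_le_arith_mean_weighted R (fun _ => 1 / (R.card : ℝ))
        (fun l => z ^ (lv l ω (mk x))) (fun _ _ => by positivity)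
        (by rw [Finset.sum_const, nsmul_eq_mul]; field_simp) (fun _ _ => by positivity)
      refine le_trans (le_of_eq (Finset.prod_congr rfl fun l _ => ?_)) h1
      rw [hz, pow_right_comm ((2 : ℝ) ^ 2) R.card, one_div,
        Real.pow_rpow_inv_natCast (by positivity) hm.ne']
    calc ∑ x : Fin k ↪ Cube d, ∏ l ∈ R, ((2 : ℝ) ^ 2) ^ (lv l ω (mk x))
        ≤ ∑ x : Fin k ↪ Cube d, ∑ l ∈ R, (1 / (R.card : ℝ)) * z ^ (lv l ω (mk x)) :=
          Finset.sum_le_sum fun x _ => hamgm x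
      _ = ∑ l ∈ R, (1 / (R.card : ℝ)) * ∑ x : Fin k ↪ Cube d, z ^ (lv l ω (mk x)) := by
          rw [Finset.sum_comm]
          refine Finset.sum_congr rfl fun l _ => ?_
          rw [Finset.mul_sum]
      _ ≤ ∑ l ∈ R, (1 / (R.card : ℝ)) * ((Fintype.card (Fin k ↪ Cube d) : ℝ) * E) := by
          refine Finset.sum_le_sum fun l hl => ?_
          refine mul_le_mul_of_nonneg_left ?_ (by positivity)
          have hld : l < d := Finset.mem_range.mp (Finset.mem_filter.mp hl).1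
          refine (inner_level l hld ω z hz1).trans ?_
          refine mul_le_mul_of_nonneg_left ?_ (Nat.cast_nonneg _)
          rw [hE]
          refine Real.exp_le_exp.mpr ?_
          refine div_le_div_of_nonneg_right ?_ (by norm_num)
          exact mul_le_mul_of_nonneg_right hzle (by positivity)
      _ = (Fintype.card (Fin k ↪ Cube d) : ℝ) * E := by
          rw [Finset.sum_const, nsmul_eq_mul]
          field_simp

end

end Vale.Agent.P162F
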