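import Vale.Agent.Lib.P162F.Basic
import Vale.Agent.Lib.P162F.Ncyc

/-!
# P162F.Kappa: the matching probability of one level
-/

namespace Vale.Agent.P162F

noncomputable section

variable {d k : ℕ}

/-- the coins for which the bits `j` of the cards agree -/
def kapSet (j : ℕ) (x z : Fin k ↪ Cube d) : Finset (Coin d × Coin d) :=
  Finset.univ.filter fun p => ∀ c, bit j (sw j p.1 (x c)) = bit j (sw j p.2 (z c))

/-- Functions which agree on `A`. -/
theorem Kappa.card_agree {β : Type*} [Fintype β] [DecidableEq β] (A : Finset β)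
    (T : Finset (β → Bool)) (h : ∀ u ∈ T, ∀ v ∈ T, ∀ a ∈ A, u a = v a) :
    T.card * 2 ^ A.card ≤ 2 ^ Fintype.card β := by
  have h1 : T.card * 2 ^ A.card = (T ×ˢ A.powerset).card := by
    rw [Finset.card_product, Finset.card_powerset]
  have h2 : 2 ^ Fintype.card β = (Finset.univ : Finset (β → Bool)).card := by
    rw [Finset.card_univ, Fintype.card_fun, Fintype.card_bool]
  rw [h1, h2]
  refine Finset.card_le_card_of_injOn
    (fun p => fun b => if b ∈ A then decide (b ∈ p.2) else p.1 b) (fun _ _ => Finset.mem_coe.mpr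
      (Finset.mem_univ _)) ?_
  rintro ⟨u, B⟩ hp ⟨v, D⟩ hq hpq
  rw [Finset.mem_coe, Finset.mem_product, Finset.mem_powerset] at hp hq
  obtain ⟨hu, hB⟩ := hp
  obtain ⟨hv, hD⟩ := hq
  simp only at hu hB hv hD hpq
  have hBD : B = D := by
    ext b
    by_cases hb : b ∈ A
    · have := congrFun hpq b
      simp only [if_pos hb, decide_eq_decide] at this
      exact this
    · exact ⟨fun h => absurd (hB h) hb, fun h => absurd (hD h) hb⟩
  have huv : u = v := by
    funext b
    by_cases hb : b ∈ A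
    · exact h u hu v hv b hb
    · have := congrFun hpq b
      simp only [if_neg hb] at this
      exact this
  rw [hBD, huv]

/-- The number of pairs met by the cards. -/
theorem Kappa.card_pairs {j : ℕ} (hj : j < d) (X : Finset (Cube d)) :
    X.card ≤ (X.image (lo j)).card + (dblm j X).card := by
  classical
  set X0 := X.filter fun y => bit j y = false with hX0
  set X1 := X.filter fun y => ¬ bit j y = false with hX1
  have h1 : X0.card + X1.card = X.card := Finset.card_filter_add_card_filter_not _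
  have h2 : (X0.image (lo j)).card = X0.card := by
    refine Finset.card_image_of_injOn fun a ha b hb hab => ?_
    rw [Finset.mem_coe, hX0, Finset.mem_filter] at ha hb
    exact ext_lo hab (by rw [ha.2, hb.2])
  have h3 : (X1.image (lo j)).card = X1.card := by
    refine Finset.card_image_of_injOn fun a ha b hb hab => ?_
    rw [Finset.mem_coe, hX1, Finset.mem_filter] at ha hb
    refine ext_lo hab ?_
    rw [Bool.not_eq_false] at ha hb
    rw [ha.2, hb.2]
  have h4 := Finset.card_union_add_card_inter (X0.image (lo j)) (X1.image (lo j))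
  have h5 : X0.image (lo j) ∪ X1.image (lo j) ⊆ X.image (lo j) := by
    refine Finset.union_subset (Finset.image_subset_image (Finset.filter_subset _ _))
      (Finset.image_subset_image (Finset.filter_subset _ _))
  have h6 : X0.image (lo j) ∩ X1.image (lo j) ⊆ dblm j X := by
    intro ξ hξ
    rw [Finset.mem_inter, Finset.mem_image, Finset.mem_image] at hξ
    obtain ⟨⟨a, ha, rfl⟩, ⟨b, hb, hab⟩⟩ := hξ
    rw [hX0, Finset.mem_filter] at ha
    rw [hX1, Finset.mem_filter, Bool.not_eq_false] at hb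
    have hlo : lo j a = a := lo_of_bit ha.2
    rw [hlo] at hab ⊢
    unfold dblm
    rw [Finset.mem_filter]
    refine ⟨ha.1, ha.2, ?_⟩
    have h7 : fl j a = b := by
      refine ext_lo (j := j) ?_ ?_
      · rw [lo_fl, hlo, hab]
      · rw [bit_fl_self hj, ha.2, hb.2]; rfl
    rw [h7]
    exact hb.1
  have h7 := Finset.card_le_card h5
  have h8 := Finset.card_le_card h6
  omega

/-- the relation on the output coins -/
theorem Kappa.rel {j : ℕ} (hj : j < d) (G : Equiv.Perm (Cube d))
    (hG : ∀ ξ, bit j (G ξ) = bit j ξ) (s t : Coin d) (x : Fin k ↪ Cube d) {p : Coin d × Coin d}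
    (hp : p ∈ kapSet j x ((sw j t * G * sw j s) • x)) {η : Cube d}
    (hη : η ∈ (dblm j (mk x)).map G.toEmbedding) :
    xor (p.2 (com j G η)) (t (com j G η)) = xor (p.2 η) (t η) := by
  unfold kapSet at hp
  rw [Finset.mem_filter] at hp
  have hp := hp.2
  have hz : ∀ c, ((sw j t * G * sw j s) • x) c = sw j t (G (sw j s (x c))) := fun c => rfl
  simp only [hz, bit_sw_self hj, lo_sw] at hp
  rw [Finset.mem_map] at hη
  obtain ⟨ξ, hξ, rfl⟩ := hη
  unfold dblm at hξ
  rw [Finset.mem_filter] at hξ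
  obtain ⟨hξX, hξb, hξf⟩ := hξ
  change xor (p.2 (com j G (G ξ))) (t (com j G (G ξ))) = xor (p.2 (G ξ)) (t (G ξ))
  have hmem : ∀ y : Cube d, y = ξ ∨ y = fl j ξ → y ∈ mk x := by
    rintro y (rfl | rfl)
    · exact hξX
    · exact hξf
  have hS : ∀ y : Cube d, sw j s y = y ∨ sw j s y = fl j y := by
    intro y
    rw [sw_apply' hj]
    split_ifs
    · exact Or.inr rfl
    · exact Or.inl rfl
  -- the cards
  obtain ⟨c, hc⟩ : ∃ c, x c = sw j s ξ := by
    have h1 := hmem (sw j s ξ) (hS ξ)
    unfold mk at h1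
    rw [Finset.mem_map] at h1
    obtain ⟨c, _, hc⟩ := h1
    exact ⟨c, hc⟩
  obtain ⟨c', hc'⟩ : ∃ c', x c' = sw j s (fl j ξ) := by
    have h1 := hmem (sw j s (fl j ξ)) (by
      rcases hS (fl j ξ) with h2 | h2
      · exact Or.inr h2
      · rw [fl_fl] at h2
        exact Or.inl h2)
    unfold mk at h1
    rw [Finset.mem_map] at h1
    obtain ⟨c, _, hc⟩ := h1
    exact ⟨c, hc⟩
  have e1 := hp c
  have e2 := hp c'
  rw [hc, sw_sw, lo_sw, bit_sw_self hj, hG, hξb, lo_of_bit hξb,
    lo_of_bit (show bit j (G ξ) = false by rw [hG, hξb])] at e1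
  have hcom : com j G (G ξ) = lo j (G (fl j ξ)) := by
    have h1 : com j G (G ξ) = fl j (G (fl j ξ)) := by
      unfold com
      simp only [Equiv.Perm.mul_apply]
      have h2 : G⁻¹ (G ξ) = ξ := G.symm_apply_apply ξ
      rw [h2]
    rw [h1, ← lo_fl j (G (fl j ξ)), lo_of_bit]
    rw [bit_fl_self hj, hG, bit_fl_self hj, hξb]
    rfl
  rw [hc', sw_sw, lo_sw, bit_sw_self hj, hG, lo_fl, bit_fl_self hj, hξb, lo_of_bit hξb,
    ← hcom] at e2
  revert e1 e2
  cases p.1 ξ <;> cases p.2 (com j G (G ξ)) <;> cases t (com j G (G ξ)) <;> cases p.2 (G ξ) <;>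
    cases t (G ξ) <;> cases s ξ <;> simp

/-- The matching probability: if `z = sw j t (G (sw j s x))` then
`2 ^ k * P (matching) ≤ 2 ^ (number of closed cycles at level j)`. -/
theorem kappa_bound {j : ℕ} (hj : j < d) (G : Equiv.Perm (Cube d))
    (hG : ∀ ξ, bit j (G ξ) = bit j ξ) (s t : Coin d) (x : Fin k ↪ Cube d) :
    (2 : ℝ) ^ k * (((kapSet j x ((sw j t * G * sw j s) • x)).card : ℝ) /
      (Fintype.card (Coin d) : ℝ) ^ 2) ≤ (2 : ℝ) ^ (cc j G (mk x)) := by
  classical
  set z := (sw j t * G * sw j s) • x with hz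
  set Y := (dblm j (mk x)).map G.toEmbedding with hY
  set σ := com j G with hσ
  set A := (mk x).image (lo j) with hA
  set N := Fintype.card (Cube d) with hN
  set E : Finset (Coin d) := Finset.univ.filter fun t' : Coin d =>
    ∀ η ∈ Y, xor (t' (σ η)) (t (σ η)) = xor (t' η) (t η) with hE
  -- output coins
  have hE1 : E.card * 2 ^ Y.card ≤ 2 ^ (N + ncyc σ Y) := by
    refine le_trans ?_ (lemmaC σ Y)
    refine Nat.mul_le_mul_right _ ?_
    refine Finset.card_le_card_of_injOn (fun t' => fun η => xor (t' η) (t η)) ?_ ?_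
    · intro t' ht'
      rw [Finset.mem_coe, hE, Finset.mem_filter] at ht'
      rw [Finset.mem_coe, Finset.mem_filter]
      exact ⟨Finset.mem_univ _, ht'.2⟩
    · intro u _ v _ huv
      funext η
      have := congrFun huv η
      simp only at this
      revert this
      cases u η <;> cases v η <;> cases t η <;> simp
  -- input coins
  have hfib : ∀ t' : Coin d, ((kapSet j x z).filter fun p => p.2 = t').card * 2 ^ A.card ≤
      2 ^ N := by
    intro t'
    set T : Finset (Coin d) := ((kapSet j x z).filter fun p => p.2 = t').image Prod.fst with hT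
    have h1 : ((kapSet j x z).filter fun p => p.2 = t').card = T.card := by
      rw [hT, Finset.card_image_of_injOn]
      intro p hp q hq hpq
      rw [Finset.mem_coe, Finset.mem_filter] at hp hq
      exact Prod.ext hpq (hp.2.trans hq.2.symm)
    rw [h1]
    refine Kappa.card_agree A T fun u hu v hv a ha => ?_
    rw [hT, Finset.mem_image] at hu hv
    obtain ⟨p, hp, rfl⟩ := hu
    obtain ⟨q, hq, rfl⟩ := hv
    rw [Finset.mem_filter] at hp hq
    obtain ⟨hp1, hp2⟩ := hp
    obtain ⟨hq1, hq2⟩ := hq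
    unfold kapSet at hp1 hq1
    rw [Finset.mem_filter] at hp1 hq1
    rw [hA, Finset.mem_image] at ha
    obtain ⟨y, hy, rfl⟩ := ha
    unfold mk at hy
    rw [Finset.mem_map] at hy
    obtain ⟨c, _, rfl⟩ := hy
    have e1 := hp1.2 c
    have e2 := hq1.2 c
    rw [hp2] at e1
    rw [hq2] at e2
    rw [← e2, bit_sw_self hj, bit_sw_self hj] at e1
    revert e1
    cases p.1 (lo j (x c)) <;> cases q.1 (lo j (x c)) <;> cases bit j (x c) <;> simp
  have hsum : (kapSet j x z).card = ∑ t' ∈ E, ((kapSet j x z).filter fun p => p.2 = t').card := by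
    refine Finset.card_eq_sum_card_fiberwise fun p hp => ?_
    rw [Finset.mem_coe] at hp
    rw [Finset.mem_coe, hE, Finset.mem_filter]
    exact ⟨Finset.mem_univ _, fun η hη => Kappa.rel hj G hG s t x hp hη⟩
  have h1 : (kapSet j x z).card * 2 ^ A.card ≤ E.card * 2 ^ N := by
    rw [hsum, Finset.sum_mul]
    refine (Finset.sum_le_sum fun t' _ => hfib t').trans ?_
    rw [Finset.sum_const, smul_eq_mul]
  have hcard : k ≤ A.card + Y.card := by
    have h2 := Kappa.card_pairs hj (mk x)
    have h3 : (mk x).card = k := by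
      unfold mk
      rw [Finset.card_map, Finset.card_univ, Fintype.card_fin]
    rw [h3] at h2
    rw [hY, Finset.card_map]
    exact h2
  have h2 : (kapSet j x z).card * 2 ^ k ≤ 2 ^ (2 * N + ncyc σ Y) := by
    calc (kapSet j x z).card * 2 ^ k ≤ (kapSet j x z).card * 2 ^ (A.card + Y.card) :=
          Nat.mul_le_mul_left _ (Nat.pow_le_pow_right (by norm_num) hcard)
      _ = (kapSet j x z).card * 2 ^ A.card * 2 ^ Y.card := by rw [pow_add, mul_assoc]
      _ ≤ E.card * 2 ^ N * 2 ^ Y.card := Nat.mul_le_mul_right _ h1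
      _ = E.card * 2 ^ Y.card * 2 ^ N := by ring
      _ ≤ 2 ^ (N + ncyc σ Y) * 2 ^ N := Nat.mul_le_mul_right _ hE1
      _ = 2 ^ (2 * N + ncyc σ Y) := by rw [← pow_add]; congr 1; omega
  have h3 : Fintype.card (Coin d) = 2 ^ N := by
    rw [Fintype.card_fun, Fintype.card_bool]
  have h4 : cc j G (mk x) = ncyc σ Y := rfl
  rw [h3, h4, ← mul_div_assoc, div_le_iff₀ (by positivity)]
  have h5 : (((kapSet j x z).card * 2 ^ k : ℕ) : ℝ) ≤ ((2 ^ (2 * N + ncyc σ Y) : ℕ) : ℝ) := by
    exact_mod_cast h2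
  push_cast at h5 ⊢
  calc (2 : ℝ) ^ k * ((kapSet j x z).card : ℝ) = ((kapSet j x z).card : ℝ) * 2 ^ k := mul_comm _ _
    _ ≤ 2 ^ (2 * N + ncyc σ Y) := h5
    _ = 2 ^ ncyc σ Y * (2 ^ N) ^ 2 := by rw [pow_add, mul_comm 2 N, pow_mul, mul_comm]

end

end Vale.Agent.P162F
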