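import Mathlib

/-!
# P162F.Select: selection of a subfamily with small internal weight
-/

namespace Vale.Agent.P162F

/-- the objective function of the selection -/
noncomputable def selObj {κ : Type*} [DecidableEq κ] (s : Finset κ) (W : κ → κ → ℝ) (a : ℝ)
    (v : κ → ℝ) : ℝ :=
  ∑ x ∈ s, a * v x - ∑ x ∈ s, ∑ y ∈ s.erase x, W x y * (v x * v y)

theorem selObj_update {κ : Type*} [DecidableEq κ] (s : Finset κ) (W : κ → κ → ℝ) (a : ℝ)
    (v : κ → ℝ) (c : κ) (t : ℝ) :
    selObj s W a (Function.update v c t) =
      (1 - t) * selObj s W a (Function.update v c 0) +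
        t * selObj s W a (Function.update v c 1) := by
  have h1 : ∑ x ∈ s, a * Function.update v c t x =
      (1 - t) * ∑ x ∈ s, a * Function.update v c 0 x +
        t * ∑ x ∈ s, a * Function.update v c 1 x := by
    rw [Finset.mul_sum, Finset.mul_sum, ← Finset.sum_add_distrib]
    refine Finset.sum_congr rfl fun x _ => ?_
    by_cases hx : x = c
    · subst hx; simp only [Function.update_self]; ring
    · simp only [Function.update_of_ne hx]; ring
  have h2 : ∑ x ∈ s, ∑ y ∈ s.erase x, W x y * (Function.update v c t x * Function.update v c t y) =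
      (1 - t) * ∑ x ∈ s, ∑ y ∈ s.erase x,
          W x y * (Function.update v c 0 x * Function.update v c 0 y) +
        t * ∑ x ∈ s, ∑ y ∈ s.erase x,
          W x y * (Function.update v c 1 x * Function.update v c 1 y) := by
    rw [Finset.mul_sum, Finset.mul_sum, ← Finset.sum_add_distrib]
    refine Finset.sum_congr rfl fun x _ => ?_
    rw [Finset.mul_sum, Finset.mul_sum, ← Finset.sum_add_distrib]
    refine Finset.sum_congr rfl fun y hy => ?_
    have hyx : y ≠ x := Finset.ne_of_mem_erase hy
    by_cases hx : x = c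
    · subst hx
      simp only [Function.update_self, Function.update_of_ne hyx]; ring
    · by_cases hy' : y = c
      · subst hy'
        simp only [Function.update_self, Function.update_of_ne hx]; ring
      · simp only [Function.update_of_ne hx, Function.update_of_ne hy']; ring
  unfold selObj
  rw [h1, h2]
  ring

theorem exists_selRound {κ : Type*} [DecidableEq κ] (s : Finset κ) (W : κ → κ → ℝ) (a : ℝ)
    (v : κ → ℝ) (hv : ∀ c, 0 ≤ v c ∧ v c ≤ 1) (s' : Finset κ) :
    ∃ w : κ → ℝ, (∀ c ∈ s', w c = 0 ∨ w c = 1) ∧ (∀ c ∉ s', w c = v c) ∧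
      selObj s W a v ≤ selObj s W a w := by
  induction s' using Finset.induction_on with
  | empty => exact ⟨v, by simp, by simp, le_rfl⟩
  | insert c s' hc ih =>
    obtain ⟨w, hw1, hw2, hw3⟩ := ih
    have hwc : w c = v c := hw2 c hc
    have h0 : 0 ≤ w c := by rw [hwc]; exact (hv c).1
    have h1 : w c ≤ 1 := by rw [hwc]; exact (hv c).2
    have haff := selObj_update s W a w c (w c)
    rw [Function.update_eq_self] at haff
    have hgen : ∀ b : ℝ, (b = 0 ∨ b = 1) →
        selObj s W a v ≤ selObj s W a (Function.update w c b) →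
        ∃ w : κ → ℝ, (∀ x ∈ insert c s', w x = 0 ∨ w x = 1) ∧
          (∀ x ∉ insert c s', w x = v x) ∧ selObj s W a v ≤ selObj s W a w := by
      intro b hb hle
      refine ⟨Function.update w c b, ?_, ?_, hle⟩
      · intro x hx
        by_cases hxc : x = c
        · subst hxc; rw [Function.update_self]; exact hb
        · rw [Function.update_of_ne hxc]
          exact hw1 x ((Finset.mem_insert.mp hx).resolve_left hxc)
      · intro x hx
        rw [Finset.mem_insert, not_or] at hx
        rw [Function.update_of_ne hx.1]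
        exact hw2 x hx.2
    rcases le_total (selObj s W a (Function.update w c 0))
      (selObj s W a (Function.update w c 1)) with h | h
    · exact hgen 1 (Or.inr rfl) (by nlinarith)
    · exact hgen 0 (Or.inl rfl) (by nlinarith)

/-- random selection with probability `1 / 8`: expectation of `(i / 4) |T| - W (T)` -/
theorem exists_select {κ : Type*} [DecidableEq κ] (s : Finset κ) (W : κ → κ → ℝ) (i : ℝ)
    (hi : 0 < i) (hW0 : ∀ c c', 0 ≤ W c c') (hW : ∀ c ∈ s, ∑ c' ∈ s.erase c, W c c' ≤ i) :
    ∃ T ⊆ s, s.card ≤ 16 * T.card ∧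
      ∑ c ∈ T, ∑ c' ∈ T.erase c, W c c' ≤ i / 4 * T.card := by
  obtain ⟨w, hw1, -, hw3⟩ := exists_selRound s W (i / 4) (fun _ => 1 / 8)
    (fun _ => ⟨by norm_num, by norm_num⟩) s
  have hleft : i * s.card / 64 ≤ selObj s W (i / 4) (fun _ => 1 / 8) := by
    unfold selObj
    have h1 : ∑ x ∈ s, i / 4 * (1 / 8 : ℝ) = i * s.card / 32 := by
      rw [Finset.sum_const, nsmul_eq_mul]; ring
    have h2 : ∑ x ∈ s, ∑ y ∈ s.erase x, W x y * ((1 / 8 : ℝ) * (1 / 8)) ≤ i * s.card / 64 := by
      calc ∑ x ∈ s, ∑ y ∈ s.erase x, W x y * ((1 / 8 : ℝ) * (1 / 8))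
          = ∑ x ∈ s, (1 / 64 : ℝ) * ∑ y ∈ s.erase x, W x y := by
            refine Finset.sum_congr rfl fun x _ => ?_
            rw [Finset.mul_sum]
            refine Finset.sum_congr rfl fun y _ => ?_
            ring
        _ ≤ ∑ x ∈ s, (1 / 64 : ℝ) * i := by
            refine Finset.sum_le_sum fun x hx => ?_
            have := hW x hx
            gcongr
        _ = i * s.card / 64 := by rw [Finset.sum_const, nsmul_eq_mul]; ring
    rw [h1]
    linarith
  set T := s.filter (fun x => w x = 1) with hT
  have hwT : ∀ x ∈ s, w x = if x ∈ T then 1 else 0 := by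
    intro x hx
    by_cases hxT : x ∈ T
    · rw [if_pos hxT]
      rw [hT, Finset.mem_filter] at hxT
      exact hxT.2
    · rw [if_neg hxT]
      rcases hw1 x hx with h | h
      · exact h
      · exact absurd (Finset.mem_filter.mpr ⟨hx, h⟩) hxT
  have hTs : T ⊆ s := Finset.filter_subset _ _
  have hright : selObj s W (i / 4) w =
      i / 4 * T.card - ∑ c ∈ T, ∑ c' ∈ T.erase c, W c c' := by
    unfold selObj
    have h1 : ∑ x ∈ s, i / 4 * w x = i / 4 * T.card := by
      have h3 : ∑ x ∈ s, i / 4 * w x = ∑ x ∈ s, if x ∈ T then i / 4 else 0 := by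
        refine Finset.sum_congr rfl fun x hx => ?_
        rw [hwT x hx]
        split_ifs <;> ring
      rw [h3, ← Finset.sum_filter, Finset.filter_mem_eq_inter, Finset.inter_eq_right.mpr hTs,
        Finset.sum_const, nsmul_eq_mul]
      ring
    have h2 : ∑ x ∈ s, ∑ y ∈ s.erase x, W x y * (w x * w y) =
        ∑ c ∈ T, ∑ c' ∈ T.erase c, W c c' := by
      have h4 : ∀ x ∈ s, ∑ y ∈ s.erase x, W x y * (w x * w y) =
          if x ∈ T then ∑ c' ∈ T.erase x, W x c' else 0 := by
        intro x hx
        by_cases hxT : x ∈ T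
        · rw [if_pos hxT]
          have h5 : T.erase x ⊆ s.erase x := Finset.erase_subset_erase x hTs
          rw [← Finset.sum_subset h5]
          · refine Finset.sum_congr rfl fun y hy => ?_
            have hyT : y ∈ T := Finset.mem_of_mem_erase hy
            rw [hwT x hx, hwT y (hTs hyT), if_pos hxT, if_pos hyT]
            ring
          · intro y hy hy'
            have hys : y ∈ s := Finset.mem_of_mem_erase hy
            have hyT : y ∉ T := fun h => hy' (Finset.mem_erase.mpr ⟨Finset.ne_of_mem_erase hy, h⟩)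
            rw [hwT y hys, if_neg hyT]
            ring
        · rw [if_neg hxT]
          refine Finset.sum_eq_zero fun y _ => ?_
          rw [hwT x hx, if_neg hxT]
          ring
      rw [Finset.sum_congr rfl h4, ← Finset.sum_filter, Finset.filter_mem_eq_inter,
        Finset.inter_eq_right.mpr hTs]
    rw [h1, h2]
  rw [hright] at hw3
  have hWT : 0 ≤ ∑ c ∈ T, ∑ c' ∈ T.erase c, W c c' :=
    Finset.sum_nonneg fun _ _ => Finset.sum_nonneg fun _ _ => hW0 _ _
  have hs0 : 0 ≤ i * (s.card : ℝ) / 64 := by positivity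
  refine ⟨T, hTs, ?_, by linarith⟩
  have h6 : i * (s.card : ℝ) ≤ i * (16 * T.card) := by linarith
  have h7 : (s.card : ℝ) ≤ 16 * T.card := le_of_mul_le_mul_left h6 hi
  exact_mod_cast h7

end Vale.Agent.P162F
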