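import Vale.Agent.Lib.P162F.Encode
import Vale.Agent.Lib.P162F.Select
import Vale.Agent.Lib.P162F.Ncyc
import Vale.Agent.Lib.P162F.Avg

/-!
# P162F.LemmaB: exponential moment of the number of cycles of a random window network
-/

namespace Vale.Agent.P162F

noncomputable section

namespace LB

section
variable {β : Type*} [Fintype β] [DecidableEq β] (σ : Equiv.Perm β)

theorem mem_cyc' {y z : β} : z ∈ cyc σ y ↔ σ.SameCycle y z := by
  simp [cyc]

theorem self_mem (y : β) : y ∈ cyc σ y := (mem_cyc' σ).2 (Equiv.Perm.SameCycle.refl σ y)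

theorem cyc_eq_of_mem {y z : β} (h : z ∈ cyc σ y) : cyc σ z = cyc σ y := by
  rw [mem_cyc'] at h
  ext w
  rw [mem_cyc', mem_cyc']
  exact ⟨fun hw => h.trans hw, fun hw => h.symm.trans hw⟩

theorem cyc_eq_of_mem_image {c : Finset β} (hc : c ∈ Finset.univ.image (cyc σ)) {z : β}
    (hz : z ∈ c) : cyc σ z = c := by
  obtain ⟨y, -, rfl⟩ := Finset.mem_image.1 hc
  exact cyc_eq_of_mem σ hz

theorem disjoint_of_ne {c c' : Finset β} (hc : c ∈ Finset.univ.image (cyc σ))
    (hc' : c' ∈ Finset.univ.image (cyc σ)) (hne : c ≠ c') : Disjoint c c' := by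
  rw [Finset.disjoint_left]
  intro z hz hz'
  exact hne ((cyc_eq_of_mem_image σ hc hz).symm.trans (cyc_eq_of_mem_image σ hc' hz'))

omit [DecidableEq β] in
theorem mem_periodicPts (y : β) : y ∈ Function.periodicPts σ := by
  refine ⟨orderOf σ, orderOf_pos σ, ?_⟩
  have h : (σ ^ orderOf σ) y = y := by rw [pow_orderOf_eq_one]; rfl
  unfold Function.IsPeriodicPt Function.IsFixedPt
  rw [← Equiv.Perm.coe_pow]
  exact h

omit [DecidableEq β] in
theorem per_pos (y : β) : 0 < Function.minimalPeriod σ y :=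
  Function.minimalPeriod_pos_of_mem_periodicPts (mem_periodicPts σ y)

theorem cyc_eq_image (y : β) :
    cyc σ y = (Finset.range (Function.minimalPeriod σ y)).image fun m => (σ ^ m) y := by
  ext z
  rw [mem_cyc', Finset.mem_image]
  constructor
  · intro h
    obtain ⟨n, hn⟩ := h.exists_nat_pow_eq
    refine ⟨n % Function.minimalPeriod σ y, Finset.mem_range.2 (Nat.mod_lt _ (per_pos σ y)), ?_⟩
    rw [Equiv.Perm.coe_pow, Function.iterate_mod_minimalPeriod_eq, ← Equiv.Perm.coe_pow]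
    exact hn
  · rintro ⟨m, -, rfl⟩
    exact ⟨m, by rw [zpow_natCast]⟩

omit [Fintype β] [DecidableEq β] in
theorem pow_inj {y : β} {m m' : ℕ} (hm : m < Function.minimalPeriod σ y)
    (hm' : m' < Function.minimalPeriod σ y) (h : (σ ^ m) y = (σ ^ m') y) : m = m' := by
  rw [Equiv.Perm.coe_pow, Equiv.Perm.coe_pow] at h
  exact (Function.iterate_eq_iterate_iff_of_lt_minimalPeriod hm hm').1 h

theorem card_cyc (y : β) : (cyc σ y).card = Function.minimalPeriod σ y := by
  rw [cyc_eq_image, Finset.card_image_of_injOn, Finset.card_range]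
  intro m hm m' hm' h
  exact pow_inj σ (Finset.mem_range.1 hm) (Finset.mem_range.1 hm') h

theorem pow_card (y : β) : (σ ^ (cyc σ y).card) y = y := by
  rw [card_cyc, Equiv.Perm.coe_pow]
  exact Function.iterate_minimalPeriod

theorem pow_card_sub (y : β) : (σ ^ ((cyc σ y).card - 1)) y = σ⁻¹ y := by
  rw [Equiv.Perm.eq_inv_iff_eq]
  have h := pow_card σ y
  have hpos : 0 < (cyc σ y).card := by rw [card_cyc]; exact per_pos σ y
  obtain ⟨n, hn⟩ : ∃ n, (cyc σ y).card = n + 1 := ⟨(cyc σ y).card - 1, by omega⟩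
  rw [hn, Nat.add_sub_cancel]
  rw [hn, pow_succ'] at h
  exact h

end

end LB

open LB

variable {d : ℕ}

/-- the number of cycles of length `≤ L` contained in `Y` -/
def nshort (L : ℕ) (σ : Equiv.Perm (Cube d)) (Y : Finset (Cube d)) : ℕ :=
  (((Finset.univ.image (cyc σ)).filter (· ⊆ Y)).filter fun c => c.card ≤ L).card

/-- long cycles are few -/
theorem ncyc_le_nshort (L : ℕ) (hL : 0 < L) (σ : Equiv.Perm (Cube d)) (Y : Finset (Cube d)) :
    (ncyc σ Y : ℝ) ≤ nshort L σ Y + (Y.card : ℝ) / L := by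
  set C := (Finset.univ.image (cyc σ)).filter (· ⊆ Y) with hC
  have h1 : ncyc σ Y = nshort L σ Y + (C.filter fun c => ¬ c.card ≤ L).card := by
    unfold ncyc nshort
    rw [← hC]
    exact (Finset.card_filter_add_card_filter_not (fun c : Finset (Cube d) => c.card ≤ L)).symm
  set D := C.filter fun c => ¬ c.card ≤ L with hD
  have hdis : (D : Set (Finset (Cube d))).PairwiseDisjoint id := by
    intro c hc c' hc' hne
    have h2 : c ∈ C := (Finset.mem_filter.1 hc).1
    have h3 : c' ∈ C := (Finset.mem_filter.1 hc').1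
    exact disjoint_of_ne σ (Finset.mem_filter.1 h2).1 (Finset.mem_filter.1 h3).1 hne
  have h4 : L * D.card ≤ Y.card := by
    calc L * D.card = ∑ c ∈ D, L := by rw [Finset.sum_const, smul_eq_mul, mul_comm]
      _ ≤ ∑ c ∈ D, c.card := by
          refine Finset.sum_le_sum fun c hc => ?_
          have := (Finset.mem_filter.1 hc).2
          omega
      _ = (D.biUnion id).card := (Finset.card_biUnion hdis).symm
      _ ≤ Y.card := by
          refine Finset.card_le_card ?_
          rw [Finset.biUnion_subset]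
          intro c hc
          exact (Finset.mem_filter.1 (Finset.mem_filter.1 hc).1).2
  have hL' : (0 : ℝ) < L := by exact_mod_cast hL
  have h5 : (D.card : ℝ) ≤ (Y.card : ℝ) / L := by
    rw [le_div_iff₀ hL']
    have h6 : ((L * D.card : ℕ) : ℝ) ≤ (Y.card : ℝ) := by exact_mod_cast h4
    push_cast at h6
    linarith
  rw [h1]
  push_cast
  linarith

open Classical in
/-- choice of starting points with few shared switches and selection of a subfamily -/
theorem nshort_pointwise (q j : ℕ) (hq : 1 ≤ q) (hj : j + 32 * q ≤ d)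
    (u : Equiv.Perm (Cube d)) (Y : Finset (Cube d)) (O : Fin (32 * q) → Coin d) :
    (2 : ℝ) ^ (q * nshort (2 ^ q) (win (32 * q) j (ext (32 * q) j O) * u) Y) ≤
      ∑ Θ ∈ Y.powerset, ∑ ℓ : Θ → Fin (2 ^ q),
        if Ev (32 * q) j u Θ (fun θ => if h : θ ∈ Θ then (ℓ ⟨θ, h⟩).1 + 1 else 0)
          (10 * q * Θ.card) O then (2 : ℝ) ^ (16 * q * Θ.card) else 0 := by
  set O' := ext (32 * q) j O with hO'
  set σ := win (32 * q) j O' * u with hσ
  set C : Finset (Finset (Cube d)) :=
    ((Finset.univ.image (cyc σ)).filter (· ⊆ Y)).filter fun c => c.card ≤ 2 ^ q with hC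
  have hCi : ∀ c ∈ C, c ∈ Finset.univ.image (cyc σ) := fun c hc =>
    (Finset.mem_filter.1 (Finset.mem_filter.1 hc).1).1
  have hCY : ∀ c ∈ C, c ⊆ Y := fun c hc => (Finset.mem_filter.1 (Finset.mem_filter.1 hc).1).2
  have hCq : ∀ c ∈ C, c.card ≤ 2 ^ q := fun c hc => (Finset.mem_filter.1 hc).2
  -- the strands of a cycle
  set A : Finset (Cube d) → Finset (Cube d) := fun c => c.map u.toEmbedding with hA
  have hAdis : ∀ c ∈ C, ∀ c' ∈ C, c ≠ c' → Disjoint (A c) (A c') := fun c hc c' hc' hne =>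
    (Finset.disjoint_map _).2 (disjoint_of_ne σ (hCi c hc) (hCi c' hc') hne)
  -- the choice of the starting points
  have hex : ∀ c : Finset (Cube d), ∃ θ : Cube d, c ∈ C →
      θ ∈ c ∧ ov (32 * q) j O' (u (σ⁻¹ θ)) (A c) ≤ 2 * q := by
    intro c
    by_cases hc : c ∈ C
    · have hne : c.Nonempty := by
        obtain ⟨y, -, hy⟩ := Finset.mem_image.1 (hCi c hc)
        exact ⟨y, hy ▸ self_mem σ y⟩
      have hcard : (A c).card = c.card := Finset.card_map _
      have h1 := sum_ov_le q (32 * q) j hj O' (A c) (by rw [hcard]; exact hCq c hc)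
      have hAne : (A c).Nonempty := hne.map
      obtain ⟨w, hw, hle⟩ : ∃ w ∈ A c, ov (32 * q) j O' w (A c) ≤ 2 * q := by
        by_contra hcon
        push Not at hcon
        have h2 : ∑ w ∈ A c, 2 * q < ∑ w ∈ A c, ov (32 * q) j O' w (A c) :=
          Finset.sum_lt_sum_of_nonempty hAne fun w hw => hcon w hw
        rw [Finset.sum_const, smul_eq_mul] at h2
        have h3 : (A c).card * (2 * q) = 2 * q * (A c).card := by ring
        omega
      obtain ⟨y, hy, hyw⟩ := Finset.mem_map.1 hw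
      refine ⟨σ y, fun _ => ⟨?_, ?_⟩⟩
      · have h4 := cyc_eq_of_mem_image σ (hCi c hc) hy
        rw [← h4, mem_cyc']
        exact ⟨1, by simp⟩
      · have h6 : σ⁻¹ (σ y) = y := σ.symm_apply_apply y
        rw [h6]
        have h5 : u y = w := hyw
        rw [h5]
        exact hle
    · exact ⟨fun _ => false, fun h => absurd h hc⟩
  choose th hth using hex
  -- selection
  set W : Finset (Cube d) → Finset (Cube d) → ℝ := fun c c' =>
    (ov (32 * q) j O' (u (σ⁻¹ (th c))) (A c') : ℝ) with hW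
  have hWsum : ∀ c ∈ C, ∑ c' ∈ C.erase c, W c c' ≤ ((32 * q : ℕ) : ℝ) := by
    intro c _
    have h1 := ov_biUnion (C.erase c) A
      (fun a ha b hb hab => hAdis a (Finset.mem_of_mem_erase ha) b
        (Finset.mem_of_mem_erase hb) hab) (32 * q) j O' (u (σ⁻¹ (th c)))
    have h2 := ov_le (32 * q) j O' (u (σ⁻¹ (th c))) ((C.erase c).biUnion A)
    rw [h1] at h2
    show ∑ c' ∈ C.erase c, (ov (32 * q) j O' (u (σ⁻¹ (th c))) (A c') : ℝ) ≤ ((32 * q : ℕ) : ℝ)
    exact_mod_cast h2
  obtain ⟨T, hTC, hT1, hT2⟩ := exists_select C W ((32 * q : ℕ) : ℝ)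
    (by exact_mod_cast (by omega : 0 < 32 * q)) (fun c c' => Nat.cast_nonneg _) hWsum
  -- the set of the starting points
  set Θ : Finset (Cube d) := T.image th with hΘ
  have hcyc : ∀ c ∈ T, cyc σ (th c) = c := fun c hc =>
    cyc_eq_of_mem_image σ (hCi c (hTC hc)) (hth c (hTC hc)).1
  have hinj : Set.InjOn th (T : Set (Finset (Cube d))) := by
    intro c hc c' hc' h
    rw [← hcyc c hc, ← hcyc c' hc', h]
  have hΘcard : Θ.card = T.card := Finset.card_image_of_injOn hinj
  have hΘY : Θ ⊆ Y := by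
    intro θ hθ
    obtain ⟨c, hc, rfl⟩ := Finset.mem_image.1 hθ
    exact hCY c (hTC hc) (hth c (hTC hc)).1
  have hlen : ∀ θ ∈ Θ, 0 < (cyc σ θ).card ∧ (cyc σ θ).card ≤ 2 ^ q := by
    intro θ hθ
    obtain ⟨c, hc, rfl⟩ := Finset.mem_image.1 hθ
    refine ⟨by rw [card_cyc]; exact per_pos σ _, ?_⟩
    rw [hcyc c hc]
    exact hCq c (hTC hc)
  let ℓ : Θ → Fin (2 ^ q) := fun θ => ⟨(cyc σ θ.1).card - 1, by
    have := hlen θ.1 θ.2
    omega⟩
  set lf : Cube d → ℕ := fun θ => if h : θ ∈ Θ then (ℓ ⟨θ, h⟩).1 + 1 else 0 with hlf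
  have hlf' : ∀ θ ∈ Θ, lf θ = (cyc σ θ).card := by
    intro θ hθ
    rw [hlf]
    simp only [dif_pos hθ, ℓ]
    have := hlen θ hθ
    omega
  -- the strands
  have hstr : strands σ u Θ lf = T.biUnion A := by
    unfold strands
    rw [hΘ, Finset.image_biUnion]
    refine Finset.biUnion_congr rfl fun c hc => ?_
    rw [hlf' _ (Finset.mem_image_of_mem th hc), card_cyc]
    have h1 := cyc_eq_image σ (th c)
    rw [hcyc c hc] at h1
    have h2 : A c = c.image u := by
      rw [hA]
      simp only [Finset.map_eq_image]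
      rfl
    rw [h2]
    conv_rhs => rw [h1]
    rw [Finset.image_image]
    rfl
  have hEv : Ev (32 * q) j u Θ lf (10 * q * Θ.card) O := by
    refine ⟨?_, ?_, ?_, ?_⟩
    · intro θ hθ
      rw [hlf' θ hθ]
      exact (hlen θ hθ).1
    · intro θ hθ
      rw [hlf' θ hθ]
      exact pow_card σ θ
    · intro θ hθ θ' hθ' m hm m' hm' h
      rw [hlf' θ hθ] at hm
      rw [hlf' θ' hθ'] at hm'
      have h' : (σ ^ m) θ = (σ ^ m') θ' := h
      have h1 : (σ ^ m) θ ∈ cyc σ θ := by
        rw [mem_cyc']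
        exact ⟨m, by rw [zpow_natCast]⟩
      have h2 : (σ ^ m) θ ∈ cyc σ θ' := by
        rw [h', mem_cyc']
        exact ⟨m', by rw [zpow_natCast]⟩
      have h3 : cyc σ θ = cyc σ θ' :=
        (P162F.cyc_eq_of_mem h1).symm.trans (P162F.cyc_eq_of_mem h2)
      obtain ⟨c, hc, rfl⟩ := Finset.mem_image.1 hθ
      obtain ⟨c', hc', rfl⟩ := Finset.mem_image.1 hθ'
      rw [hcyc c hc, hcyc c' hc'] at h3
      subst h3
      rw [card_cyc] at hm hm'
      exact ⟨rfl, pow_inj σ hm hm' h'⟩
    · have e1 : ∑ θ ∈ Θ, ov (32 * q) j O' (u ((σ ^ (lf θ - 1)) θ)) (strands σ u Θ lf) =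
          ∑ c ∈ T, ov (32 * q) j O' (u (σ⁻¹ (th c))) (T.biUnion A) := by
        rw [hstr, hΘ, Finset.sum_image hinj]
        refine Finset.sum_congr rfl fun c hc => ?_
        rw [hlf' _ (Finset.mem_image_of_mem th hc), pow_card_sub]
      have e2 : ∑ c ∈ T, ov (32 * q) j O' (u (σ⁻¹ (th c))) (T.biUnion A) ≤
          10 * q * Θ.card := by
        have h1 : ∀ c ∈ T, ov (32 * q) j O' (u (σ⁻¹ (th c))) (T.biUnion A) ≤
            2 * q + ∑ c' ∈ T.erase c, ov (32 * q) j O' (u (σ⁻¹ (th c))) (A c') := by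
          intro c hc
          rw [ov_biUnion T A (fun a ha b hb hab => hAdis a (hTC ha) b (hTC hb) hab)]
          rw [← Finset.add_sum_erase T _ hc]
          exact Nat.add_le_add_right (hth c (hTC hc)).2 _
        have h2 := Finset.sum_le_sum h1
        rw [Finset.sum_add_distrib, Finset.sum_const, smul_eq_mul] at h2
        have h3 : ((∑ c ∈ T, ∑ c' ∈ T.erase c,
            ov (32 * q) j O' (u (σ⁻¹ (th c))) (A c') : ℕ) : ℝ) ≤ ((8 * q * T.card : ℕ) : ℝ) := by
          push_cast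
          rw [hW] at hT2
          refine hT2.trans (le_of_eq ?_)
          push_cast
          ring
        have h4 : ∑ c ∈ T, ∑ c' ∈ T.erase c,
            ov (32 * q) j O' (u (σ⁻¹ (th c))) (A c') ≤ 8 * q * T.card := by
          exact_mod_cast h3
        rw [hΘcard]
        calc _ ≤ _ := h2
          _ ≤ T.card * (2 * q) + 8 * q * T.card := Nat.add_le_add_left h4 _
          _ = 10 * q * T.card := by ring
      exact e1.le.trans e2
  -- conclusion
  have hmain : (2 : ℝ) ^ (q * nshort (2 ^ q) σ Y) ≤ 2 ^ (16 * q * Θ.card) := by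
    refine pow_le_pow_right₀ (by norm_num) ?_
    have h1 : nshort (2 ^ q) σ Y = C.card := rfl
    rw [h1, hΘcard]
    calc q * C.card ≤ q * (16 * T.card) := Nat.mul_le_mul_left _ hT1
      _ = 16 * q * T.card := by ring
  refine hmain.trans ?_
  have hterm : ∀ Θ' ∈ Y.powerset, 0 ≤ ∑ ℓ : Θ' → Fin (2 ^ q),
        if Ev (32 * q) j u Θ' (fun θ => if h : θ ∈ Θ' then (ℓ ⟨θ, h⟩).1 + 1 else 0)
          (10 * q * Θ'.card) O then (2 : ℝ) ^ (16 * q * Θ'.card) else 0 := by
    intro Θ' _
    refine Finset.sum_nonneg fun ℓ _ => ?_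
    split
    · positivity
    · exact le_rfl
  refine le_trans ?_ (Finset.single_le_sum hterm (Finset.mem_powerset.2 hΘY))
  refine le_trans ?_ (Finset.single_le_sum (f := fun ℓ : Θ → Fin (2 ^ q) =>
    if Ev (32 * q) j u Θ (fun θ => if h : θ ∈ Θ then (ℓ ⟨θ, h⟩).1 + 1 else 0)
      (10 * q * Θ.card) O then (2 : ℝ) ^ (16 * q * Θ.card) else 0) ?_ (Finset.mem_univ ℓ))
  · rw [if_pos hEv]
  · intro ℓ _
    split
    · positivity
    · exact le_rfl

/-- the iterated average over a window as a finite average -/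
theorem avL_window (i j : ℕ) (f : (ℕ → Coin d) → ℝ)
    (hf : ∀ O O' : ℕ → Coin d, (∀ l, j ≤ l → l < j + i → O l = O' l) → f O = f O')
    (O : ℕ → Coin d) :
    avL (List.range' j i) f O =
      (∑ O' : Fin i → Coin d, f (ext i j O')) / (Fintype.card (Fin i → Coin d) : ℝ) := by
  induction i generalizing j f O with
  | zero =>
    rw [List.range'_zero, avL_nil]
    have h1 : ∀ O' : Fin 0 → Coin d, f (ext 0 j O') = f O := fun O' =>
      hf _ _ fun l h1 h2 => by omega
    rw [Finset.sum_congr rfl fun O' _ => h1 O']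
    simp
  | succ i ih =>
    rw [List.range'_succ, avL_cons]
    unfold av
    have key : ∀ a : Coin d, avL (List.range' (j + 1) i) f (Function.update O j a) =
        (∑ O' : Fin i → Coin d, f (ext (i + 1) j (Fin.cons a O'))) /
          (Fintype.card (Fin i → Coin d) : ℝ) := by
      intro a
      have h1 : avL (List.range' (j + 1) i) f (Function.update O j a) =
          avL (List.range' (j + 1) i) (fun O => f (Function.update O j a))
            (Function.update O j a) := by
        refine avL_congr_of_agree _ fun ω' hω' => ?_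
        have h2 : ω' j = a := by
          rw [hω' j (by rw [List.mem_range'_1]; omega)]
          exact Function.update_self _ _ _
        rw [← h2, Function.update_eq_self]
      rw [h1, ih (j + 1) (fun O => f (Function.update O j a)) ?_]
      · congr 1
        refine Finset.sum_congr rfl fun O' _ => ?_
        refine hf _ _ fun l hl1 hl2 => ?_
        rcases eq_or_lt_of_le hl1 with rfl | hlt
        · rw [Function.update_self, ext, dif_pos ⟨le_rfl, hl2⟩]
          have e : (⟨j - j, by omega⟩ : Fin (i + 1)) = 0 := by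
            apply Fin.ext
            simp
          rw [e, Fin.cons_zero]
        · rw [Function.update_of_ne (by omega), ext, ext, dif_pos ⟨hlt, by omega⟩,
            dif_pos ⟨hl1, hl2⟩]
          have e : (⟨l - j, by omega⟩ : Fin (i + 1)) =
              Fin.succ ⟨l - (j + 1), by omega⟩ := by
            apply Fin.ext
            simp only [Fin.succ_mk]
            omega
          rw [e, Fin.cons_succ]
      · intro O1 O2 h12
        refine hf _ _ fun l hl1 hl2 => ?_
        rcases eq_or_lt_of_le hl1 with rfl | hlt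
        · rw [Function.update_self, Function.update_self]
        · rw [Function.update_of_ne (by omega), Function.update_of_ne (by omega)]
          exact h12 l hlt (by omega)
    rw [Finset.sum_congr rfl fun a _ => key a, ← Finset.sum_div, div_div]
    have hsum : ∑ O' : Fin (i + 1) → Coin d, f (ext (i + 1) j O') =
        ∑ a : Coin d, ∑ O' : Fin i → Coin d, f (ext (i + 1) j (Fin.cons a O')) := by
      rw [← (Fin.consEquiv (fun _ : Fin (i + 1) => Coin d)).sum_comp, Fintype.sum_prod_type]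
      rfl
    rw [hsum]
    congr 1
    have hcard : ∀ n : ℕ, Fintype.card (Fin n → Coin d) = Fintype.card (Coin d) ^ n := fun n => by
      rw [Fintype.card_fun, Fintype.card_fin]
    rw [hcard, hcard, pow_succ, Nat.cast_mul]

theorem LB.two_pow_eq (n : ℕ) : (2 : ℝ) ^ n = Real.exp (n * Real.log 2) := by
  rw [Real.exp_nat_mul, Real.exp_log (by norm_num)]

theorem LB.long_bound (q : ℕ) (σ : Equiv.Perm (Cube d)) (Y : Finset (Cube d)) :
    (2 : ℝ) ^ (q * ncyc σ Y) ≤
      (2 : ℝ) ^ (q * nshort (2 ^ q) σ Y) * Real.exp (q * Y.card / 2 ^ q) := by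
  have h1 := ncyc_le_nshort (2 ^ q) (by positivity) σ Y
  push_cast at h1
  have hlog0 : 0 ≤ Real.log 2 := Real.log_nonneg (by norm_num)
  have hlog1 : Real.log 2 ≤ 1 := by
    have := Real.log_two_lt_d9
    linarith
  rw [LB.two_pow_eq, LB.two_pow_eq, ← Real.exp_add]
  refine Real.exp_le_exp.2 ?_
  push_cast
  have hq : (0 : ℝ) ≤ q := Nat.cast_nonneg q
  have h2 : (q : ℝ) * ncyc σ Y ≤ q * nshort (2 ^ q) σ Y + q * Y.card / 2 ^ q := by
    calc (q : ℝ) * ncyc σ Y ≤ q * (nshort (2 ^ q) σ Y + (Y.card : ℝ) / 2 ^ q) :=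
          mul_le_mul_of_nonneg_left h1 hq
      _ = _ := by ring
  have h3 : (0 : ℝ) ≤ q * Y.card / 2 ^ q := by positivity
  calc (q : ℝ) * ncyc σ Y * Real.log 2
      ≤ (q * nshort (2 ^ q) σ Y + q * Y.card / 2 ^ q) * Real.log 2 :=
        mul_le_mul_of_nonneg_right h2 hlog0
    _ = q * nshort (2 ^ q) σ Y * Real.log 2 + q * Y.card / 2 ^ q * Real.log 2 := by ring
    _ ≤ q * nshort (2 ^ q) σ Y * Real.log 2 + q * Y.card / 2 ^ q * 1 :=
        add_le_add le_rfl (mul_le_mul_of_nonneg_left hlog1 h3)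
    _ = _ := by ring

/-- Lemma B -/
theorem lemmaB (q j : ℕ) (hq : 1 ≤ q) (hj : j + 32 * q ≤ d) (u : Equiv.Perm (Cube d))
    (Y : Finset (Cube d)) (O : ℕ → Coin d) :
    avL (List.range' j (32 * q))
      (fun O => (2 : ℝ) ^ (q * ncyc (win (32 * q) j O * u) Y)) O ≤
      Real.exp (2 * q * Y.card / 2 ^ q) := by
  classical
  rw [avL_window (32 * q) j _ (fun O O' h => by rw [win_congr _ _ _ _ h]) O]
  set N : ℝ := (Fintype.card (Fin (32 * q) → Coin d) : ℝ) with hNdef
  have hN : 0 < N := by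
    rw [hNdef]
    exact_mod_cast Fintype.card_pos
  set E : ℝ := Real.exp (q * Y.card / 2 ^ q) with hE
  have hE0 : 0 < E := Real.exp_pos _
  rw [div_le_iff₀ hN]
  -- pointwise bound
  have h1 : ∑ O' : Fin (32 * q) → Coin d,
      (2 : ℝ) ^ (q * ncyc (win (32 * q) j (ext (32 * q) j O') * u) Y) ≤
      E * ∑ O' : Fin (32 * q) → Coin d, ∑ Θ ∈ Y.powerset, ∑ ℓ : Θ → Fin (2 ^ q),
        if Ev (32 * q) j u Θ (fun θ => if h : θ ∈ Θ then (ℓ ⟨θ, h⟩).1 + 1 else 0)
          (10 * q * Θ.card) O' then (2 : ℝ) ^ (16 * q * Θ.card) else 0 := by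
    rw [Finset.mul_sum]
    refine Finset.sum_le_sum fun O' _ => ?_
    refine (LB.long_bound q _ Y).trans ?_
    rw [mul_comm E]
    refine mul_le_mul_of_nonneg_right ?_ hE0.le
    convert nshort_pointwise q j hq hj u Y O' using 1
  -- exchange of the sums and the encoding bound
  have h2 : ∑ O' : Fin (32 * q) → Coin d, ∑ Θ ∈ Y.powerset, ∑ ℓ : Θ → Fin (2 ^ q),
        (if Ev (32 * q) j u Θ (fun θ => if h : θ ∈ Θ then (ℓ ⟨θ, h⟩).1 + 1 else 0)
          (10 * q * Θ.card) O' then (2 : ℝ) ^ (16 * q * Θ.card) else 0) ≤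
      N * ∑ Θ ∈ Y.powerset, (1 / (2 : ℝ) ^ (5 * q)) ^ Θ.card := by
    rw [Finset.sum_comm, Finset.mul_sum]
    refine Finset.sum_le_sum fun Θ _ => ?_
    rw [Finset.sum_comm]
    have h3 : ∀ ℓ : Θ → Fin (2 ^ q), ∑ O' : Fin (32 * q) → Coin d,
        (if Ev (32 * q) j u Θ (fun θ => if h : θ ∈ Θ then (ℓ ⟨θ, h⟩).1 + 1 else 0)
          (10 * q * Θ.card) O' then (2 : ℝ) ^ (16 * q * Θ.card) else 0) ≤
        N * (2 : ℝ) ^ (10 * q * Θ.card) / 2 ^ (32 * q * Θ.card) * 2 ^ (16 * q * Θ.card) := by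
      intro ℓ
      rw [← Finset.sum_filter, Finset.sum_const, nsmul_eq_mul]
      refine mul_le_mul_of_nonneg_right ?_ (by positivity)
      convert card_Ev_le (32 * q) j hj u Θ
        (fun θ => if h : θ ∈ Θ then (ℓ ⟨θ, h⟩).1 + 1 else 0) (10 * q * Θ.card) using 3
    refine (Finset.sum_le_sum fun ℓ _ => h3 ℓ).trans (le_of_eq ?_)
    rw [Finset.sum_const, Finset.card_univ, Fintype.card_fun, Fintype.card_fin,
      Fintype.card_coe, nsmul_eq_mul]
    push_cast
    rw [one_div, inv_pow, ← pow_mul, ← pow_mul]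
    have e1 : (2 : ℝ) ^ (32 * q * Θ.card) = 2 ^ (q * Θ.card) * 2 ^ (10 * q * Θ.card) *
        2 ^ (16 * q * Θ.card) * 2 ^ (5 * q * Θ.card) := by
      rw [← pow_add, ← pow_add, ← pow_add]
      congr 1
      ring
    rw [e1]
    field_simp
  have h4 : ∑ Θ ∈ Y.powerset, (1 / (2 : ℝ) ^ (5 * q)) ^ Θ.card ≤ E := by
    have e2 : ∑ Θ ∈ Y.powerset, (1 / (2 : ℝ) ^ (5 * q)) ^ Θ.card =
        (1 / (2 : ℝ) ^ (5 * q) + 1) ^ Y.card := by
      rw [← Finset.sum_pow_mul_eq_add_pow]
      simp
    rw [e2]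
    have h5 : 1 / (2 : ℝ) ^ (5 * q) + 1 ≤ Real.exp (1 / (2 : ℝ) ^ (5 * q)) :=
      Real.add_one_le_exp _
    calc (1 / (2 : ℝ) ^ (5 * q) + 1) ^ Y.card ≤ Real.exp (1 / (2 : ℝ) ^ (5 * q)) ^ Y.card :=
          pow_le_pow_left₀ (by positivity) h5 _
      _ = Real.exp (Y.card * (1 / (2 : ℝ) ^ (5 * q))) := (Real.exp_nat_mul _ _).symm
      _ ≤ E := by
          rw [hE]
          refine Real.exp_le_exp.2 ?_
          have h6 : (2 : ℝ) ^ q ≤ 2 ^ (5 * q) := pow_le_pow_right₀ (by norm_num) (by omega)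
          have h7 : 1 / (2 : ℝ) ^ (5 * q) ≤ 1 / 2 ^ q :=
            one_div_le_one_div_of_le (by positivity) h6
          have hq' : (1 : ℝ) ≤ q := by exact_mod_cast hq
          have hY : (0 : ℝ) ≤ Y.card := Nat.cast_nonneg _
          calc (Y.card : ℝ) * (1 / 2 ^ (5 * q)) ≤ Y.card * (1 / 2 ^ q) :=
                mul_le_mul_of_nonneg_left h7 hY
            _ = 1 * (Y.card / 2 ^ q) := by ring
            _ ≤ q * (Y.card / 2 ^ q) := mul_le_mul_of_nonneg_right hq' (by positivity)
            _ = _ := by ring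
  calc _ ≤ _ := h1
    _ ≤ E * (N * E) := mul_le_mul_of_nonneg_left
        (h2.trans (mul_le_mul_of_nonneg_left h4 hN.le)) hE0.le
    _ = E * E * N := by ring
    _ = Real.exp (2 * q * Y.card / 2 ^ q) * N := by
        rw [hE, ← Real.exp_add]
        congr 2
        ring

end

end Vale.Agent.P162F
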