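import Vale.Agent.Lib.P162F.Gram

/-!
# P162F.LevelNorm: the norm of a network on the exact level `s`
-/

namespace Vale.Agent.P162F

open Vale.Agent.P162
open scoped RealInnerProductSpace

noncomputable section

variable {X : Type} [Fintype X] [DecidableEq X]

/-! ### The adjoint element of the group algebra -/

/-- the adjoint element -/
def madj (m : MonoidAlgebra ℝ (Equiv.Perm X)) : MonoidAlgebra ℝ (Equiv.Perm X) :=
  ∑ g : Equiv.Perm X, MonoidAlgebra.single g⁻¹ (m.coeff g)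

theorem ln_act_eq (m : MonoidAlgebra ℝ (Equiv.Perm X)) (v : EuclideanSpace ℝ (Equiv.Perm X)) :
    act (reg X) m v = ∑ g : Equiv.Perm X, m.coeff g • reg X g v := by
  rw [act, MonoidAlgebra.lift_apply, Finsupp.sum_fintype, _root_.sum_apply]
  · rfl
  · intro g
    exact zero_smul ℝ _

theorem ln_act_madj (m : MonoidAlgebra ℝ (Equiv.Perm X)) (v : EuclideanSpace ℝ (Equiv.Perm X)) :
    act (reg X) (madj m) v = ∑ g : Equiv.Perm X, m.coeff g • reg X g⁻¹ v := by
  rw [madj, map_sum, _root_.sum_apply]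
  refine Finset.sum_congr rfl fun g _ => ?_
  rw [act, MonoidAlgebra.lift_single]
  rfl

theorem ln_inner_act (m : MonoidAlgebra ℝ (Equiv.Perm X))
    (v w : EuclideanSpace ℝ (Equiv.Perm X)) :
    ⟪act (reg X) m v, w⟫ = ⟪v, act (reg X) (madj m) w⟫ := by
  rw [ln_act_eq, ln_act_madj, sum_inner, inner_sum]
  refine Finset.sum_congr rfl fun g _ => ?_
  rw [real_inner_smul_left, real_inner_smul_right, orth_adj (reg_orth X)]

theorem ln_pmat_eq (k : ℕ) (m : MonoidAlgebra ℝ (Equiv.Perm X)) :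
    pmat k m = ∑ g : Equiv.Perm X, m.coeff g • permMat k g := by
  rw [pmat, MonoidAlgebra.lift_apply, Finsupp.sum_fintype]
  intro g
  exact zero_smul ℝ _

theorem ln_permMat_inv (k : ℕ) (g : Equiv.Perm X) :
    permMat k g⁻¹ = (permMat (X := X) k g).transpose := by
  ext x z
  simp only [permMat, MonoidHom.coe_mk, OneHom.coe_mk, Matrix.of_apply, Matrix.transpose_apply]
  congr 1
  rw [eq_iff_iff, inv_smul_eq_iff, eq_comm]

theorem ln_pmat_madj (k : ℕ) (m : MonoidAlgebra ℝ (Equiv.Perm X)) :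
    pmat k (madj m) = (pmat k m).transpose := by
  rw [ln_pmat_eq k m, madj, map_sum, Matrix.transpose_sum]
  refine Finset.sum_congr rfl fun g _ => ?_
  rw [pmat, MonoidAlgebra.lift_single, ln_permMat_inv, Matrix.transpose_smul]

theorem ln_act_mul (m m' : MonoidAlgebra ℝ (Equiv.Perm X))
    (v : EuclideanSpace ℝ (Equiv.Perm X)) :
    act (reg X) (m * m') v = act (reg X) m (act (reg X) m' v) := by
  rw [map_mul]
  rfl

theorem ln_pmat_madj_mul (k : ℕ) (m : MonoidAlgebra ℝ (Equiv.Perm X)) :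
    pmat k (madj m * m) = (pmat k m).transpose * pmat k m := by
  rw [map_mul, ln_pmat_madj]

/-! ### The push-forward to the positions of the cards `y` -/

/-- `push y v x = ∑_{h • y = x} v h` -/
def push {s : ℕ} (y : Fin s ↪ X) (v : EuclideanSpace ℝ (Equiv.Perm X)) (x : Fin s ↪ X) : ℝ :=
  ⟪cardFn y (fun z => if z = x then (1 : ℝ) else 0), v⟫

theorem ln_inner_cardFn {s : ℕ} (y : Fin s ↪ X) (φ : (Fin s ↪ X) → ℝ)
    (v : EuclideanSpace ℝ (Equiv.Perm X)) : ⟪cardFn y φ, v⟫ = ∑ x, φ x * push y v x := by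
  have h : cardFn y φ = ∑ x : Fin s ↪ X, φ x • cardFn y (fun z => if z = x then (1 : ℝ) else 0) := by
    ext h
    rw [sum_smul_apply']
    simp [cardFn]
  rw [h, sum_inner]
  refine Finset.sum_congr rfl fun x _ => ?_
  rw [real_inner_smul_left]
  rfl

theorem push_act {s : ℕ} (m : MonoidAlgebra ℝ (Equiv.Perm X)) (y : Fin s ↪ X)
    (v : EuclideanSpace ℝ (Equiv.Perm X)) :
    push y (act (reg X) m v) = (pmat s m).mulVec (push y v) := by
  ext x
  rw [push, real_inner_comm, ln_inner_act, real_inner_comm, act_cardFn, ln_inner_cardFn,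
    ln_pmat_madj]
  simp only [Matrix.mulVec, dotProduct, Matrix.transpose_apply]
  refine Finset.sum_congr rfl fun z _ => ?_
  congr 1
  simp

theorem push_smul {s : ℕ} (y : Fin s ↪ X) (c : ℝ) (v : EuclideanSpace ℝ (Equiv.Perm X)) :
    push y (c • v) = c • push y v := by
  ext x
  simp only [push, real_inner_smul_right, Pi.smul_apply, smul_eq_mul]

/-- the push-forward of a function orthogonal to the lower level is harmonic -/
theorem push_harm {s : ℕ} (y : Fin (s + 1) ↪ X) {v : EuclideanSpace ℝ (Equiv.Perm X)}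
    (hv : v ∈ (lvl X s)ᗮ) : Harm (push y v) := by
  classical
  intro c x
  have h1 := ln_inner_cardFn y (fun z => if ∀ c', c' ≠ c → z c' = x c' then (1 : ℝ) else 0) v
  have h2 : ⟪cardFn y (fun z => if ∀ c', c' ≠ c → z c' = x c' then (1 : ℝ) else 0), v⟫ = 0 := by
    have h3 : cardFn y (fun z => if ∀ c', c' ≠ c → z c' = x c' then (1 : ℝ) else 0) =
        cardFn ((Fin.succAboveEmb c).trans y)
          (fun z => if ∀ i, z i = x (c.succAbove i) then (1 : ℝ) else 0) := by
      ext h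
      simp only [cardFn]
      congr 1
      rw [eq_iff_iff]
      constructor
      · intro H i
        exact H (c.succAbove i) (Fin.succAbove_ne c i)
      · intro H c' hc'
        obtain ⟨i, rfl⟩ := Fin.exists_succAbove_eq hc'
        exact H i
    rw [h3]
    exact (Submodule.mem_orthogonal _ _).1 hv _ (Submodule.subset_span ⟨(_, _), rfl⟩)
  rw [h2] at h1
  refine Eq.trans (Finset.sum_congr rfl fun z _ => ?_) h1.symm
  split_ifs
  · rw [one_mul]
  · rw [zero_mul]

/-- a nonzero vector of level `s` has a nonzero push-forward -/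
theorem exists_push_ne_zero {s : ℕ} {v : EuclideanSpace ℝ (Equiv.Perm X)}
    (hv : v ∈ lvl X s) (hv0 : v ≠ 0) : ∃ y : Fin s ↪ X, push y v ≠ 0 := by
  by_contra hcon
  push Not at hcon
  have h1 : lvl X s ≤ (Submodule.span ℝ {v})ᗮ := by
    unfold lvl
    rw [Submodule.span_le]
    rintro _ ⟨p, rfl⟩
    rw [SetLike.mem_coe, Submodule.mem_orthogonal_singleton_iff_inner_left, ln_inner_cardFn,
      hcon]
    simp
  have h2 := h1 hv
  rw [Submodule.mem_orthogonal_singleton_iff_inner_left] at h2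
  exact hv0 (inner_self_eq_zero.1 h2)

/-- On the functions of exact level `s + 1`, `‖A f‖² ≤ β ‖f‖²` whenever
`3 ^ (s + 1) tr_k ((Aᵀ A) ^ J) ≤ β ^ J C(k, s + 1)`. -/
theorem level_norm {k s J : ℕ} (hsk : s + 1 ≤ k) (hk : k ≤ Fintype.card X)
    (hs : 4 * (s + 1) ≤ Fintype.card X) (hJ : 0 < J)
    (m : MonoidAlgebra ℝ (Equiv.Perm X)) (β : ℝ) (hβ0 : 0 ≤ β)
    (hβ : 3 ^ (s + 1) * ((((pmat k m).transpose * pmat k m) ^ J).trace) ≤
      β ^ J * (k.choose (s + 1) : ℝ))
    (f : EuclideanSpace ℝ (Equiv.Perm X)) (hf : f ∈ lvl X (s + 1)) (hf' : f ∈ (lvl X s)ᗮ) :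
    ‖act (reg X) m f‖ ^ 2 ≤ β * ‖f‖ ^ 2 := by
  have h1 : ‖act (reg X) m f‖ ^ 2 = ⟪f, act (reg X) (madj m * m) f⟫ := by
    rw [ln_act_mul, ← ln_inner_act, real_inner_self_eq_norm_sq]
  rw [h1]
  refine le_of_eigen ((act (reg X) (madj m * m) :
      EuclideanSpace ℝ (Equiv.Perm X) →L[ℝ] EuclideanSpace ℝ (Equiv.Perm X)) :
      EuclideanSpace ℝ (Equiv.Perm X) →ₗ[ℝ] EuclideanSpace ℝ (Equiv.Perm X)) ?_
    (lvl X (s + 1) ⊓ (lvl X s)ᗮ) ?_ β ?_ f ⟨hf, hf'⟩
  · intro v w
    simp only [ContinuousLinearMap.coe_coe]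
    rw [ln_act_mul, ln_act_mul, ← ln_inner_act, real_inner_comm, ← ln_inner_act,
      real_inner_comm]
  · rintro v ⟨hv1, hv2⟩
    exact ⟨act_mem_lvl _ hv1, inner_act_lvl _ hv2⟩
  · rintro v ⟨hv1, hv2⟩ hv0 c hc
    simp only [ContinuousLinearMap.coe_coe] at hc
    obtain ⟨y, hy⟩ := exists_push_ne_zero hv1 hv0
    have h2 : ((pmat (s + 1) m).transpose * pmat (s + 1) m).mulVec (push y v) =
        c • push y v := by
      rw [← ln_pmat_madj_mul, ← push_act, hc, push_smul]
    have h3 := gram_bound hk hs m (push y v) (push_harm y hv2) hy c h2 J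
    have h4 : c ^ J * (k.choose (s + 1) : ℝ) ≤ β ^ J * (k.choose (s + 1) : ℝ) := h3.trans hβ
    have h5 : (0 : ℝ) < (k.choose (s + 1) : ℝ) := by
      exact_mod_cast Nat.choose_pos hsk
    have h6 : c ^ J ≤ β ^ J := le_of_mul_le_mul_right h4 h5
    by_contra hcon
    push Not at hcon
    exact absurd h6 (not_le.2 (pow_lt_pow_left₀ hcon hβ0 hJ.ne'))

end

end Vale.Agent.P162F
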