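import Vale.Agent.Lib.P162F.Assembly
import Vale.Agent.Lib.P162.Lower

/-!
# P162F.Main: the mixing time of the Thorp shuffle of `2 ^ d` cards is of order `d`
-/

namespace Vale.Agent.P162F

open Vale.Agent.P162
open scoped RealInnerProductSpace

noncomputable section

/-- total variation from the `L²` norm -/
theorem tv_le_chi (e t : ℕ) :
    tvUnif (convPow (thorpLaw (2 ^ e)) t) ≤
      (1 / 2) * (Real.sqrt ((2 * 2 ^ e).factorial : ℝ) *
        ‖(thorpOp (2 ^ e) ^ t) (del e - unif (Deck e))‖) := by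
  set X := Fin (2 * 2 ^ e) with hX
  set G := Equiv.Perm X with hG
  set T := thorpOp (2 ^ e) with hT
  have hTu : (T ^ t) (unif X) = unif X := by
    have h0 : T (unif X) = unif X := thorpOp_unif e
    have : ∀ k : ℕ, (T ^ k) (unif X) = unif X := by
      intro k
      induction k with
      | zero => simp
      | succ k ih => rw [pow_succ, mul_apply_eq_comp, h0, ih]
    exact this t
  have hv : ∀ g : G, ((T ^ t) (del e - unif X)) g =
      convPow (thorpLaw (2 ^ e)) t g - 1 / (Fintype.card G : ℝ) := by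
    intro g
    rw [map_sub, hTu, hT, del, thorpOp_pow]
    rfl
  have htv : tvUnif (convPow (thorpLaw (2 ^ e)) t) =
      (1 / 2) * ∑ g : G, |((T ^ t) (del e - unif X)) g| := by
    unfold tvUnif
    congr 1
    exact Finset.sum_congr rfl fun g _ => by rw [hv g]
  rw [htv]
  have hcs := sq_sum_le_card_mul_sum_sq (s := (Finset.univ : Finset G))
    (f := fun g => |((T ^ t) (del e - unif X)) g|)
  simp only [sq_abs] at hcs
  rw [← EuclideanSpace.real_norm_sq_eq, Finset.card_univ] at hcs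
  have hcard : (Fintype.card G : ℝ) = ((2 * 2 ^ e).factorial : ℝ) := by
    have h1 : Fintype.card (Equiv.Perm (Fin (2 * 2 ^ e))) = (2 * 2 ^ e).factorial := by
      rw [Fintype.card_perm, Fintype.card_fin]
    exact_mod_cast h1
  refine mul_le_mul_of_nonneg_left ?_ (by norm_num)
  refine le_of_sq_le_sq ?_ (mul_nonneg (Real.sqrt_nonneg _) (norm_nonneg _))
  rw [mul_pow, Real.sq_sqrt (Nat.cast_nonneg _), ← hcard]
  exact hcs

/-- total variation after `t` shuffles -/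
theorem tv_pass (J : ℕ) (hJ : J = 512) (q₁ K N : ℕ) (hq : 400 ≤ q₁) (hN : 1 ≤ N)
    (hK : (2 : ℝ) ^ (130 * q₁) * ((2 : ℝ) ^ 128 + 66) ≤ K) (e t : ℕ)
    (ht : (e + 1) * (J * (1 + 1048 * K * N)) ≤ t) :
    tvUnif (convPow (thorpLaw (2 ^ e)) t) ≤ 2 * ((1 : ℝ) / ((2 * 2 ^ e : ℕ) : ℝ)) ^ N := by
  obtain ⟨k, hk⟩ := Nat.exists_eq_add_of_le ht
  have h1 := tv_le_chi e t
  have h2 := chi_bound e J hJ q₁ K N hq hN hK
  have h3 : ‖(thorpOp (2 ^ e) ^ t) (del e - unif (Deck e))‖ ≤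
      ‖(passOp e ^ (J * (1 + 1048 * K * N))) (del e - unif (Deck e))‖ := by
    have e1 : thorpOp (2 ^ e) ^ t = thorpOp (2 ^ e) ^ k *
        passOp e ^ (J * (1 + 1048 * K * N)) := by
      rw [hk, passOp_eq, ← pow_mul, ← pow_add, add_comm]
    rw [e1, mul_apply_eq_comp]
    exact thorpOp_pow_norm_le e k _
  have h4 := mul_le_mul_of_nonneg_left h3 (Real.sqrt_nonneg ((2 * 2 ^ e).factorial : ℝ))
  have h5 : (0 : ℝ) ≤ ((1 : ℝ) / ((2 * 2 ^ e : ℕ) : ℝ)) ^ N :=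
    pow_nonneg (div_nonneg zero_le_one (Nat.cast_nonneg _)) _
  linarith [h1, h4.trans h2]

/-- Main theorem: `C (log n + log (1 / ε))` Thorp shuffles of `n = 2 ^ (e + 1)` cards bring the
total variation distance below `ε`. -/
theorem thorp_linear : ∃ C : ℝ, 0 < C ∧ ∀ (e : ℕ) (ε : ℝ), 0 < ε → ε ≤ 1 → ∀ t : ℕ,
    C * (Real.log (2 * 2 ^ e) + Real.log (1 / ε)) ≤ t →
    tvUnif (convPow (thorpLaw (2 ^ e)) t) ≤ ε := by
  obtain ⟨J, hJ⟩ : ∃ J : ℕ, J = 512 := ⟨_, rfl⟩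
  obtain ⟨q₁, hq⟩ : ∃ q₁ : ℕ, 400 ≤ q₁ := ⟨400, le_rfl⟩
  obtain ⟨K, hK⟩ := exists_nat_ge ((2 : ℝ) ^ (130 * q₁) * ((2 : ℝ) ^ 128 + 66))
  have hJpos : (0 : ℝ) < J := by rw [hJ]; norm_num
  have hK0 : (0 : ℝ) ≤ K := Nat.cast_nonneg _
  obtain ⟨D, hD⟩ : ∃ D : ℝ, D = J * (1 + 4192 * K) := ⟨_, rfl⟩
  have hDpos : 0 < D := by rw [hD]; exact mul_pos hJpos (by linarith)
  refine ⟨2 * D, by linarith, fun e ε hε hε1 t ht => ?_⟩
  set ℓ := Real.log (2 * 2 ^ e) with hℓ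
  set r := Real.log (1 / ε) with hr
  have hr0 : 0 ≤ r := Real.log_nonneg (by rw [le_div_iff₀ hε]; linarith)
  have hl2 : (0.6931471803 : ℝ) < Real.log 2 := Real.log_two_gt_d9
  have hl2' : Real.log 2 < (0.6931471808 : ℝ) := Real.log_two_lt_d9
  have hℓe : ℓ = ((e : ℝ) + 1) * Real.log 2 := by
    rw [hℓ, ← pow_succ', Real.log_pow]; push_cast; ring
  have he0 : (0 : ℝ) ≤ (e : ℝ) := Nat.cast_nonneg _
  have hℓ2 : Real.log 2 ≤ ℓ := by
    rw [hℓe]; nlinarith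
  have hℓpos : 0 < ℓ := by linarith
  -- the number of rounds
  set N := ⌈(Real.log 2 + r) / ℓ⌉₊ with hN
  have hNpos : 0 < (Real.log 2 + r) / ℓ := div_pos (by linarith) hℓpos
  have hN1 : 1 ≤ N := Nat.one_le_iff_ne_zero.mpr (Nat.pos_iff_ne_zero.mp (Nat.ceil_pos.mpr hNpos))
  have hN2 : (N : ℝ) * ℓ < Real.log 2 + r + ℓ := by
    have h1 : (N : ℝ) < (Real.log 2 + r) / ℓ + 1 := Nat.ceil_lt_add_one hNpos.le
    have h2 := mul_lt_mul_of_pos_right h1 hℓpos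
    have h3 : ((Real.log 2 + r) / ℓ + 1) * ℓ = Real.log 2 + r + ℓ := by
      field_simp
    rwa [h3] at h2
  have hN3 : Real.log 2 + r ≤ (N : ℝ) * ℓ := by
    have h1 : (Real.log 2 + r) / ℓ ≤ (N : ℝ) := Nat.le_ceil _
    rwa [div_le_iff₀ hℓpos] at h1
  have ht2 : (e + 1) * (J * (1 + 1048 * K * N)) ≤ t := by
    have h1 : ((e : ℝ) + 1) * (J * (1 + 1048 * K * N)) ≤ t := by
      refine le_trans ?_ ht
      have h2 : ((e : ℝ) + 1) ≤ 2 * ℓ := by rw [hℓe]; nlinarith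
      have h3 : ((e : ℝ) + 1) * N ≤ 4 * (ℓ + r) := by
        have h4 : ((e : ℝ) + 1) * N * Real.log 2 = N * ℓ := by rw [hℓe]; ring
        have h5 : ((e : ℝ) + 1) * N * Real.log 2 ≤ 2 * ℓ + r := by rw [h4]; linarith
        have h6 : (0 : ℝ) ≤ ((e : ℝ) + 1) * N := by positivity
        nlinarith
      have h7 : ((e : ℝ) + 1) * (J * (1 + 1048 * K * N)) =
          J * (((e : ℝ) + 1) + 1048 * K * (((e : ℝ) + 1) * N)) := by ring
      rw [h7, hD]
      have h8 : 1048 * K * (((e : ℝ) + 1) * N) ≤ 1048 * K * (4 * (ℓ + r)) :=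
        mul_le_mul_of_nonneg_left h3 (by linarith)
      have h9 : ((e : ℝ) + 1) + 1048 * K * (((e : ℝ) + 1) * N) ≤
          2 * (1 + 4192 * K) * (ℓ + r) := by
        have h10 : (0 : ℝ) ≤ K * (ℓ + r) := mul_nonneg hK0 (by linarith)
        nlinarith
      have h11 := mul_le_mul_of_nonneg_left h9 hJpos.le
      calc (J : ℝ) * (((e : ℝ) + 1) + 1048 * K * (((e : ℝ) + 1) * N))
          ≤ J * (2 * (1 + 4192 * K) * (ℓ + r)) := h11
        _ = 2 * (J * (1 + 4192 * K)) * (ℓ + r) := by ring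
    exact_mod_cast h1
  have h1 := tv_pass J hJ q₁ K N hq hN1 hK e t ht2
  refine h1.trans ?_
  have hnlog : (((2 * 2 ^ e : ℕ) : ℝ)) = Real.exp ℓ := by
    rw [hℓ, Real.exp_log (mul_pos two_pos (pow_pos two_pos _))]
    push_cast
    ring
  have hεlog : ε = Real.exp (-r) := by
    rw [hr, ← Real.log_inv, one_div, inv_inv, Real.exp_log hε]
  have h2log : (2 : ℝ) = Real.exp (Real.log 2) := (Real.exp_log two_pos).symm
  rw [hnlog, one_div, ← Real.exp_neg, ← Real.exp_nat_mul]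
  nth_rewrite 1 [h2log]
  rw [← Real.exp_add, hεlog, Real.exp_le_exp]
  nlinarith

/-- the mixing time is positive -/
theorem tv_zero (e : ℕ) : ¬ tvUnif (convPow (thorpLaw (2 ^ e)) 0) ≤ 1 / 4 := by
  classical
  intro h
  set G := Equiv.Perm (Fin (2 * 2 ^ e)) with hG
  have hcard : (2 : ℝ) ≤ (Fintype.card G : ℝ) := by
    have h1 : 2 ≤ Fintype.card (Equiv.Perm (Fin (2 * 2 ^ e))) := by
      rw [Fintype.card_perm, Fintype.card_fin]
      have h2 : Nat.factorial 2 ≤ (2 * 2 ^ e).factorial :=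
        Nat.factorial_le (Nat.le_mul_of_pos_right _ (Nat.pow_pos (by norm_num)))
      exact h2
    exact_mod_cast h1
  have hG0 : (0 : ℝ) < (Fintype.card G : ℝ) := by linarith
  have h1 : ∑ g : G, |convPow (thorpLaw (2 ^ e)) 0 g - 1 / (Fintype.card G : ℝ)| =
      2 * (1 - 1 / (Fintype.card G : ℝ)) := by
    rw [← Finset.add_sum_erase _ _ (Finset.mem_univ (1 : G))]
    have h2 : ∀ g ∈ (Finset.univ : Finset G).erase 1,
        |convPow (thorpLaw (2 ^ e)) 0 g - 1 / (Fintype.card G : ℝ)| =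
          1 / (Fintype.card G : ℝ) := by
      intro g hg
      have h0 : convPow (thorpLaw (2 ^ e)) 0 g = 0 := if_neg (Finset.ne_of_mem_erase hg)
      rw [h0, zero_sub, abs_neg, abs_of_pos (one_div_pos.mpr hG0)]
    have h0 : convPow (thorpLaw (2 ^ e)) 0 (1 : G) = 1 := if_pos rfl
    rw [Finset.sum_congr rfl h2, Finset.sum_const, Finset.card_erase_of_mem (Finset.mem_univ _),
      Finset.card_univ, nsmul_eq_mul, Nat.cast_sub Fintype.card_pos, h0, abs_of_nonneg]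
    · field_simp
      push_cast
      ring
    · rw [sub_nonneg, div_le_one hG0]
      linarith
  rw [tvUnif, h1] at h
  have h3 : 1 / (Fintype.card G : ℝ) ≤ 1 / 2 := one_div_le_one_div_of_le two_pos hcard
  linarith

/-- The mixing time of the Thorp shuffle of `n = 2 ^ (e + 1)` cards is of order `log n`. -/
theorem thorp_theta : ∃ c C : ℝ, 0 < c ∧ 0 < C ∧ ∀ e : ℕ,
    (∃ t : ℕ, tvUnif (convPow (thorpLaw (2 ^ e)) t) ≤ 1 / 4) ∧
    c * Real.log (2 * 2 ^ e) ≤ (tmix (2 ^ e) : ℝ) ∧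
    (tmix (2 ^ e) : ℝ) ≤ C * Real.log (2 * 2 ^ e) := by
  obtain ⟨C, hC, h⟩ := thorp_linear
  refine ⟨1 / 2, 3 * C + 2, by norm_num, by linarith, fun e => ?_⟩
  set ℓ := Real.log (2 * 2 ^ e) with hℓ
  have hl2 : (0.6931471803 : ℝ) < Real.log 2 := Real.log_two_gt_d9
  have hl2' : Real.log 2 < (0.6931471808 : ℝ) := Real.log_two_lt_d9
  have hℓe : ℓ = ((e : ℝ) + 1) * Real.log 2 := by
    rw [hℓ, ← pow_succ', Real.log_pow]; push_cast; ring
  have he0 : (0 : ℝ) ≤ (e : ℝ) := Nat.cast_nonneg _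
  have hℓ2 : Real.log 2 ≤ ℓ := by
    rw [hℓe]; nlinarith
  have hlog4 : Real.log (1 / (1 / 4 : ℝ)) = 2 * Real.log 2 := by
    rw [show (1 / (1 / 4 : ℝ)) = 2 ^ 2 by norm_num, Real.log_pow]; push_cast; ring
  set t := ⌈C * (ℓ + Real.log (1 / (1 / 4 : ℝ)))⌉₊ with ht
  have hmem : tvUnif (convPow (thorpLaw (2 ^ e)) t) ≤ 1 / 4 :=
    h e (1 / 4) (by norm_num) (by norm_num) t (Nat.le_ceil _)
  have hne : {t : ℕ | tvUnif (convPow (thorpLaw (2 ^ e)) t) ≤ 1 / 4}.Nonempty := ⟨t, hmem⟩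
  refine ⟨⟨t, hmem⟩, ?_, ?_⟩
  · have h1 : tmix (2 ^ e) ∈ {t : ℕ | tvUnif (convPow (thorpLaw (2 ^ e)) t) ≤ 1 / 4} :=
      Nat.sInf_mem hne
    have h2 : e ≤ tmix (2 ^ e) := thorp_lower e _ h1
    have h3 : 1 ≤ tmix (2 ^ e) := by
      rcases Nat.eq_zero_or_pos (tmix (2 ^ e)) with h0 | h0
      · rw [h0] at h1
        exact absurd h1 (tv_zero e)
      · exact h0
    have h4 : e + 1 ≤ 2 * tmix (2 ^ e) := by omega
    have h5 : ((e : ℝ) + 1) ≤ 2 * (tmix (2 ^ e) : ℝ) := by exact_mod_cast h4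
    rw [hℓe]
    nlinarith
  · have h1 : tmix (2 ^ e) ≤ t := Nat.sInf_le hmem
    have h2 : (t : ℝ) < C * (ℓ + Real.log (1 / (1 / 4 : ℝ))) + 1 :=
      Nat.ceil_lt_add_one (mul_nonneg hC.le (by rw [hlog4]; linarith))
    have h3 : (tmix (2 ^ e) : ℝ) ≤ t := by exact_mod_cast h1
    rw [hlog4] at h2
    have h4 : C * (ℓ + 2 * Real.log 2) ≤ C * (3 * ℓ) :=
      mul_le_mul_of_nonneg_left (by linarith) hC.le
    nlinarith

end

end Vale.Agent.P162F
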