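import Mathlib

/-!
# P162F.Marking: few blocks are contained in a random set of density `ρ`
-/

namespace Vale.Agent.P162F

noncomputable section

variable {β : Type*} [Fintype β] [DecidableEq β]

/-- number of embeddings whose range contains `A` -/
def ncov (β : Type*) [Fintype β] [DecidableEq β] (k : ℕ) (A : Finset β) : ℕ :=
  (Finset.univ.filter fun x : Fin k ↪ β => A ⊆ Finset.univ.map x).card

theorem ncov_swap_le (k : ℕ) (A : Finset β) {a a' : β} (ha : a ∉ A) (ha' : a' ∉ A) :
    ncov β k (insert a A) ≤ ncov β k (insert a' A) := by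
  unfold ncov
  refine Finset.card_le_card_of_injOn (fun x => x.trans (Equiv.swap a a').toEmbedding) ?_ ?_
  · intro x hx
    simp only [Finset.coe_filter, Finset.mem_univ, true_and, Set.mem_ofPred_eq] at hx ⊢
    intro b hb
    rw [Finset.mem_insert] at hb
    rw [Finset.mem_map]
    rcases hb with rfl | hb
    · obtain ⟨i, -, hi⟩ := Finset.mem_map.1 (hx (Finset.mem_insert_self a A))
      exact ⟨i, Finset.mem_univ _, by
        rw [Function.Embedding.trans_apply, hi, Equiv.coe_toEmbedding, Equiv.swap_apply_left]⟩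
    · obtain ⟨i, -, hi⟩ := Finset.mem_map.1 (hx (Finset.mem_insert_of_mem hb))
      refine ⟨i, Finset.mem_univ _, ?_⟩
      rw [Function.Embedding.trans_apply, hi, Equiv.coe_toEmbedding, Equiv.swap_apply_of_ne_of_ne]
      · rintro rfl
        exact ha hb
      · rintro rfl
        exact ha' hb
  · intro x _ y _ hxy
    have h : ∀ i, x i = y i := by
      intro i
      have h1 := congrArg (fun e : Fin k ↪ β => e i) hxy
      exact (Equiv.swap a a').injective h1
    exact Function.Embedding.ext h

theorem ncov_sum (k : ℕ) (A : Finset β) :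
    (∑ a ∈ Aᶜ, (ncov β k (insert a A) : ℝ)) = ((k : ℝ) - A.card) * ncov β k A := by
  classical
  have h1 : ∀ a, (ncov β k (insert a A) : ℝ) =
      ∑ x ∈ Finset.univ.filter (fun x : Fin k ↪ β => A ⊆ Finset.univ.map x),
        if a ∈ Finset.univ.map x then (1 : ℝ) else 0 := by
    intro a
    rw [Finset.sum_boole, Finset.filter_filter]
    unfold ncov
    congr 2
    ext x
    simp only [Finset.mem_filter, Finset.mem_univ, true_and, Finset.insert_subset_iff]
    exact and_comm
  rw [Finset.sum_congr rfl (fun a _ => h1 a), Finset.sum_comm]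
  have h2 : ∀ x ∈ Finset.univ.filter (fun x : Fin k ↪ β => A ⊆ Finset.univ.map x),
      (∑ a ∈ Aᶜ, if a ∈ Finset.univ.map x then (1 : ℝ) else 0) = (k : ℝ) - A.card := by
    intro x hx
    rw [Finset.mem_filter] at hx
    rw [Finset.sum_boole]
    have h3 : (Aᶜ.filter fun a => a ∈ Finset.univ.map x) = Finset.univ.map x \ A := by
      ext b
      simp only [Finset.mem_filter, Finset.mem_compl, Finset.mem_sdiff]
      exact and_comm
    rw [h3, Finset.cast_card_sdiff hx.2, Finset.card_map, Finset.card_univ, Fintype.card_fin]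
  rw [Finset.sum_congr rfl h2, Finset.sum_const, nsmul_eq_mul, mul_comm]
  rfl

theorem ncov_insert (k : ℕ) (A : Finset β) {a : β} (ha : a ∉ A) :
    ((Fintype.card β : ℝ) - A.card) * ncov β k (insert a A) =
      ((k : ℝ) - A.card) * ncov β k A := by
  rw [← ncov_sum]
  have h1 : ∀ a' ∈ Aᶜ, (ncov β k (insert a' A) : ℝ) = ncov β k (insert a A) := by
    intro a' ha'
    rw [Finset.mem_compl] at ha'
    exact_mod_cast le_antisymm (ncov_swap_le k A ha' ha) (ncov_swap_le k A ha ha')
  rw [Finset.sum_congr rfl h1, Finset.sum_const, nsmul_eq_mul, Finset.card_compl,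
    Nat.cast_sub (Finset.card_le_univ A)]

/-- a set of `a` points is covered by `k` random cards with probability at most `(k / n) ^ a` -/
theorem card_cover_le (k : ℕ) (A : Finset β) :
    ((Finset.univ.filter fun x : Fin k ↪ β => A ⊆ Finset.univ.map x).card : ℝ) ≤
      (Fintype.card (Fin k ↪ β) : ℝ) * ((k : ℝ) / Fintype.card β) ^ A.card := by
  change (ncov β k A : ℝ) ≤ _
  rcases lt_or_ge (Fintype.card β) k with hlt | hk
  · have h0 : IsEmpty (Fin k ↪ β) := by
      refine ⟨fun x => ?_⟩
      have := Fintype.card_le_of_embedding x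
      rw [Fintype.card_fin] at this
      omega
    have h1 : ncov β k A = 0 := by
      unfold ncov
      rw [Finset.card_eq_zero, Finset.eq_empty_iff_forall_notMem]
      intro x
      exact h0.elim x
    rw [h1, Nat.cast_zero]
    positivity
  induction A using Finset.induction_on with
  | empty =>
    rw [Finset.card_empty, pow_zero, mul_one]
    exact_mod_cast Finset.card_le_univ _
  | insert a A ha ih =>
    have hlt : A.card < Fintype.card β := by
      have h1 := Finset.card_le_univ (insert a A)
      rw [Finset.card_insert_of_notMem ha] at h1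
      omega
    have hlt' : (A.card : ℝ) < Fintype.card β := by exact_mod_cast hlt
    have hn : (0 : ℝ) < Fintype.card β := lt_of_le_of_lt (Nat.cast_nonneg _) hlt'
    have hk' : (k : ℝ) ≤ Fintype.card β := by exact_mod_cast hk
    have h2 := ncov_insert k A ha
    have hd : (0 : ℝ) < (Fintype.card β : ℝ) - A.card := by linarith
    have h3 : (ncov β k (insert a A) : ℝ) ≤ ((k : ℝ) / Fintype.card β) * ncov β k A := by
      rw [div_mul_eq_mul_div, le_div_iff₀ hn]
      have h4 : ((k : ℝ) - A.card) * Fintype.card β ≤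
          k * ((Fintype.card β : ℝ) - A.card) := by
        nlinarith [Nat.cast_nonneg (α := ℝ) A.card]
      have h5 : (0 : ℝ) ≤ ncov β k A := Nat.cast_nonneg _
      have h6 : ((Fintype.card β : ℝ) - A.card) * (ncov β k (insert a A) * Fintype.card β) ≤
          ((Fintype.card β : ℝ) - A.card) * (k * ncov β k A) := by
        calc ((Fintype.card β : ℝ) - A.card) * (ncov β k (insert a A) * Fintype.card β)
            = (((Fintype.card β : ℝ) - A.card) * ncov β k (insert a A)) * Fintype.card β := by ring
          _ = (((k : ℝ) - A.card) * Fintype.card β) * ncov β k A := by rw [h2]; ring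
          _ ≤ (k * ((Fintype.card β : ℝ) - A.card)) * ncov β k A :=
              mul_le_mul_of_nonneg_right h4 h5
          _ = ((Fintype.card β : ℝ) - A.card) * (k * ncov β k A) := by ring
      exact le_of_mul_le_mul_left h6 hd
    rw [Finset.card_insert_of_notMem ha, pow_succ]
    have h7 : (0 : ℝ) ≤ (k : ℝ) / Fintype.card β := by positivity
    calc (ncov β k (insert a A) : ℝ) ≤ ((k : ℝ) / Fintype.card β) * ncov β k A := h3
      _ ≤ ((k : ℝ) / Fintype.card β) *
          ((Fintype.card (Fin k ↪ β) : ℝ) * ((k : ℝ) / Fintype.card β) ^ A.card) :=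
          mul_le_mul_of_nonneg_left ih h7
      _ = _ := by ring

/-- exponential moment of the number of covered blocks -/
theorem marking (k : ℕ) (B : Finset (Finset β)) (hB : (B : Set (Finset β)).PairwiseDisjoint id)
    (hB2 : ∀ b ∈ B, 2 ≤ b.card) (z : ℝ) (hz : 1 ≤ z) :
    ∑ x : Fin k ↪ β, z ^ (B.filter fun b => b ⊆ Finset.univ.map x).card ≤
      (Fintype.card (Fin k ↪ β) : ℝ) *
        (1 + (z - 1) * ((k : ℝ) / Fintype.card β) ^ 2) ^ B.card := by
  classical
  rcases lt_or_ge (Fintype.card β) k with hlt | hk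
  · have h0 : IsEmpty (Fin k ↪ β) := by
      refine ⟨fun x => ?_⟩
      have := Fintype.card_le_of_embedding x
      rw [Fintype.card_fin] at this
      omega
    rw [Finset.univ_eq_empty, Finset.sum_empty, Fintype.card_eq_zero]
    simp
  have hρ0 : (0 : ℝ) ≤ (k : ℝ) / Fintype.card β := by positivity
  have hρ1 : (k : ℝ) / Fintype.card β ≤ 1 := by
    apply div_le_one_of_le₀ _ (Nat.cast_nonneg _)
    exact_mod_cast hk
  have hz0 : 0 ≤ z - 1 := by linarith
  have h1 : ∀ x : Fin k ↪ β, z ^ (B.filter fun b => b ⊆ Finset.univ.map x).card =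
      ∑ B' ∈ B.powerset, if B'.biUnion id ⊆ Finset.univ.map x then (z - 1) ^ B'.card else 0 := by
    intro x
    have h2 := Finset.sum_pow_mul_eq_add_pow (z - 1) 1
      (B.filter fun b => b ⊆ Finset.univ.map x)
    rw [sub_add_cancel] at h2
    rw [← h2, ← Finset.sum_filter]
    refine Finset.sum_congr ?_ fun t _ => by rw [one_pow, mul_one]
    ext t
    simp only [Finset.mem_powerset, Finset.mem_filter, Finset.subset_iff, Finset.mem_biUnion, id]
    constructor
    · intro h
      refine ⟨fun b hb => (h hb).1, ?_⟩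
      rintro y ⟨b, hb, hy⟩
      exact (h hb).2 hy
    · rintro ⟨h3, h4⟩ b hb
      exact ⟨h3 hb, fun y hy => h4 ⟨b, hb, hy⟩⟩
  rw [Finset.sum_congr rfl fun x _ => h1 x, Finset.sum_comm]
  have h5 : ∀ B' ∈ B.powerset,
      (∑ x : Fin k ↪ β, if B'.biUnion id ⊆ Finset.univ.map x then (z - 1) ^ B'.card else 0) ≤
        (Fintype.card (Fin k ↪ β) : ℝ) *
          (((z - 1) * ((k : ℝ) / Fintype.card β) ^ 2) ^ B'.card * 1 ^ (B.card - B'.card)) := by
    intro B' hB'
    rw [Finset.mem_powerset] at hB'
    rw [← Finset.sum_filter, Finset.sum_const, nsmul_eq_mul, one_pow, mul_one]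
    have h6 := card_cover_le k (B'.biUnion id)
    have h7 : (B'.biUnion id).card = ∑ b ∈ B', b.card :=
      Finset.card_biUnion fun a ha b hb hab => hB (hB' ha) (hB' hb) hab
    have h8 : 2 * B'.card ≤ (B'.biUnion id).card := by
      rw [h7, mul_comm, ← smul_eq_mul]
      exact Finset.card_nsmul_le_sum _ _ _ fun b hb => hB2 b (hB' hb)
    have h9 : ((k : ℝ) / Fintype.card β) ^ (B'.biUnion id).card ≤
        (((k : ℝ) / Fintype.card β) ^ 2) ^ B'.card := by
      rw [← pow_mul]
      exact pow_le_pow_of_le_one hρ0 hρ1 h8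
    calc ((Finset.univ.filter fun x : Fin k ↪ β =>
          B'.biUnion id ⊆ Finset.univ.map x).card : ℝ) * (z - 1) ^ B'.card
        ≤ ((Fintype.card (Fin k ↪ β) : ℝ) * ((k : ℝ) / Fintype.card β) ^
            (B'.biUnion id).card) * (z - 1) ^ B'.card :=
          mul_le_mul_of_nonneg_right h6 (pow_nonneg hz0 _)
      _ ≤ ((Fintype.card (Fin k ↪ β) : ℝ) * (((k : ℝ) / Fintype.card β) ^ 2) ^ B'.card) *
            (z - 1) ^ B'.card := by
          gcongr
      _ = _ := by rw [mul_pow]; ring
  calc _ ≤ ∑ B' ∈ B.powerset, (Fintype.card (Fin k ↪ β) : ℝ) *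
          (((z - 1) * ((k : ℝ) / Fintype.card β) ^ 2) ^ B'.card * 1 ^ (B.card - B'.card)) :=
        Finset.sum_le_sum h5
    _ = _ := by
        rw [← Finset.mul_sum, Finset.sum_pow_mul_eq_add_pow, add_comm]

end

end Vale.Agent.P162F
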