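import Vale.Agent.Lib.P162F.LemmaB

/-!
# P162F.Mix: from Lemma B to the commutators
-/

namespace Vale.Agent.P162F

noncomputable section

variable {d : ℕ}

/-- the coins of `t` on the half `bit l = false`, those of `t'`, reflected, on the other half -/
def mixc (l : ℕ) (t t' : Coin d) : Coin d := fun ξ => if bit l ξ then t' (fl l ξ) else t ξ

/-- the complementary mixture -/
def mixd (l : ℕ) (t t' : Coin d) : Coin d := fun ξ => if bit l ξ then t' ξ else t (fl l ξ)

theorem mixc_mix (l : ℕ) (hl : l < d) (t t' : Coin d) :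
    mixc l (mixc l t t') (mixd l t t') = t := by
  funext ξ
  unfold mixc mixd
  cases h : bit l ξ
  · simp
  · have h1 : bit l (fl l ξ) = false := by rw [bit_fl_self hl, h]; rfl
    simp [h1, fl_fl]

theorem mixd_mix (l : ℕ) (hl : l < d) (t t' : Coin d) :
    mixd l (mixc l t t') (mixd l t t') = t' := by
  funext ξ
  unfold mixc mixd
  cases h : bit l ξ
  · have h1 : bit l (fl l ξ) = true := by rw [bit_fl_self hl, h]; rfl
    simp [h1, fl_fl]
  · simp

/-- the involution on pairs of families of coins -/
def mixE {κ : Type*} (l : ℕ) (hl : l < d) : Equiv.Perm ((κ → Coin d) × (κ → Coin d)) where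
  toFun p := (fun a => mixc l (p.1 a) (p.2 a), fun a => mixd l (p.1 a) (p.2 a))
  invFun p := (fun a => mixc l (p.1 a) (p.2 a), fun a => mixd l (p.1 a) (p.2 a))
  left_inv p := by
    refine Prod.ext ?_ ?_
    · funext a; exact mixc_mix l hl _ _
    · funext a; exact mixd_mix l hl _ _
  right_inv p := by
    refine Prod.ext ?_ ?_
    · funext a; exact mixc_mix l hl _ _
    · funext a; exact mixd_mix l hl _ _

theorem sw_mix_false {l p : ℕ} (hp : p ≠ l) (t t' : Coin d) (ξ : Cube d)
    (hξ : bit l ξ = false) : sw p (mixc l t t') ξ = sw p t ξ := by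
  rcases lt_or_ge p d with hpd | hpd
  · have h : mixc l t t' (lo p ξ) = t (lo p ξ) := by
      unfold mixc
      rw [bit_lo_of_ne (Ne.symm hp), hξ]
      rfl
    rw [sw_apply' hpd, sw_apply' hpd, h]
  · rw [sw_of_le hpd, sw_of_le hpd]

theorem sw_mix_true {l p : ℕ} (hp : p ≠ l) (t t' : Coin d) (ξ : Cube d)
    (hξ : bit l ξ = true) : sw p (mixc l t t') ξ = fl l (sw p t' (fl l ξ)) := by
  rw [fl_sw (Ne.symm hp), fl_fl]
  rcases lt_or_ge p d with hpd | hpd
  · have h : mixc l t t' (lo p ξ) = (t' ∘ fl l) (lo p ξ) := by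
      unfold mixc
      rw [bit_lo_of_ne (Ne.symm hp), hξ]
      rfl
    rw [sw_apply' hpd, sw_apply' hpd, h]
  · rw [sw_of_le hpd, sw_of_le hpd]

theorem win_mix_false (l : ℕ) (i j : ℕ) (hj : l < j) (O O' : ℕ → Coin d) (ξ : Cube d)
    (hξ : bit l ξ = false) :
    win i j (fun p => mixc l (O p) (O' p)) ξ = win i j O ξ := by
  induction i generalizing j with
  | zero => rfl
  | succ i ih =>
    rw [win, win, Equiv.Perm.mul_apply, Equiv.Perm.mul_apply, ih (j + 1) (by omega),
      sw_mix_false (by omega)]
    rw [bit_win_of_lt _ _ _ _ (Or.inl (by omega)), hξ]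

theorem win_mix_true (l : ℕ) (hl : l < d) (i j : ℕ) (hj : l < j) (O O' : ℕ → Coin d)
    (ξ : Cube d) (hξ : bit l ξ = true) :
    win i j (fun p => mixc l (O p) (O' p)) ξ = fl l (win i j O' (fl l ξ)) := by
  induction i generalizing j with
  | zero => simp [win, fl_fl]
  | succ i ih =>
    rw [win, win, Equiv.Perm.mul_apply, Equiv.Perm.mul_apply, ih (j + 1) (by omega),
      sw_mix_true (by omega), fl_fl]
    rw [bit_fl_self hl, bit_win_of_lt _ _ _ _ (Or.inl (by omega)), bit_fl_self hl, hξ]
    rfl

theorem ext_mix (l i j : ℕ) (P P' : Fin i → Coin d) :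
    ext i j (fun a => mixc l (P a) (P' a)) = fun p => mixc l (ext i j P p) (ext i j P' p) := by
  funext p
  unfold ext
  split_ifs with h
  · rfl
  · funext ξ
    unfold mixc
    split_ifs <;> rfl

/-- the count for mixed coins -/
theorem ncyc_mix (l : ℕ) (hl : l < d) (i j : ℕ) (hj : l < j) (u : Equiv.Perm (Cube d))
    (hu : ∀ ξ, bit l (u ξ) = bit l ξ) (U : Finset (Cube d)) (hU : ∀ ξ ∈ U, bit l ξ = false)
    (O O' : ℕ → Coin d) :
    ncyc (com l (win i j (fun p => mixc l (O p) (O' p)) * u))
        (U.map (win i j (fun p => mixc l (O p) (O' p)) * u).toEmbedding) =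
      ncyc (win i j O' * (fl l * u * fl l * u⁻¹ * (win i j O)⁻¹))
        (U.map (win i j O * u).toEmbedding) := by
  have hmap : U.map (win i j (fun p => mixc l (O p) (O' p)) * u).toEmbedding =
      U.map (win i j O * u).toEmbedding := by
    rw [Finset.map_eq_image, Finset.map_eq_image]
    refine Finset.image_congr fun ξ hξ => ?_
    have h1 : bit l (u ξ) = false := by rw [hu]; exact hU ξ hξ
    exact win_mix_false l i j hj O O' (u ξ) h1
  rw [hmap]
  refine ncyc_congr fun η hη => ?_
  rw [Finset.mem_map] at hη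
  obtain ⟨ξ, hξ, rfl⟩ := hη
  have hξ0 : bit l ξ = false := hU ξ hξ
  have h1 : bit l (u ξ) = false := by rw [hu]; exact hξ0
  have h2 : (win i j O * u).toEmbedding ξ =
      (win i j (fun p => mixc l (O p) (O' p)) * u) ξ :=
    (win_mix_false l i j hj O O' (u ξ) h1).symm
  have h3 : bit l (u (fl l ξ)) = true := by rw [hu, bit_fl_self hl, hξ0]; rfl
  have hL : com l (win i j (fun p => mixc l (O p) (O' p)) * u)
      ((win i j O * u).toEmbedding ξ) = win i j O' (fl l (u (fl l ξ))) := by
    rw [h2]
    unfold com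
    simp only [Equiv.Perm.mul_apply, mul_inv_rev, Equiv.Perm.inv_def, Equiv.symm_apply_apply]
    rw [win_mix_true l hl i j hj O O' _ h3, fl_fl]
  rw [hL]
  have hR : (win i j O' * (fl l * u * fl l * u⁻¹ * (win i j O)⁻¹) : Equiv.Perm (Cube d))
      ((win i j O * u).toEmbedding ξ) = win i j O' (fl l (u (fl l ξ))) := by
    change (win i j O' * (fl l * u * fl l * u⁻¹ * (win i j O)⁻¹) : Equiv.Perm (Cube d))
      (win i j O (u ξ)) = _
    simp only [Equiv.Perm.mul_apply, Equiv.Perm.inv_def, Equiv.symm_apply_apply]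
  rw [hR]

/-- Lemma B for the commutator of the flip `l` and `win * u`, `u` preserving the bit `l`: the
coins of the half `bit l = true` are independent of those of the half `bit l = false`. -/
theorem mix_bound (q l : ℕ) (hq : 1 ≤ q) (hl : l + 1 + 32 * q ≤ d) (u : Equiv.Perm (Cube d))
    (hu : ∀ ξ, bit l (u ξ) = bit l ξ) (U : Finset (Cube d)) (hU : ∀ ξ ∈ U, bit l ξ = false)
    (O : ℕ → Coin d) :
    avL (List.range' (l + 1) (32 * q))
      (fun O => (2 : ℝ) ^ (q * ncyc (com l (win (32 * q) (l + 1) O * u))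
        (U.map (win (32 * q) (l + 1) O * u).toEmbedding))) O ≤
      Real.exp (2 * q * U.card / 2 ^ q) := by
  have hld : l < d := by omega
  set i := 32 * q with hi
  set j := l + 1 with hj
  -- the function of the window coins
  set F : (Fin i → Coin d) → ℝ := fun P => (2 : ℝ) ^ (q * ncyc (com l (win i j (ext i j P) * u))
    (U.map (win i j (ext i j P) * u).toEmbedding)) with hF
  set N : ℝ := (Fintype.card (Fin i → Coin d) : ℝ) with hN
  have hNpos : 0 < N := by
    rw [hN]
    exact_mod_cast (Fintype.card_pos : 0 < Fintype.card (Fin i → Coin d))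
  rw [avL_window i j _ (fun O O' h => by simp only [win_congr i j O O' h]) O]
  change (∑ P : Fin i → Coin d, F P) / N ≤ _
  -- doubling
  have hdouble : N * ∑ P : Fin i → Coin d, F P =
      ∑ P : Fin i → Coin d, ∑ P' : Fin i → Coin d, F (fun a => mixc l (P a) (P' a)) := by
    rw [← Fintype.sum_prod_type' (f := fun (P P' : Fin i → Coin d) =>
      F (fun a => mixc l (P a) (P' a)))]
    have h1 := Equiv.sum_comp (mixE (κ := Fin i) l hld)
      (fun p : (Fin i → Coin d) × (Fin i → Coin d) => F p.1)
    have h2 : ∑ p : (Fin i → Coin d) × (Fin i → Coin d),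
        F (fun a => mixc l (p.1 a) (p.2 a)) =
        ∑ p : (Fin i → Coin d) × (Fin i → Coin d), F ((mixE (κ := Fin i) l hld) p).1 := rfl
    rw [h2, h1, Fintype.sum_prod_type]
    simp only [Finset.sum_const, Finset.card_univ, nsmul_eq_mul]
    rw [Finset.mul_sum]
  -- the inner sum
  have hinner : ∀ P : Fin i → Coin d,
      ∑ P' : Fin i → Coin d, F (fun a => mixc l (P a) (P' a)) ≤
        N * Real.exp (2 * q * U.card / 2 ^ q) := by
    intro P
    have h1 := lemmaB q j hq (by omega) (fl l * u * fl l * u⁻¹ * (win i j (ext i j P))⁻¹)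
      (U.map (win i j (ext i j P) * u).toEmbedding) O
    rw [avL_window (32 * q) j _ (fun O O' h => by simp only [win_congr (32 * q) j O O' h]) O,
      div_le_iff₀ (by rw [← hi]; exact hNpos), Finset.card_map] at h1
    rw [mul_comm N]
    refine le_trans (le_of_eq ?_) h1
    refine Finset.sum_congr rfl fun P' _ => ?_
    simp only [hF]
    rw [ext_mix, ncyc_mix l hld i j (by omega) u hu U hU]
  rw [div_le_iff₀ hNpos]
  have htot : N * ∑ P : Fin i → Coin d, F P ≤ N * (N * Real.exp (2 * q * U.card / 2 ^ q)) := by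
    rw [hdouble]
    calc ∑ P : Fin i → Coin d, ∑ P' : Fin i → Coin d, F (fun a => mixc l (P a) (P' a))
        ≤ ∑ _P : Fin i → Coin d, N * Real.exp (2 * q * U.card / 2 ^ q) :=
          Finset.sum_le_sum fun P _ => hinner P
      _ = N * (N * Real.exp (2 * q * U.card / 2 ^ q)) := by
          rw [Finset.sum_const, Finset.card_univ, nsmul_eq_mul]
  have := le_of_mul_le_mul_left htot hNpos
  rw [mul_comm (Real.exp _)]
  exact this

theorem card_dblm_le (j : ℕ) (hj : j < d) (X : Finset (Cube d)) :
    2 * (dblm j X).card ≤ X.card := by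
  have h1 : dblm j X ⊆ X := Finset.filter_subset _ _
  have h2 : (dblm j X).map (fl j).toEmbedding ⊆ X := by
    intro y hy
    rw [Finset.mem_map] at hy
    obtain ⟨x, hx, rfl⟩ := hy
    exact (Finset.mem_filter.1 hx).2.2
  have h3 : Disjoint (dblm j X) ((dblm j X).map (fl j).toEmbedding) := by
    rw [Finset.disjoint_left]
    intro y hy hy'
    rw [Finset.mem_map] at hy'
    obtain ⟨x, hx, rfl⟩ := hy'
    have hb1 : bit j (fl j x) = false := (Finset.mem_filter.1 hy).2.1
    have hb2 : bit j x = false := (Finset.mem_filter.1 hx).2.1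
    rw [bit_fl_self hj, hb2] at hb1
    exact absurd hb1 (by decide)
  calc 2 * (dblm j X).card = (dblm j X).card + ((dblm j X).map (fl j).toEmbedding).card := by
        rw [Finset.card_map]; ring
    _ = (dblm j X ∪ (dblm j X).map (fl j).toEmbedding).card :=
        (Finset.card_union_of_disjoint h3).symm
    _ ≤ X.card := Finset.card_le_card (Finset.union_subset h1 h2)

/-- averages over output coins of functions of the output coins -/
theorem avL_map_true (L : List ℕ) (h : (ℕ → Coin d) → ℝ) (ω : Cfg d) :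
    avL (L.map (fun p => ((true, p) : Idx))) (fun ω => h (fun p => ω (true, p))) ω =
      avL L h (fun p => ω (true, p)) := by
  induction L generalizing ω with
  | nil => rfl
  | cons i L ih =>
    rw [List.map_cons, avL_cons, avL_cons]
    unfold av
    congr 1
    refine Finset.sum_congr rfl fun a _ => ?_
    rw [ih]
    congr 1
    funext p
    by_cases hp : p = i
    · subst hp
      simp
    · rw [Function.update_of_ne hp, Function.update_of_ne]
      intro h'
      exact hp (congrArg Prod.snd h')

/-- the bound for the level `l` -/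
theorem level_bound (q l : ℕ) (hq : 1 ≤ q) (hl : l + 1 + 32 * q ≤ d) (X : Finset (Cube d))
    (ω : Cfg d) :
    avL ((List.range' (l + 1) (32 * q)).map (fun p => ((true, p) : Idx)))
      (fun ω => (2 : ℝ) ^ (q * lv l ω X)) ω ≤ Real.exp (q * X.card / 2 ^ q) := by
  have hld : l < d := by omega
  obtain ⟨b, hb⟩ : ∃ b, d - l - 1 = 32 * q + b := ⟨d - l - 1 - 32 * q, by omega⟩
  set u : Equiv.Perm (Cube d) := net b (l + 1 + 32 * q) ω * inp (32 * q) (l + 1) ω with hu
  set X' : Finset (Cube d) := X.map (inp l 0 ω).toEmbedding with hX'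
  let H : (ℕ → Coin d) → ℝ := fun O =>
    (2 : ℝ) ^ (q * ncyc (com l (win (32 * q) (l + 1) O * u))
      ((dblm l X').map (win (32 * q) (l + 1) O * u).toEmbedding))
  have hcongr : avL ((List.range' (l + 1) (32 * q)).map (fun p => ((true, p) : Idx)))
      (fun ω => (2 : ℝ) ^ (q * lv l ω X)) ω =
      avL ((List.range' (l + 1) (32 * q)).map (fun p => ((true, p) : Idx)))
      (fun ω' => H (fun p => ω' (true, p))) ω := by
    refine avL_congr_of_agree ω fun ω' hω' => ?_
    have hfalse : ∀ p, ω' (false, p) = ω (false, p) := by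
      intro p
      refine hω' _ fun hmem => ?_
      obtain ⟨p', _, hp'⟩ := List.mem_map.1 hmem
      exact absurd (congrArg Prod.fst hp') (by simp)
    have htrue : ∀ p, l + 1 + 32 * q ≤ p → ω' (true, p) = ω (true, p) := by
      intro p hp
      refine hω' _ fun hmem => ?_
      obtain ⟨p', hp1, hp'⟩ := List.mem_map.1 hmem
      have h1 : p' = p := congrArg Prod.snd hp'
      subst h1
      rw [List.mem_range'_1] at hp1
      omega
    have h1 : inp l 0 ω' = inp l 0 ω := inp_congr _ _ _ _ fun p _ _ => hfalse p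
    have h2 : inp (32 * q) (l + 1) ω' = inp (32 * q) (l + 1) ω :=
      inp_congr _ _ _ _ fun p _ _ => hfalse p
    have h3 : net b (l + 1 + 32 * q) ω' = net b (l + 1 + 32 * q) ω := by
      refine net_congr _ _ _ _ fun c p hp _ => ?_
      cases c
      · exact hfalse p
      · exact htrue p hp
    simp only [H]
    unfold lv cc
    rw [h1, hb, net_add, h2, h3, mul_assoc]
  rw [hcongr, avL_map_true _ H ω]
  refine (mix_bound q l hq hl u (fun ξ => ?_) (dblm l X') (fun ξ hξ => ?_) _).trans ?_
  · rw [hu, Equiv.Perm.mul_apply, bit_net_of_lt _ _ _ _ (by omega),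
      bit_inp_of_le _ _ _ _ (Or.inl (by omega))]
  · exact (Finset.mem_filter.1 hξ).2.1
  · refine Real.exp_le_exp.2 ?_
    have h4 : 2 * ((dblm l X').card : ℝ) ≤ X.card := by
      have := card_dblm_le l hld X'
      rw [hX', Finset.card_map, ← hX'] at this
      exact_mod_cast this
    have h5 : (2 : ℝ) * q * (dblm l X').card = q * (2 * (dblm l X').card) := by ring
    rw [h5]
    gcongr

end

end Vale.Agent.P162F
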