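import Vale.Agent.Lib.P162F.Avg

/-!
# P162F.WindowHolder: Hölder's inequality for overlapping windows of independent layers
-/

namespace Vale.Agent.P162F

noncomputable section

variable {ι A : Type*} [DecidableEq ι] [Fintype A] [Nonempty A]

/-- Weighted AM-GM with total weight at most `1`. -/
theorem amgm_le_one {κ : Type*} (s : Finset κ) (w z : κ → ℝ) (hw : ∀ k ∈ s, 0 ≤ w k)
    (hw1 : ∑ k ∈ s, w k ≤ 1) (hz : ∀ k ∈ s, 0 ≤ z k) :
    ∏ k ∈ s, (z k) ^ (w k) ≤ ∑ k ∈ s, w k * z k + (1 - ∑ k ∈ s, w k) := by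
  let w' : Option κ → ℝ := fun o => o.elim (1 - ∑ k ∈ s, w k) w
  let z' : Option κ → ℝ := fun o => o.elim 1 z
  have h := Real.geom_mean_le_arith_mean_weighted (Finset.insertNone s) w' z' ?_ ?_ ?_
  · rw [Finset.prod_insertNone, Finset.sum_insertNone] at h
    simp only [w', z', Option.elim, Real.one_rpow, one_mul, mul_one] at h
    linarith
  · intro o ho
    cases o with
    | none => simp only [w', Option.elim]; linarith
    | some k => exact hw k (by simpa using ho)
  · rw [Finset.sum_insertNone]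
    simp only [w', Option.elim]
    ring
  · intro o ho
    cases o with
    | none => simp [z']
    | some k => exact hz k (by simpa using ho)

/-- Hölder's inequality for the average over one coordinate, total weight at most `1`. -/
theorem av_holder {κ : Type*} (s : Finset κ) (i : ι) (f : κ → (ι → A) → ℝ)
    (hf : ∀ k ∈ s, ∀ ω, 0 < f k ω) (w : κ → ℝ) (hw : ∀ k ∈ s, 0 ≤ w k)
    (hw1 : ∑ k ∈ s, w k ≤ 1) (ω : ι → A) :
    av i (fun ω => ∏ k ∈ s, (f k ω) ^ (w k)) ω ≤ ∏ k ∈ s, (av i (f k) ω) ^ (w k) := by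
  have hA : (0 : ℝ) < Fintype.card A := by exact_mod_cast Fintype.card_pos
  have he : ∀ k ∈ s, 0 < av i (f k) ω := by
    intro k hk
    unfold av
    exact div_pos (Finset.sum_pos (fun a _ => hf k hk _) Finset.univ_nonempty) hA
  have hP : 0 < ∏ k ∈ s, (av i (f k) ω) ^ (w k) :=
    Finset.prod_pos fun k hk => Real.rpow_pos_of_pos (he k hk) _
  have h1 : ∀ a : A, ∏ k ∈ s, (f k (Function.update ω i a)) ^ (w k) ≤
      (∏ k ∈ s, (av i (f k) ω) ^ (w k)) *
        (∑ k ∈ s, w k * (f k (Function.update ω i a) / av i (f k) ω) +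
          (1 - ∑ k ∈ s, w k)) := by
    intro a
    have h2 := amgm_le_one s w (fun k => f k (Function.update ω i a) / av i (f k) ω) hw hw1
      (fun k hk => (div_pos (hf k hk _) (he k hk)).le)
    have h3 : ∏ k ∈ s, (f k (Function.update ω i a)) ^ (w k) =
        (∏ k ∈ s, (av i (f k) ω) ^ (w k)) *
          ∏ k ∈ s, (f k (Function.update ω i a) / av i (f k) ω) ^ (w k) := by
      rw [← Finset.prod_mul_distrib]
      refine Finset.prod_congr rfl fun k hk => ?_
      rw [← Real.mul_rpow (he k hk).le (div_pos (hf k hk _) (he k hk)).le,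
        mul_div_cancel₀ _ (he k hk).ne']
    rw [h3]
    exact mul_le_mul_of_nonneg_left h2 hP.le
  unfold av at h1 ⊢
  rw [div_le_iff₀ hA]
  refine (Finset.sum_le_sum fun a _ => h1 a).trans (le_of_eq ?_)
  rw [← Finset.mul_sum]
  congr 1
  rw [Finset.sum_add_distrib, Finset.sum_comm, Finset.sum_const, Finset.card_univ, nsmul_eq_mul]
  have h4 : ∀ k ∈ s, ∑ a : A, w k * (f k (Function.update ω i a) /
      ((∑ a : A, f k (Function.update ω i a)) / (Fintype.card A : ℝ))) =
      w k * (Fintype.card A : ℝ) := by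
    intro k hk
    have h5 := he k hk
    unfold av at h5
    have h6 : (0 : ℝ) < ∑ a : A, f k (Function.update ω i a) :=
      Finset.sum_pos (fun a _ => hf k hk _) Finset.univ_nonempty
    rw [← Finset.mul_sum, ← Finset.sum_div]
    field_simp
  rw [Finset.sum_congr rfl h4, ← Finset.sum_mul]
  ring

/-- The partially averaged factor. -/
def wfac (idx : ℕ → ι) (F : ℕ → (ι → A) → ℝ) (len : ℕ → ℕ) (l j : ℕ) : (ι → A) → ℝ :=
  if j + len j < l then fun _ => 1 else avL ((List.range' (j + 1) (l - 1 - j)).map idx) (F j)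

theorem avL_pos {l : List ι} {f : (ι → A) → ℝ} (h : ∀ ω, 0 < f ω) (ω : ι → A) :
    0 < avL l f ω := by
  have hA : (0 : ℝ) < Fintype.card A := by exact_mod_cast Fintype.card_pos
  induction l generalizing ω with
  | nil => exact h ω
  | cons i l ih =>
    rw [avL_cons]
    unfold av
    exact div_pos (Finset.sum_pos (fun a _ => ih _) Finset.univ_nonempty) hA

omit [Fintype A] [Nonempty A] in
theorem indep_prod {κ : Type*} (s : Finset κ) (i : ι) (f : κ → (ι → A) → ℝ) (w : κ → ℝ)
    (h : ∀ k ∈ s, Indep i (f k)) : Indep i (fun ω => ∏ k ∈ s, (f k ω) ^ (w k)) := by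
  intro ω a
  refine Finset.prod_congr rfl fun k hk => ?_
  rw [h k hk ω a]

/-- Windowed Hölder. `F j` does not depend on the layers `≤ j`; its average over the window
`j + 1, ..., j + len j` is at most `1`; the total weight of the windows containing a layer is at
most `1`. -/
theorem window_holder (idx : ℕ → ι) (hidx : Function.Injective idx) (n : ℕ) (S : Finset ℕ)
    (F : ℕ → (ι → A) → ℝ) (w : ℕ → ℝ) (len : ℕ → ℕ)
    (hpos : ∀ j ∈ S, ∀ ω, 0 < F j ω)
    (hind : ∀ j ∈ S, ∀ p ≤ j, Indep (idx p) (F j))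
    (hwin : ∀ j ∈ S, ∀ ω, avL ((List.range' (j + 1) (len j)).map idx) (F j) ω ≤ 1)
    (hlen : ∀ j ∈ S, j + len j < n)
    (hw0 : ∀ j ∈ S, 0 ≤ w j)
    (hw1 : ∀ p < n, ∑ j ∈ S.filter (fun j => j < p ∧ p ≤ j + len j), w j ≤ 1) (ω : ι → A) :
    avL ((List.range n).map idx) (fun ω => ∏ j ∈ S, (F j ω) ^ (w j)) ω ≤ 1 := by
  set G := wfac idx F len with hG
  have hGpos : ∀ l, ∀ j ∈ S, ∀ ω, 0 < G l j ω := by
    intro l j hj ω
    simp only [hG, wfac]
    split_ifs
    · exact one_pos
    · exact avL_pos (hpos j hj) ω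
  have hG0 : ∀ j ∈ S, G 0 j = F j := by
    intro j _
    simp only [hG, wfac]
    rw [if_neg (by omega)]
    simp
  have hGn : ∀ j ∈ S, G n j = fun _ => 1 := by
    intro j hj
    simp only [hG, wfac]
    rw [if_pos (hlen j hj)]
  -- one step
  have hstep : ∀ l < n, ∀ ω, av (idx l) (fun ω => ∏ j ∈ S, (G l j ω) ^ (w j)) ω ≤
      ∏ j ∈ S, (G (l + 1) j ω) ^ (w j) := by
    intro l hl ω
    set Sa := S.filter (fun j => j < l ∧ l ≤ j + len j) with hSa
    set Sb := S.filter (fun j => ¬ (j < l ∧ l ≤ j + len j)) with hSb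
    have hsplit : ∀ g : ℕ → ℝ, ∏ j ∈ S, g j = (∏ j ∈ Sb, g j) * ∏ j ∈ Sa, g j := by
      intro g
      rw [mul_comm, hSa, hSb, Finset.prod_filter_mul_prod_filter_not]
    have hindb : ∀ j ∈ Sb, Indep (idx l) (G l j) := by
      intro j hj
      rw [hSb, Finset.mem_filter] at hj
      simp only [hG, wfac]
      split_ifs with h1
      · intro ω a; rfl
      · have h2 : l ≤ j := by omega
        have h3 : l - 1 - j = 0 := by omega
        rw [h3]
        simp only [List.range'_zero, List.map_nil, avL_nil]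
        exact hind j hj.1 l h2
    have e1 : (fun ω => ∏ j ∈ S, (G l j ω) ^ (w j)) =
        fun ω => (∏ j ∈ Sb, (G l j ω) ^ (w j)) * ∏ j ∈ Sa, (G l j ω) ^ (w j) := by
      funext ω
      exact hsplit _
    rw [e1, av_mul_left (indep_prod Sb (idx l) (G l) w hindb), hsplit]
    have hSaS : ∀ j ∈ Sa, j ∈ S := fun j hj => (Finset.mem_filter.mp hj).1
    have hSbS : ∀ j ∈ Sb, j ∈ S := fun j hj => (Finset.mem_filter.mp hj).1
    have hb : ∏ j ∈ Sb, (G l j ω) ^ (w j) ≤ ∏ j ∈ Sb, (G (l + 1) j ω) ^ (w j) := by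
      refine Finset.prod_le_prod (fun j hj => (Real.rpow_pos_of_pos (hGpos l j (hSbS j hj) ω) _).le)
        fun j hj => ?_
      refine Real.rpow_le_rpow (hGpos l j (hSbS j hj) ω).le ?_ (hw0 j (hSbS j hj))
      have hjS := hSbS j hj
      rw [hSb, Finset.mem_filter] at hj
      simp only [hG, wfac]
      by_cases h1 : j + len j < l
      · rw [if_pos h1, if_pos (by omega)]
      · have h2 : l ≤ j := by omega
        rw [if_neg h1]
        have h3 : l - 1 - j = 0 := by omega
        rw [h3]
        by_cases h4 : j + len j < l + 1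
        · rw [if_pos h4]
          have h5 : len j = 0 := by omega
          have h6 := hwin j hjS ω
          rw [h5] at h6
          exact h6
        · rw [if_neg h4]
          have h7 : l + 1 - 1 - j = 0 := by omega
          rw [h7]
    have ha : av (idx l) (fun ω => ∏ j ∈ Sa, (G l j ω) ^ (w j)) ω ≤
        ∏ j ∈ Sa, (G (l + 1) j ω) ^ (w j) := by
      refine (av_holder Sa (idx l) (G l) (fun j hj => hGpos l j (hSaS j hj)) w
        (fun j hj => hw0 j (hSaS j hj)) (hw1 l hl) ω).trans ?_
      have hA : (0 : ℝ) < Fintype.card A := by exact_mod_cast Fintype.card_pos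
      have havpos : ∀ j ∈ Sa, 0 ≤ av (idx l) (G l j) ω := by
        intro j hj
        unfold av
        exact div_nonneg (Finset.sum_nonneg fun a _ => (hGpos l j (hSaS j hj) _).le) hA.le
      refine Finset.prod_le_prod (fun j hj => Real.rpow_nonneg (havpos j hj) _) fun j hj => ?_
      refine Real.rpow_le_rpow (havpos j hj) ?_ (hw0 j (hSaS j hj))
      have hjS := hSaS j hj
      rw [hSa, Finset.mem_filter] at hj
      obtain ⟨-, hjl, hlj⟩ := hj
      -- the average of the partially averaged factor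
      have h1 : av (idx l) (G l j) = avL ((List.range' (j + 1) (l - j)).map idx) (F j) := by
        simp only [hG, wfac]
        rw [if_neg (by omega), ← avL_cons]
        refine avL_perm ?_ _
        have h2 : l - j = (l - 1 - j) + 1 := by omega
        rw [h2, List.range'_concat, List.map_append]
        have h3 : j + 1 + 1 * (l - 1 - j) = l := by omega
        rw [h3]
        exact (List.perm_append_comm (l₁ := [idx l])
          (l₂ := (List.range' (j + 1) (l - 1 - j)).map idx))
      rw [h1]
      simp only [hG, wfac]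
      by_cases h4 : j + len j < l + 1
      · rw [if_pos h4]
        have h5 : l - j = len j := by omega
        rw [h5]
        exact hwin j hjS ω
      · rw [if_neg h4]
        have h5 : l + 1 - 1 - j = l - j := by omega
        rw [h5]
    have hbpos : 0 ≤ ∏ j ∈ Sb, (G (l + 1) j ω) ^ (w j) :=
      Finset.prod_nonneg fun j hj => (Real.rpow_pos_of_pos (hGpos _ j (hSbS j hj) ω) _).le
    have hapos : 0 ≤ av (idx l) (fun ω => ∏ j ∈ Sa, (G l j ω) ^ (w j)) ω := by
      unfold av
      refine div_nonneg (Finset.sum_nonneg fun a _ => Finset.prod_nonneg fun j hj =>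
        (Real.rpow_pos_of_pos (hGpos _ j (hSaS j hj) _) _).le) (Nat.cast_nonneg _)
    exact mul_le_mul hb ha hapos hbpos
  -- induction
  have hind' : ∀ l ≤ n, ∀ ω, avL ((List.range l).reverse.map idx)
      (fun ω => ∏ j ∈ S, (F j ω) ^ (w j)) ω ≤ ∏ j ∈ S, (G l j ω) ^ (w j) := by
    intro l
    induction l with
    | zero =>
      intro _ ω
      simp only [List.range_zero, List.reverse_nil, List.map_nil, avL_nil]
      refine le_of_eq (Finset.prod_congr rfl fun j hj => ?_)
      rw [hG0 j hj]
    | succ l ih =>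
      intro hl ω
      rw [List.range_succ, List.reverse_append, List.map_append]
      simp only [List.reverse_cons, List.reverse_nil, List.nil_append, List.map_cons,
        List.map_nil, List.cons_append, avL_cons]
      exact (av_mono (ih (by omega)) ω).trans (hstep l (by omega) ω)
  have h1 := hind' n le_rfl ω
  rw [avL_perm (l' := (List.range n).map idx) ((List.reverse_perm _).map idx)] at h1
  refine h1.trans (le_of_eq ?_)
  refine Finset.prod_eq_one fun j hj => ?_
  rw [hGn j hj, Real.one_rpow]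

end

end Vale.Agent.P162F
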