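import Vale.Agent.Lib.P162F.Mix
import Vale.Agent.Lib.P162F.Levels
import Vale.Agent.Lib.P162F.WindowHolder

/-!
# P162F.Outer: the outer levels
-/

namespace Vale.Agent.P162F

noncomputable section

variable {d : ℕ}

/-- geometric tail -/
theorem outer_geom (q₀ k : ℕ) :
    ∑ q ∈ Finset.Ico q₀ (q₀ + k), (1 / 2 : ℝ) ^ q ≤ 2 / 2 ^ q₀ := by
  have h : ∑ q ∈ Finset.Ico q₀ (q₀ + k), (1 / 2 : ℝ) ^ q =
      2 * (1 / 2 : ℝ) ^ q₀ - 2 * (1 / 2 : ℝ) ^ (q₀ + k) := by
    induction k with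
    | zero => simp
    | succ k ih =>
      rw [← add_assoc, Finset.sum_Ico_succ_top (by omega), ih, pow_succ]
      ring
  have h1 : (0 : ℝ) ≤ 2 * (1 / 2 : ℝ) ^ (q₀ + k) := by positivity
  have h2 : (2 : ℝ) / 2 ^ q₀ = 2 * (1 / 2 : ℝ) ^ q₀ := by
    rw [one_div, inv_pow]; ring
  rw [h2, h]
  linarith

/-- every value of `q` is taken by at most `64` levels -/
theorem outer_sum (q₀ d : ℕ) :
    ∑ l ∈ (Finset.range d).filter (fun l => q₀ ≤ (d - l - 1) / 64),
      (1 / 2 : ℝ) ^ ((d - l - 1) / 64) ≤ 128 / 2 ^ q₀ := by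
  set S := (Finset.range d).filter (fun l => q₀ ≤ (d - l - 1) / 64) with hS
  have hmap : ∀ l ∈ S, (d - l - 1) / 64 ∈ Finset.Ico q₀ (q₀ + d) := by
    intro l hl
    rw [hS, Finset.mem_filter, Finset.mem_range] at hl
    rw [Finset.mem_Ico]
    omega
  rw [← Finset.sum_fiberwise_of_maps_to hmap]
  have h1 : ∀ q ∈ Finset.Ico q₀ (q₀ + d),
      ∑ l ∈ S.filter (fun l => (d - l - 1) / 64 = q), (1 / 2 : ℝ) ^ ((d - l - 1) / 64) ≤
        64 * (1 / 2 : ℝ) ^ q := by
    intro q _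
    have h2 : ∑ l ∈ S.filter (fun l => (d - l - 1) / 64 = q), (1 / 2 : ℝ) ^ ((d - l - 1) / 64) =
        ∑ l ∈ S.filter (fun l => (d - l - 1) / 64 = q), (1 / 2 : ℝ) ^ q := by
      refine Finset.sum_congr rfl fun l hl => ?_
      rw [(Finset.mem_filter.mp hl).2]
    have h3 : (S.filter (fun l => (d - l - 1) / 64 = q)).card ≤ 64 := by
      have h4 : S.filter (fun l => (d - l - 1) / 64 = q) ⊆
          Finset.Ico (d - 64 * q - 64) (d - 64 * q) := by
        intro l hl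
        rw [Finset.mem_filter, hS, Finset.mem_filter, Finset.mem_range] at hl
        rw [Finset.mem_Ico]
        omega
      refine (Finset.card_le_card h4).trans ?_
      rw [Nat.card_Ico]
      omega
    rw [h2, Finset.sum_const, nsmul_eq_mul]
    have h5 : ((S.filter (fun l => (d - l - 1) / 64 = q)).card : ℝ) ≤ 64 := by exact_mod_cast h3
    gcongr
  refine (Finset.sum_le_sum h1).trans ?_
  rw [← Finset.mul_sum]
  have h6 := outer_geom q₀ d
  have h7 : (128 : ℝ) / 2 ^ q₀ = 64 * (2 / 2 ^ q₀) := by ring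
  rw [h7]
  gcongr

/-- the total weight of the windows that contain a given layer -/
theorem outer_weight (q₀ : ℕ) (hq : 1 ≤ q₀) (θ : ℝ) (hθ : 0 ≤ θ) (hθ1 : 256 * θ ≤ 1) (d p : ℕ)
    (hp : p < d) :
    ∑ l ∈ ((Finset.range d).filter (fun l => q₀ ≤ (d - l - 1) / 64)).filter
      (fun l => l < p ∧ p ≤ l + 32 * ((d - l - 1) / 64)),
      2 * θ / (((d - l - 1) / 64 : ℕ) : ℝ) ≤ 1 := by
  set T := ((Finset.range d).filter (fun l => q₀ ≤ (d - l - 1) / 64)).filter
      (fun l => l < p ∧ p ≤ l + 32 * ((d - l - 1) / 64)) with hT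
  have hTmem : ∀ l ∈ T, l < d ∧ q₀ ≤ (d - l - 1) / 64 ∧ l < p ∧
      p ≤ l + 32 * ((d - l - 1) / 64) := by
    intro l hl
    rw [hT, Finset.mem_filter, Finset.mem_filter, Finset.mem_range] at hl
    exact ⟨hl.1.1, hl.1.2, hl.2.1, hl.2.2⟩
  rcases Nat.eq_zero_or_pos (d - p - 1) with h0 | hpos
  · have : T = ∅ := by
      refine Finset.eq_empty_of_forall_notMem fun l hl => ?_
      have := hTmem l hl
      omega
    rw [this, Finset.sum_empty]
    exact zero_le_one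
  · have hc : T.card ≤ d - p - 1 := by
      have h4 : T ⊆ Finset.Ico (p - (d - p - 1)) p := by
        intro l hl
        have := hTmem l hl
        rw [Finset.mem_Ico]
        omega
      refine (Finset.card_le_card h4).trans ?_
      rw [Nat.card_Ico]
      omega
    have hP : (0 : ℝ) < ((d - p - 1 : ℕ) : ℝ) := by exact_mod_cast hpos
    have hterm : ∀ l ∈ T, 2 * θ / (((d - l - 1) / 64 : ℕ) : ℝ) ≤
        256 * θ / ((d - p - 1 : ℕ) : ℝ) := by
      intro l hl
      have hl' := hTmem l hl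
      have hqpos : 0 < (d - l - 1) / 64 := by omega
      have hqR : (0 : ℝ) < (((d - l - 1) / 64 : ℕ) : ℝ) := by exact_mod_cast hqpos
      have hle : (d - p - 1) ≤ 128 * ((d - l - 1) / 64) := by omega
      have hleR : ((d - p - 1 : ℕ) : ℝ) ≤ 128 * (((d - l - 1) / 64 : ℕ) : ℝ) := by
        exact_mod_cast hle
      rw [div_le_div_iff₀ hqR hP]
      nlinarith [mul_le_mul_of_nonneg_left hleR hθ]
    calc ∑ l ∈ T, 2 * θ / (((d - l - 1) / 64 : ℕ) : ℝ)
        ≤ ∑ _l ∈ T, 256 * θ / ((d - p - 1 : ℕ) : ℝ) := Finset.sum_le_sum hterm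
      _ = (T.card : ℝ) * (256 * θ / ((d - p - 1 : ℕ) : ℝ)) := by
          rw [Finset.sum_const, nsmul_eq_mul]
      _ ≤ ((d - p - 1 : ℕ) : ℝ) * (256 * θ / ((d - p - 1 : ℕ) : ℝ)) := by
          have : (T.card : ℝ) ≤ ((d - p - 1 : ℕ) : ℝ) := by exact_mod_cast hc
          gcongr
      _ = 256 * θ := by field_simp
      _ ≤ 1 := hθ1

/-- one pass, outer levels, every marked set -/
theorem outer_bound (q₀ : ℕ) (hq : 1 ≤ q₀) (θ : ℝ) (hθ : 0 ≤ θ) (hθ1 : 256 * θ ≤ 1)
    (X : Finset (Cube d)) (ω : Cfg d) :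
    avL (layers d 0)
      (fun ω => (2 : ℝ) ^ (2 * ctot (fun l => if q₀ ≤ (d - l - 1) / 64 then θ else 0) d 0 ω X)) ω ≤
      Real.exp (256 * θ * X.card / 2 ^ q₀) := by
  set S := (Finset.range d).filter (fun l => q₀ ≤ (d - l - 1) / 64) with hS
  have hSmem : ∀ l ∈ S, l < d ∧ q₀ ≤ (d - l - 1) / 64 := by
    intro l hl
    rw [hS, Finset.mem_filter, Finset.mem_range] at hl
    exact hl
  set F : ℕ → Cfg d → ℝ := fun l ω =>
    (2 : ℝ) ^ (((d - l - 1) / 64) * lv l ω X) /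
      Real.exp ((((d - l - 1) / 64 : ℕ) : ℝ) * X.card / 2 ^ ((d - l - 1) / 64)) with hF
  set w : ℕ → ℝ := fun l => 2 * θ / (((d - l - 1) / 64 : ℕ) : ℝ) with hw
  have hFpos : ∀ l ∈ S, ∀ ω, 0 < F l ω := by
    intro l _ ω
    simp only [hF]
    positivity
  -- the windows
  have key : ∀ ω : Cfg d,
      avL ((List.range d).map (fun l => ((true, l) : Idx)))
        (fun ω => ∏ l ∈ S, (F l ω) ^ (w l)) ω ≤ 1 := by
    intro ω
    refine window_holder (fun l => ((true, l) : Idx)) (fun a b h => (Prod.mk.inj h).2) d S F w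
      (fun l => 32 * ((d - l - 1) / 64)) hFpos ?_ ?_ ?_ ?_ ?_ ω
    · intro l _ p hpl
      exact lv_indep hpl (fun c => (2 : ℝ) ^ (((d - l - 1) / 64) * c) /
        Real.exp ((((d - l - 1) / 64 : ℕ) : ℝ) * X.card / 2 ^ ((d - l - 1) / 64))) X
    · intro l hl ω
      have hl' := hSmem l hl
      have h1 := level_bound ((d - l - 1) / 64) l (by omega) (by omega) X ω
      have h2 : F l = fun ω : Cfg d =>
          (Real.exp ((((d - l - 1) / 64 : ℕ) : ℝ) * X.card / 2 ^ ((d - l - 1) / 64)))⁻¹ *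
            (2 : ℝ) ^ (((d - l - 1) / 64) * lv l ω X) := by
        funext ω
        simp only [hF]
        rw [div_eq_mul_inv, mul_comm]
      rw [h2, avL_smul]
      have h3 := Real.exp_pos ((((d - l - 1) / 64 : ℕ) : ℝ) * X.card / 2 ^ ((d - l - 1) / 64))
      rw [inv_mul_le_iff₀ h3, mul_one]
      exact h1
    · intro l hl
      have hl' := hSmem l hl
      show l + 32 * ((d - l - 1) / 64) < d
      omega
    · intro l _
      simp only [hw]
      positivity
    · intro p hp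
      exact outer_weight q₀ hq θ hθ hθ1 d p hp
  -- the function is a product
  have hprod : ∀ ω : Cfg d,
      (2 : ℝ) ^ (2 * ctot (fun l => if q₀ ≤ (d - l - 1) / 64 then θ else 0) d 0 ω X) =
        (∏ l ∈ S, Real.exp (2 * θ * X.card * (1 / 2) ^ ((d - l - 1) / 64))) *
          ∏ l ∈ S, (F l ω) ^ (w l) := by
    intro ω
    rw [← Finset.prod_mul_distrib, ctot_eq, Finset.mul_sum]
    have h1 : ∑ l ∈ Finset.range d, 2 * ((if q₀ ≤ (d - l - 1) / 64 then θ else 0) *
        (lv l ω X : ℝ)) = ∑ l ∈ S, 2 * θ * (lv l ω X : ℝ) := by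
      rw [hS, Finset.sum_filter]
      refine Finset.sum_congr rfl fun l _ => ?_
      split_ifs
      · ring
      · ring
    rw [h1, Real.rpow_sum_of_pos (by norm_num)]
    refine Finset.prod_congr rfl fun l hl => ?_
    have hl' := hSmem l hl
    have hqpos : 0 < (d - l - 1) / 64 := by omega
    have hqR : (((d - l - 1) / 64 : ℕ) : ℝ) ≠ 0 := by exact_mod_cast hqpos.ne'
    simp only [hF, hw]
    rw [Real.div_rpow (by positivity) (Real.exp_pos _).le]
    have e1 : (((d - l - 1) / 64 * lv l ω X : ℕ) : ℝ) *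
        (2 * θ / (((d - l - 1) / 64 : ℕ) : ℝ)) = 2 * θ * (lv l ω X : ℝ) := by
      push_cast [Nat.cast_mul]
      field_simp
    have e2 : (((d - l - 1) / 64 : ℕ) : ℝ) * X.card / 2 ^ ((d - l - 1) / 64) *
        (2 * θ / (((d - l - 1) / 64 : ℕ) : ℝ)) =
          2 * θ * X.card * (1 / 2) ^ ((d - l - 1) / 64) := by
      rw [one_div, inv_pow]
      field_simp
    have e3 : ((2 : ℝ) ^ ((d - l - 1) / 64 * lv l ω X)) ^
        (2 * θ / (((d - l - 1) / 64 : ℕ) : ℝ)) = (2 : ℝ) ^ (2 * θ * (lv l ω X : ℝ)) := by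
      rw [← Real.rpow_natCast 2 ((d - l - 1) / 64 * lv l ω X), ← Real.rpow_mul (by norm_num), e1]
    have e4 : Real.exp ((((d - l - 1) / 64 : ℕ) : ℝ) * X.card / 2 ^ ((d - l - 1) / 64)) ^
        (2 * θ / (((d - l - 1) / 64 : ℕ) : ℝ)) =
          Real.exp (2 * θ * X.card * (1 / 2) ^ ((d - l - 1) / 64)) := by
      rw [← Real.exp_mul, e2]
    rw [e3, e4]
    have h3 := (Real.exp_pos (2 * θ * X.card * (1 / 2) ^ ((d - l - 1) / 64))).ne'
    field_simp
  have hfun : (fun ω : Cfg d =>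
      (2 : ℝ) ^ (2 * ctot (fun l => if q₀ ≤ (d - l - 1) / 64 then θ else 0) d 0 ω X)) =
        fun ω => (∏ l ∈ S, Real.exp (2 * θ * X.card * (1 / 2) ^ ((d - l - 1) / 64))) *
          ∏ l ∈ S, (F l ω) ^ (w l) := funext hprod
  rw [hfun, avL_smul, avL_perm (layers_perm d), avL_append]
  have h1 : avL ((List.range d).map (fun l => ((false, l) : Idx)))
      (avL ((List.range d).map (fun l => ((true, l) : Idx)))
        (fun ω => ∏ l ∈ S, (F l ω) ^ (w l))) ω ≤ 1 := avL_le_of_le key ω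
  have hC : (∏ l ∈ S, Real.exp (2 * θ * X.card * (1 / 2) ^ ((d - l - 1) / 64))) ≤
      Real.exp (256 * θ * X.card / 2 ^ q₀) := by
    rw [← Real.exp_sum, ← Finset.mul_sum]
    refine Real.exp_le_exp.mpr ?_
    have h2 := outer_sum q₀ d
    rw [← hS] at h2
    have h3 : 256 * θ * (X.card : ℝ) / 2 ^ q₀ = 2 * θ * X.card * (128 / 2 ^ q₀) := by ring
    rw [h3]
    gcongr
  have hCpos : 0 ≤ ∏ l ∈ S, Real.exp (2 * θ * X.card * (1 / 2) ^ ((d - l - 1) / 64)) :=
    Finset.prod_nonneg fun l _ => (Real.exp_pos _).le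
  calc (∏ l ∈ S, Real.exp (2 * θ * X.card * (1 / 2) ^ ((d - l - 1) / 64))) *
        avL ((List.range d).map (fun l => ((false, l) : Idx)))
          (avL ((List.range d).map (fun l => ((true, l) : Idx)))
            (fun ω => ∏ l ∈ S, (F l ω) ^ (w l))) ω
      ≤ (∏ l ∈ S, Real.exp (2 * θ * X.card * (1 / 2) ^ ((d - l - 1) / 64))) * 1 := by gcongr
    _ = ∏ l ∈ S, Real.exp (2 * θ * X.card * (1 / 2) ^ ((d - l - 1) / 64)) := mul_one _
    _ ≤ Real.exp (256 * θ * X.card / 2 ^ q₀) := hC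

end

end Vale.Agent.P162F
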