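import Vale.Agent.Lib.P162F.Basic

/-!
# P162F.Overlap: shared switches of a set of strands
-/

namespace Vale.Agent.P162F

noncomputable section

variable {d : ℕ}

/-- `ov i j O w A` is the number of the layers `a ∈ [j, j + i)` at which the strand starting at `w`
uses the same switch as another strand starting in `A` (network `win i j O`) -/
def ov : (i j : ℕ) → (ℕ → Coin d) → Cube d → Finset (Cube d) → ℕ
  | 0, _, _, _, _ => 0
  | i + 1, j, O, w, A =>
      (if fl j (win i (j + 1) O w) ∈ A.map (win i (j + 1) O).toEmbedding then 1 else 0) +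
        ov i (j + 1) O w A

theorem ov_le (i j : ℕ) (O : ℕ → Coin d) (w : Cube d) (A : Finset (Cube d)) :
    ov i j O w A ≤ i := by
  induction i generalizing j with
  | zero => exact le_rfl
  | succ i ih =>
    rw [ov]
    have := ih (j + 1)
    split_ifs <;> omega

theorem ov_mem_map (W : Equiv.Perm (Cube d)) (A : Finset (Cube d)) (x : Cube d) :
    x ∈ A.map W.toEmbedding ↔ W.symm x ∈ A := by
  rw [Finset.mem_map]
  constructor
  · rintro ⟨a, ha, rfl⟩
    simpa using ha
  · intro h
    exact ⟨W.symm x, h, by simp⟩

theorem ov_ind_biUnion {κ β : Type*} [DecidableEq κ] [DecidableEq β] (s : Finset κ)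
    (A : κ → Finset β) (hA : (s : Set κ).PairwiseDisjoint A) (x : β) :
    (if x ∈ s.biUnion A then 1 else 0 : ℕ) = ∑ k ∈ s, if x ∈ A k then 1 else 0 := by
  by_cases h : x ∈ s.biUnion A
  · rw [if_pos h]
    rw [Finset.mem_biUnion] at h
    obtain ⟨k, hk, hx⟩ := h
    rw [Finset.sum_eq_single k]
    · rw [if_pos hx]
    · intro k' hk' hne
      rw [if_neg]
      intro hx'
      exact (Finset.disjoint_left.mp (hA hk' hk hne) hx') hx
    · intro h
      exact absurd hk h
  · rw [if_neg h]
    symm
    refine Finset.sum_eq_zero fun k hk => ?_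
    rw [if_neg]
    intro hx
    exact h (Finset.mem_biUnion.mpr ⟨k, hk, hx⟩)

/-- additivity in the set of strands -/
theorem ov_biUnion {κ : Type*} [DecidableEq κ] (s : Finset κ) (A : κ → Finset (Cube d))
    (hA : (s : Set κ).PairwiseDisjoint A) (i j : ℕ) (O : ℕ → Coin d) (w : Cube d) :
    ov i j O w (s.biUnion A) = ∑ k ∈ s, ov i j O w (A k) := by
  induction i generalizing j with
  | zero => simp [ov]
  | succ i ih =>
    simp only [ov, ov_mem_map]
    rw [ih (j + 1), Finset.sum_add_distrib, ov_ind_biUnion s A hA]

/-- later layers preserve the bit `p` -/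
theorem ov_filter (p : ℕ) (i j : ℕ) (hp : p < j) (O : ℕ → Coin d) (w : Cube d)
    (A : Finset (Cube d)) :
    ov i j O w A = ov i j O w (A.filter fun a => bit p a = bit p w) := by
  induction i generalizing j with
  | zero => rfl
  | succ i ih =>
    rw [ov, ov, ← ih (j + 1) (by omega)]
    congr 1
    simp only [ov_mem_map, Finset.mem_filter]
    have key : bit p ((win i (j + 1) O).symm (fl j (win i (j + 1) O w))) = bit p w := by
      rw [← bit_win_of_lt i (j + 1) O _ (Or.inl (by omega : p < j + 1)), Equiv.apply_symm_apply,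
        bit_fl_of_ne (by omega), bit_win_of_lt i (j + 1) O _ (Or.inl (by omega))]
    simp only [key, and_true]

theorem ov_count {j : ℕ} (hj : j < d) (W : Equiv.Perm (Cube d))
    (hW : ∀ x, bit j (W x) = bit j x) (A : Finset (Cube d)) (b : Bool) :
    ((A.filter fun w => bit j w = b).filter
      fun w => W.symm (fl j (W w)) ∈ A).card ≤ (A.filter fun w => bit j w = !b).card := by
  refine Finset.card_le_card_of_injOn (fun w => W.symm (fl j (W w))) ?_ ?_
  · intro w hw
    rw [Finset.mem_coe, Finset.mem_filter, Finset.mem_filter] at hw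
    obtain ⟨⟨hwA, hwb⟩, hwS⟩ := hw
    rw [Finset.mem_coe, Finset.mem_filter]
    refine ⟨hwS, ?_⟩
    rw [← hW, Equiv.apply_symm_apply, bit_fl_self hj, hW, hwb]
  · intro x _ y _ h
    have h1 := W.symm.injective h
    have h2 := (fl j).injective h1
    exact W.injective h2

/-- a set of `≤ 2 ^ q` strands has at most `q` shared switches per strand -/
theorem sum_ov_le (q : ℕ) (i j : ℕ) (hj : j + i ≤ d) (O : ℕ → Coin d) (A : Finset (Cube d))
    (hA : A.card ≤ 2 ^ q) : ∑ w ∈ A, ov i j O w A ≤ 2 * q * A.card := by
  induction i generalizing j q A with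
  | zero => simp [ov]
  | succ i ih =>
    have hjd : j < d := by omega
    set W := win i (j + 1) O with hWdef
    have hW : ∀ x, bit j (W x) = bit j x := fun x =>
      bit_win_of_lt i (j + 1) O x (Or.inl (by omega))
    set A0 := A.filter fun w => bit j w = false with hA0
    set A1 := A.filter fun w => bit j w = true with hA1
    have hsplit : ∀ f : Cube d → ℕ, ∑ w ∈ A, f w = ∑ w ∈ A0, f w + ∑ w ∈ A1, f w := by
      intro f
      rw [← Finset.sum_filter_add_sum_filter_not A (fun w => bit j w = false)]
      congr 2
      refine Finset.filter_congr fun w _ => ?_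
      cases bit j w <;> simp
    have hcard : A.card = A0.card + A1.card := by
      have := hsplit (fun _ => 1)
      simpa using this
    -- the first layer
    have hc0 := ov_count hjd W hW A false
    have hc1 := ov_count hjd W hW A true
    simp only [Bool.not_false, Bool.not_true] at hc0 hc1
    rw [← hA0, ← hA1] at hc0 hc1
    have hI0 : ∑ w ∈ A0, (if fl j (W w) ∈ A.map W.toEmbedding then 1 else 0) ≤
        min A0.card A1.card := by
      simp only [ov_mem_map]
      rw [← Finset.card_filter]
      exact le_min (Finset.card_filter_le _ _) hc0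
    have hI1 : ∑ w ∈ A1, (if fl j (W w) ∈ A.map W.toEmbedding then 1 else 0) ≤
        min A0.card A1.card := by
      simp only [ov_mem_map]
      rw [← Finset.card_filter]
      exact le_min hc1 (Finset.card_filter_le _ _)
    -- the other layers
    have hR0 : ∑ w ∈ A0, ov i (j + 1) O w A = ∑ w ∈ A0, ov i (j + 1) O w A0 := by
      refine Finset.sum_congr rfl fun w hw => ?_
      rw [ov_filter j i (j + 1) (by omega) O w A]
      have hb : bit j w = false := (Finset.mem_filter.mp hw).2
      rw [hb]
    have hR1 : ∑ w ∈ A1, ov i (j + 1) O w A = ∑ w ∈ A1, ov i (j + 1) O w A1 := by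
      refine Finset.sum_congr rfl fun w hw => ?_
      rw [ov_filter j i (j + 1) (by omega) O w A]
      have hb : bit j w = true := (Finset.mem_filter.mp hw).2
      rw [hb]
    have htot : ∑ w ∈ A, ov (i + 1) j O w A =
        (∑ w ∈ A0, (if fl j (W w) ∈ A.map W.toEmbedding then 1 else 0) +
          ∑ w ∈ A1, (if fl j (W w) ∈ A.map W.toEmbedding then 1 else 0)) +
        (∑ w ∈ A0, ov i (j + 1) O w A0 + ∑ w ∈ A1, ov i (j + 1) O w A1) := by
      simp only [ov]
      rw [Finset.sum_add_distrib, hsplit, hsplit (fun w => ov i (j + 1) O w A), hR0, hR1]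
    rw [htot]
    have hj' : j + 1 + i ≤ d := by omega
    rcases Nat.eq_zero_or_pos (min A0.card A1.card) with h0 | h0
    · rw [h0] at hI0 hI1
      have e0 := ih q (j + 1) hj' A0 (by omega)
      have e1 := ih q (j + 1) hj' A1 (by omega)
      rw [hcard]
      nlinarith
    · have hq : 1 ≤ q := by
        rcases Nat.eq_zero_or_pos q with hq0 | hq0
        · rw [hq0, pow_zero] at hA
          omega
        · exact hq0
      obtain ⟨q', rfl⟩ : ∃ q', q = q' + 1 := ⟨q - 1, by omega⟩
      rw [pow_succ] at hA
      rcases le_total A0.card A1.card with hle | hle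
      · rw [min_eq_left hle] at hI0 hI1
        have e0 := ih q' (j + 1) hj' A0 (by omega)
        have e1 := ih (q' + 1) (j + 1) hj' A1 (by rw [pow_succ]; omega)
        rw [hcard]
        nlinarith
      · rw [min_eq_right hle] at hI0 hI1
        have e0 := ih (q' + 1) (j + 1) hj' A0 (by rw [pow_succ]; omega)
        have e1 := ih q' (j + 1) hj' A1 (by omega)
        rw [hcard]
        nlinarith

end

end Vale.Agent.P162F
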