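import Mathlib

/-!
# P162F.PassHolder: iterating a one-pass inequality
-/

namespace Vale.Agent.P162F

/-- The averaged iteration `u (m+1) x = E_ω [f ω x * u m (g ω x)]`, `u 0 = 1`. -/
noncomputable def phU {Ξ Ω : Type*} [Fintype Ω] (g : Ω → Ξ → Ξ) (f : Ω → Ξ → ℝ) : ℕ → Ξ → ℝ
  | 0, _ => 1
  | (m + 1), x => (∑ ω, f ω x * phU g f m (g ω x)) / (Fintype.card Ω : ℝ)

/-- The averaged sum `v (m+1) x = E_ω [f ω x + v m (g ω x)]`, `v 0 = 0`. -/
noncomputable def phV {Ξ Ω : Type*} [Fintype Ω] (g : Ω → Ξ → Ξ) (f : Ω → Ξ → ℝ) : ℕ → Ξ → ℝ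
  | 0, _ => 0
  | (m + 1), x => (∑ ω, (f ω x + phV g f m (g ω x))) / (Fintype.card Ω : ℝ)

theorem phU_nonneg {Ξ Ω : Type*} [Fintype Ω] (g : Ω → Ξ → Ξ) (f : Ω → Ξ → ℝ)
    (hf : ∀ ω x, 0 ≤ f ω x) (m : ℕ) (x : Ξ) : 0 ≤ phU g f m x := by
  induction m generalizing x with
  | zero => simp [phU]
  | succ m ih =>
    simp only [phU]
    exact div_nonneg (Finset.sum_nonneg fun ω _ => mul_nonneg (hf ω x) (ih _)) (Nat.cast_nonneg _)

theorem phU_cauchy {Ξ Ω : Type*} [Fintype Ω] [Nonempty Ω] (g : Ω → Ξ → Ξ) (P Q : Ω → Ξ → ℝ)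
    (m : ℕ) (x : Ξ) :
    phU g (fun ω x => P ω x * Q ω x) m x ^ 2 ≤
      phU g (fun ω x => P ω x ^ 2) m x * phU g (fun ω x => Q ω x ^ 2) m x := by
  induction m generalizing x with
  | zero => simp [phU]
  | succ m ih =>
    have hN : (0 : ℝ) < Fintype.card Ω := by exact_mod_cast Fintype.card_pos
    have h1 := phU_nonneg g (fun ω x => P ω x ^ 2) (fun ω x => sq_nonneg _) m
    have h2 := phU_nonneg g (fun ω x => Q ω x ^ 2) (fun ω x => sq_nonneg _) m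
    have key := Finset.sum_sq_le_sum_mul_sum_of_sq_le_mul Finset.univ
      (r := fun ω => P ω x * Q ω x * phU g (fun ω x => P ω x * Q ω x) m (g ω x))
      (f := fun ω => P ω x ^ 2 * phU g (fun ω x => P ω x ^ 2) m (g ω x))
      (g := fun ω => Q ω x ^ 2 * phU g (fun ω x => Q ω x ^ 2) m (g ω x))
      (fun ω _ => mul_nonneg (sq_nonneg _) (h1 _)) (fun ω _ => mul_nonneg (sq_nonneg _) (h2 _))
      (fun ω _ => by
        have := ih (g ω x)
        calc (P ω x * Q ω x * phU g (fun ω x => P ω x * Q ω x) m (g ω x)) ^ 2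
            = (P ω x ^ 2 * Q ω x ^ 2) * phU g (fun ω x => P ω x * Q ω x) m (g ω x) ^ 2 := by ring
          _ ≤ (P ω x ^ 2 * Q ω x ^ 2) * (phU g (fun ω x => P ω x ^ 2) m (g ω x) *
              phU g (fun ω x => Q ω x ^ 2) m (g ω x)) :=
              mul_le_mul_of_nonneg_left this (by positivity)
          _ = _ := by ring)
    simp only [phU]
    rw [div_pow, div_mul_div_comm, ← sq]
    exact div_le_div_of_nonneg_right key (by positivity)

theorem phU_pow_le {Ξ Ω : Type*} [Fintype Ω] [Nonempty Ω] (g : Ω → Ξ → Ξ) (f : Ω → Ξ → ℝ)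
    (hf : ∀ ω x, 0 ≤ f ω x) (D : ℝ) (hD0 : 0 ≤ D)
    (hD : ∀ x, (∑ ω, f ω x) / (Fintype.card Ω : ℝ) ≤ D) (m : ℕ) (x : Ξ) :
    phU g f m x ≤ D ^ m := by
  induction m generalizing x with
  | zero => simp [phU]
  | succ m ih =>
    simp only [phU]
    calc (∑ ω, f ω x * phU g f m (g ω x)) / (Fintype.card Ω : ℝ)
        ≤ (∑ ω, f ω x * D ^ m) / (Fintype.card Ω : ℝ) := by
          refine div_le_div_of_nonneg_right ?_ (Nat.cast_nonneg _)
          exact Finset.sum_le_sum fun ω _ => mul_le_mul_of_nonneg_left (ih _) (hf ω x)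
      _ = (∑ ω, f ω x) / (Fintype.card Ω : ℝ) * D ^ m := by
          rw [← Finset.sum_mul]; ring
      _ ≤ D * D ^ m := mul_le_mul_of_nonneg_right (hD x) (by positivity)
      _ = D ^ (m + 1) := by ring

/-- AM-GM for natural powers. -/
theorem ph_amgm {M : ℕ} (hM : 0 < M) (a : Fin M → ℝ) (ha : ∀ i, 0 ≤ a i) :
    (M : ℝ) * ∏ i, a i ≤ ∑ i, a i ^ M := by
  have hM' : (0 : ℝ) < M := by exact_mod_cast hM
  have h := Real.geom_mean_le_arith_mean_weighted Finset.univ (fun _ : Fin M => (M : ℝ)⁻¹)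
    (fun i => a i ^ M) (fun i _ => by positivity) (by
      rw [Finset.sum_const, Finset.card_univ, Fintype.card_fin, nsmul_eq_mul,
        mul_inv_cancel₀ hM'.ne']) (fun i _ => pow_nonneg (ha i) M)
  have h1 : ∏ i, (a i ^ M) ^ ((M : ℝ)⁻¹) = ∏ i, a i :=
    Finset.prod_congr rfl fun i _ => Real.pow_rpow_inv_natCast (ha i) hM.ne'
  rw [h1, ← Finset.mul_sum] at h
  calc (M : ℝ) * ∏ i, a i ≤ M * ((M : ℝ)⁻¹ * ∑ i, a i ^ M) := mul_le_mul_of_nonneg_left h hM'.le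
    _ = ∑ i, a i ^ M := by rw [← mul_assoc, mul_inv_cancel₀ hM'.ne', one_mul]

theorem phU_amgm {Ξ Ω : Type*} [Fintype Ω] [Nonempty Ω] (g : Ω → Ξ → Ξ) (f : Ω → Ξ → ℝ)
    (hf : ∀ ω x, 0 ≤ f ω x) {M : ℕ} (hM : 0 < M) (m : ℕ) :
    ∀ (k : ℕ), k + m = M → ∀ (a : Fin k → ℝ), (∀ i, 0 ≤ a i) → ∀ x : Ξ,
      (M : ℝ) * ((∏ i, a i) * phU g f m x) ≤
        ∑ i, a i ^ M + phV g (fun ω x => f ω x ^ M) m x := by
  induction m with
  | zero =>
    intro k hk a ha x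
    rw [add_zero] at hk
    subst hk
    simp only [phU, phV, mul_one, add_zero]
    exact ph_amgm hM a ha
  | succ m ih =>
    intro k hk a ha x
    have hN : (0 : ℝ) < Fintype.card Ω := by exact_mod_cast Fintype.card_pos
    have h1 : ∀ ω : Ω, (M : ℝ) * ((∏ i, a i) * (f ω x * phU g f m (g ω x))) ≤
        ∑ i, a i ^ M + (f ω x ^ M + phV g (fun ω x => f ω x ^ M) m (g ω x)) := by
      intro ω
      have h2 := ih (k + 1) (by omega) (Fin.cons (f ω x) a : Fin (k + 1) → ℝ)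
        (fun i => by
          refine Fin.cases ?_ ?_ i
          · simpa using hf ω x
          · intro j; simpa using ha j) (g ω x)
      rw [Fin.prod_univ_succ, Fin.sum_univ_succ] at h2
      simp only [Fin.cons_zero, Fin.cons_succ] at h2
      calc _ = (M : ℝ) * (f ω x * (∏ i, a i) * phU g f m (g ω x)) := by ring
        _ ≤ _ := h2
        _ = _ := by ring
    have h3 : ∑ ω : Ω, (M : ℝ) * ((∏ i, a i) * (f ω x * phU g f m (g ω x))) ≤
        ∑ ω : Ω, (∑ i, a i ^ M + (f ω x ^ M + phV g (fun ω x => f ω x ^ M) m (g ω x))) :=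
      Finset.sum_le_sum fun ω _ => h1 ω
    rw [Finset.sum_add_distrib, Finset.sum_const, Finset.card_univ, nsmul_eq_mul,
      ← Finset.mul_sum, ← Finset.mul_sum] at h3
    simp only [phU, phV]
    rw [← mul_div_assoc, ← mul_div_assoc, div_le_iff₀ hN]
    refine h3.trans (le_of_eq ?_)
    rw [add_mul, div_mul_cancel₀ _ hN.ne']
    ring

theorem phV_sum {Ξ Ω : Type*} [Fintype Ξ] [Fintype Ω] [Nonempty Ω] (g : Ω → Ξ → Ξ)
    (hg : ∀ ω, Function.Bijective (g ω)) (f : Ω → Ξ → ℝ) (m : ℕ) :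
    ∑ x, phV g f m x = m * ∑ x, (∑ ω, f ω x) / (Fintype.card Ω : ℝ) := by
  have hN : (0 : ℝ) < Fintype.card Ω := by exact_mod_cast Fintype.card_pos
  induction m with
  | zero => simp [phV]
  | succ m ih =>
    have h1 : ∑ x, phV g f (m + 1) x = ∑ x, (∑ ω, f ω x) / (Fintype.card Ω : ℝ) +
        (∑ x, ∑ ω, phV g f m (g ω x)) / (Fintype.card Ω : ℝ) := by
      simp only [phV]
      rw [Finset.sum_div, ← Finset.sum_add_distrib]
      refine Finset.sum_congr rfl fun x _ => ?_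
      rw [Finset.sum_add_distrib, add_div]
    have h2 : ∑ x, ∑ ω, phV g f m (g ω x) = (Fintype.card Ω : ℝ) * ∑ x, phV g f m x := by
      rw [Finset.sum_comm]
      have h3 : ∀ ω : Ω, ∑ x, phV g f m (g ω x) = ∑ x, phV g f m x := fun ω =>
        Function.Bijective.sum_comp (hg ω) (fun x => phV g f m x)
      rw [Finset.sum_congr rfl fun ω _ => h3 ω, Finset.sum_const, Finset.card_univ, nsmul_eq_mul]
    rw [h1, h2, mul_div_cancel_left₀ _ hN.ne', ih]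
    push_cast
    ring

theorem phU_sum_le {Ξ Ω : Type*} [Fintype Ξ] [Fintype Ω] [Nonempty Ω] (g : Ω → Ξ → Ξ)
    (hg : ∀ ω, Function.Bijective (g ω)) (f : Ω → Ξ → ℝ) (hf : ∀ ω x, 0 ≤ f ω x)
    {M : ℕ} (hM : 0 < M) :
    ∑ x, phU g f M x ≤ ∑ x, (∑ ω, f ω x ^ M) / (Fintype.card Ω : ℝ) := by
  have hM' : (0 : ℝ) < M := by exact_mod_cast hM
  have h1 : ∀ x : Ξ, (M : ℝ) * phU g f M x ≤ phV g (fun ω x => f ω x ^ M) M x := by
    intro x
    have := phU_amgm g f hf hM M 0 (by omega) (fun i => i.elim0) (fun i => i.elim0) x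
    simpa using this
  have h2 : (M : ℝ) * ∑ x, phU g f M x ≤
      M * ∑ x, (∑ ω, f ω x ^ M) / (Fintype.card Ω : ℝ) := by
    rw [← phV_sum g hg (fun ω x => f ω x ^ M) M, Finset.mul_sum]
    exact Finset.sum_le_sum fun x _ => h1 x
  exact le_of_mul_le_mul_left h2 hM'

/-- Cauchy–Schwarz between the factors `P` and `Q`, pointwise bound for `P`, Hölder over the passes
for `Q`. -/
theorem pass_holder {Ξ Ω : Type*} [Fintype Ξ] [DecidableEq Ξ] [Fintype Ω] [Nonempty Ω]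
    (g : Ω → Ξ → Ξ) (hg : ∀ ω, Function.Bijective (g ω)) (b : Matrix Ξ Ξ ℝ)
    (hb : ∀ x y, 0 ≤ b x y) (P Q : Ω → Ξ → ℝ) (hP : ∀ ω x, 0 ≤ P ω x) (hQ : ∀ ω x, 0 ≤ Q ω x)
    (D : ℝ) (M : ℕ) (hM : 0 < M)
    (hstar : ∀ F : Ξ → ℝ, (∀ z, 0 ≤ F z) → ∀ x,
      ∑ z, b x z * F z ≤ (∑ ω, P ω x * Q ω x * F (g ω x)) / (Fintype.card Ω : ℝ))
    (hD : ∀ x, (∑ ω, (P ω x) ^ 2) / (Fintype.card Ω : ℝ) ≤ D) :
    (∑ x, ∑ y, (b ^ M) x y) ^ 2 ≤
      D ^ M * (Fintype.card Ξ : ℝ) *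
        ∑ x, (∑ ω, (Q ω x) ^ (2 * M)) / (Fintype.card Ω : ℝ) := by
  rcases isEmpty_or_nonempty Ξ with hΞ | hΞ
  · simp
  obtain ⟨x0⟩ := hΞ
  have hD0 : 0 ≤ D := le_trans
    (div_nonneg (Finset.sum_nonneg fun ω _ => sq_nonneg _) (Nat.cast_nonneg _)) (hD x0)
  set u := phU g (fun ω x => P ω x * Q ω x) with hu
  have hu0 : ∀ m x, 0 ≤ u m x :=
    phU_nonneg g _ (fun ω x => mul_nonneg (hP ω x) (hQ ω x))
  -- powers of `b` applied to the constant function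
  have h1 : ∀ m x, 0 ≤ ∑ y, (b ^ m) x y ∧ ∑ y, (b ^ m) x y ≤ u m x := by
    intro m
    induction m with
    | zero =>
      intro x
      simp [hu, phU, Matrix.one_apply]
    | succ m ih =>
      intro x
      have e1 : ∑ y, (b ^ (m + 1)) x y = ∑ z, b x z * ∑ y, (b ^ m) z y := by
        rw [pow_succ']
        simp only [Matrix.mul_apply]
        rw [Finset.sum_comm]
        exact Finset.sum_congr rfl fun z _ => (Finset.mul_sum _ _ _).symm
      rw [e1]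
      refine ⟨Finset.sum_nonneg fun z _ => mul_nonneg (hb x z) (ih z).1, ?_⟩
      calc ∑ z, b x z * ∑ y, (b ^ m) z y ≤ ∑ z, b x z * u m z :=
            Finset.sum_le_sum fun z _ => mul_le_mul_of_nonneg_left (ih z).2 (hb x z)
        _ ≤ (∑ ω, P ω x * Q ω x * u m (g ω x)) / (Fintype.card Ω : ℝ) := hstar _ (hu0 m) x
        _ = u (m + 1) x := by simp only [hu, phU]
  have h2 : ∀ x, u M x ^ 2 ≤ D ^ M * phU g (fun ω x => Q ω x ^ 2) M x := by
    intro x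
    refine (phU_cauchy g P Q M x).trans ?_
    exact mul_le_mul_of_nonneg_right
      (phU_pow_le g _ (fun ω x => sq_nonneg _) D hD0 hD M x)
      (phU_nonneg g _ (fun ω x => sq_nonneg _) M x)
  have h3 := phU_sum_le g hg (fun ω x => Q ω x ^ 2) (fun ω x => sq_nonneg _) hM
  have h4 : ∀ (ω : Ω) (x : Ξ), (Q ω x ^ 2) ^ M = Q ω x ^ (2 * M) := fun ω x => (pow_mul _ _ _).symm
  simp only [h4] at h3
  calc (∑ x, ∑ y, (b ^ M) x y) ^ 2 ≤ (∑ x, u M x) ^ 2 :=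
        pow_le_pow_left₀ (Finset.sum_nonneg fun x _ => (h1 M x).1)
          (Finset.sum_le_sum fun x _ => (h1 M x).2) 2
    _ ≤ (Finset.univ : Finset Ξ).card * ∑ x, u M x ^ 2 := sq_sum_le_card_mul_sum_sq
    _ = (Fintype.card Ξ : ℝ) * ∑ x, u M x ^ 2 := by rw [Finset.card_univ]
    _ ≤ (Fintype.card Ξ : ℝ) * ∑ x, D ^ M * phU g (fun ω x => Q ω x ^ 2) M x :=
        mul_le_mul_of_nonneg_left (Finset.sum_le_sum fun x _ => h2 x) (Nat.cast_nonneg _)
    _ = D ^ M * (Fintype.card Ξ : ℝ) * ∑ x, phU g (fun ω x => Q ω x ^ 2) M x := by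
        rw [← Finset.mul_sum]; ring
    _ ≤ _ := mul_le_mul_of_nonneg_left h3 (by positivity)

end Vale.Agent.P162F
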