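import Vale.Agent.Lib.P162F.Kappa
import Vale.Agent.Lib.P162F.Avg

/-!
# P162F.Star: the inequality (★)
-/

namespace Vale.Agent.P162F

noncomputable section

variable {d k : ℕ}

theorem ker_nonneg (m j : ℕ) (x z : Fin k ↪ Cube d) : 0 ≤ ker m j x z := by
  induction m generalizing j x z with
  | zero =>
    rw [ker]
    split_ifs <;> norm_num
  | succ m ih =>
    rw [ker]
    exact div_nonneg (Finset.sum_nonneg fun s _ => Finset.sum_nonneg fun t _ => ih _ _ _)
      (sq_nonneg _)

/-- the kernel preserves the bits `< j` -/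
theorem bit_of_ker_ne_zero {p m j : ℕ} (hp : p < j) {x z : Fin k ↪ Cube d}
    (h : ker m j x z ≠ 0) (c : Fin k) : bit p (x c) = bit p (z c) := by
  induction m generalizing j x z with
  | zero =>
    rw [ker] at h
    by_cases hxz : x = z
    · rw [hxz]
    · rw [if_neg hxz] at h
      exact absurd rfl h
  | succ m ih =>
    rw [ker] at h
    have h1 : (∑ s : Coin d, ∑ t : Coin d, ker m (j + 1) (sw j s • x) (sw j t • z)) ≠ 0 := by
      intro h0
      rw [h0, zero_div] at h
      exact h rfl
    obtain ⟨s, -, hs⟩ := Finset.exists_ne_zero_of_sum_ne_zero h1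
    obtain ⟨t, -, ht⟩ := Finset.exists_ne_zero_of_sum_ne_zero hs
    have h2 := ih (show p < j + 1 by omega) ht
    rw [Function.Embedding.smul_apply, Function.Embedding.smul_apply] at h2
    simp only [Equiv.Perm.smul_def] at h2
    rwa [bit_sw_of_ne (by omega), bit_sw_of_ne (by omega)] at h2

private theorem star_mem_layers {b : Bool} {l m j : ℕ} (h : (b, l) ∈ layers m j) : j ≤ l := by
  induction m generalizing j with
  | zero => simp [layers] at h
  | succ m ih =>
    rw [layers, List.mem_cons, List.mem_cons] at h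
    rcases h with h | h | h
    · rw [Prod.mk.injEq] at h
      omega
    · rw [Prod.mk.injEq] at h
      omega
    · have := ih h
      omega

private theorem star_mk_smul (g : Equiv.Perm (Cube d)) (x : Fin k ↪ Cube d) :
    mk (g • x) = (mk x).map g.toEmbedding := by
  unfold mk
  rw [Finset.map_map]
  rfl

/-- the Hölder step -/
private theorem star_holder (θ : ℝ) (hθ : 0 ≤ θ) (m j : ℕ) (x z : Fin k ↪ Cube d) :
    ker (m + 1) j x z ^ (1 + θ) ≤
      ((((kapSet j x z).card : ℝ) / (Fintype.card (Coin d) : ℝ) ^ 2) ^ θ) *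
        ((∑ s : Coin d, ∑ t : Coin d,
          ker m (j + 1) (sw j s • x) (sw j t • z) ^ (1 + θ)) /
            (Fintype.card (Coin d) : ℝ) ^ 2) := by
  set N : ℝ := (Fintype.card (Coin d) : ℝ) with hN
  have hNpos : 0 < N := by
    rw [hN]
    exact_mod_cast Fintype.card_pos
  set K : Coin d × Coin d → ℝ := fun p => ker m (j + 1) (sw j p.1 • x) (sw j p.2 • z) with hK
  have hK0 : ∀ p, 0 ≤ K p := fun p => ker_nonneg _ _ _ _
  have hKz : ∀ p, p ∉ kapSet j x z → K p = 0 := by
    intro p hp
    by_contra hne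
    apply hp
    rw [kapSet, Finset.mem_filter]
    refine ⟨Finset.mem_univ _, fun c => ?_⟩
    have := bit_of_ker_ne_zero (show j < j + 1 by omega) hne c
    rwa [Function.Embedding.smul_apply, Function.Embedding.smul_apply] at this
  have e1 : ker (m + 1) j x z = (∑ p ∈ kapSet j x z, K p) / N ^ 2 := by
    rw [ker, ← Fintype.sum_prod_type' (fun s t => ker m (j + 1) (sw j s • x) (sw j t • z))]
    congr 1
    exact (Finset.sum_subset (Finset.subset_univ _) fun p _ hp => hKz p hp).symm
  have e2 : ∑ s : Coin d, ∑ t : Coin d, ker m (j + 1) (sw j s • x) (sw j t • z) ^ (1 + θ) =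
      ∑ p : Coin d × Coin d, K p ^ (1 + θ) := by
    rw [← Fintype.sum_prod_type' (fun s t => ker m (j + 1) (sw j s • x) (sw j t • z) ^ (1 + θ))]
  have h1 : (∑ p ∈ kapSet j x z, K p) ^ (1 + θ) ≤
      ((kapSet j x z).card : ℝ) ^ θ * ∑ p : Coin d × Coin d, K p ^ (1 + θ) := by
    have h2 := Real.rpow_sum_le_const_mul_sum_rpow_of_nonneg (kapSet j x z)
      (f := K) (p := 1 + θ) (by linarith) (fun p _ => hK0 p)
    rw [show 1 + θ - 1 = θ by ring] at h2
    refine h2.trans (mul_le_mul_of_nonneg_left ?_ (by positivity))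
    exact Finset.sum_le_sum_of_subset_of_nonneg (Finset.subset_univ _)
      fun p _ _ => Real.rpow_nonneg (hK0 p) _
  rw [e1, e2, Real.div_rpow (Finset.sum_nonneg fun p _ => hK0 p) (by positivity),
    Real.div_rpow (by positivity) (by positivity)]
  have h3 : (N ^ 2) ^ (1 + θ) = (N ^ 2) ^ θ * N ^ 2 := by
    rw [add_comm 1 θ, Real.rpow_add (by positivity), Real.rpow_one]
  rw [h3, div_mul_div_comm]
  gcongr

/-- (★), by downward induction on the level. -/
theorem star (θ : ℝ) (hθ : 0 ≤ θ) (m j : ℕ) (hj : j + m ≤ d) (x : Fin k ↪ Cube d)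
    (F : (Fin k ↪ Cube d) → ℝ) (hF : ∀ z, 0 ≤ F z) (ω : Cfg d) :
    ((2 : ℝ) ^ (θ * k * m)) * ∑ z, ker m j x z ^ (1 + θ) * F z ≤
      avL (layers m j)
        (fun ω => (2 : ℝ) ^ (ctot (fun _ => θ) m j ω (mk x)) * F (net m j ω • x)) ω := by
  induction m generalizing j x F ω with
  | zero =>
    have hne : (1 + θ) ≠ 0 := by linarith
    have h1 : ∀ z, ker 0 j x z ^ (1 + θ) * F z = if x = z then F z else 0 := by
      intro z
      rw [ker]
      split_ifs
      · rw [Real.one_rpow, one_mul]
      · rw [Real.zero_rpow hne, zero_mul]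
    simp only [h1, layers, avL_nil, ctot, net, one_smul, Nat.cast_zero, mul_zero, Real.rpow_zero,
      one_mul, Finset.sum_ite_eq, Finset.mem_univ, if_true]
    exact le_rfl
  | succ m ih =>
    set N : ℝ := (Fintype.card (Coin d) : ℝ) with hN
    have hNpos : 0 < N := by
      rw [hN]
      exact_mod_cast Fintype.card_pos
    have hjd : j < d := by omega
    -- the modified function
    set κ : (Fin k ↪ Cube d) → ℝ := fun z => ((kapSet j x z).card : ℝ) / N ^ 2 with hκ
    have hκ0 : ∀ z, 0 ≤ κ z := fun z => by simp only [hκ]; positivity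
    set F' : Coin d → (Fin k ↪ Cube d) → ℝ := fun t w =>
      ((2 : ℝ) ^ k * κ (sw j t • w)) ^ θ * F (sw j t • w) with hF'
    have hF'0 : ∀ t w, 0 ≤ F' t w := fun t w => by
      simp only [hF']
      exact mul_nonneg (Real.rpow_nonneg (mul_nonneg (by positivity) (hκ0 _)) _) (hF _)
    set Φ : Cfg d → ℝ := fun ω =>
      (2 : ℝ) ^ (ctot (fun _ => θ) (m + 1) j ω (mk x)) * F (net (m + 1) j ω • x) with hΦ
    -- the right-hand side
    have hR : avL (layers (m + 1) j) Φ ω = (∑ s : Coin d, ∑ t : Coin d,
        avL (layers m (j + 1)) Φ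
          (Function.update (Function.update ω (false, j) s) (true, j) t)) / N ^ 2 := by
      rw [layers, avL_cons, avL_cons]
      unfold av
      rw [← Finset.sum_div, div_div, sq]
    rw [hR, le_div_iff₀ (by positivity)]
    -- the left-hand side
    have hL : ((2 : ℝ) ^ (θ * k * (m + 1 : ℕ))) * (∑ z, ker (m + 1) j x z ^ (1 + θ) * F z) * N ^ 2
        ≤ ∑ s : Coin d, ∑ t : Coin d, ((2 : ℝ) ^ (θ * k * m)) *
          ∑ w, ker m (j + 1) (sw j s • x) w ^ (1 + θ) * F' t w := by
      have h1 : ∀ z, ker (m + 1) j x z ^ (1 + θ) * F z * N ^ 2 ≤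
          κ z ^ θ * F z * (∑ s : Coin d, ∑ t : Coin d,
            ker m (j + 1) (sw j s • x) (sw j t • z) ^ (1 + θ)) := by
        intro z
        have h2 := star_holder θ hθ m j x z
        rw [← hN] at h2
        calc ker (m + 1) j x z ^ (1 + θ) * F z * N ^ 2
            ≤ (κ z ^ θ * ((∑ s : Coin d, ∑ t : Coin d,
                ker m (j + 1) (sw j s • x) (sw j t • z) ^ (1 + θ)) / N ^ 2)) * F z * N ^ 2 := by
              gcongr
              exact hF z
          _ = _ := by
              field_simp
      have h3 : ((2 : ℝ) ^ (θ * k * (m + 1 : ℕ))) = (2 : ℝ) ^ (θ * k * m) * ((2 : ℝ) ^ k) ^ θ := by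
        rw [← Real.rpow_natCast 2 k, ← Real.rpow_mul (by norm_num), ← Real.rpow_add (by norm_num)]
        congr 1
        push_cast
        ring
      calc ((2 : ℝ) ^ (θ * k * (m + 1 : ℕ))) * (∑ z, ker (m + 1) j x z ^ (1 + θ) * F z) * N ^ 2
          = ((2 : ℝ) ^ (θ * k * (m + 1 : ℕ))) *
              ∑ z, ker (m + 1) j x z ^ (1 + θ) * F z * N ^ 2 := by
            rw [mul_assoc, Finset.sum_mul]
        _ ≤ ((2 : ℝ) ^ (θ * k * (m + 1 : ℕ))) * ∑ z, κ z ^ θ * F z * (∑ s : Coin d, ∑ t : Coin d,
            ker m (j + 1) (sw j s • x) (sw j t • z) ^ (1 + θ)) := by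
            exact mul_le_mul_of_nonneg_left (Finset.sum_le_sum fun z _ => h1 z) (by positivity)
        _ = (2 : ℝ) ^ (θ * k * m) * ∑ z, ∑ s : Coin d, ∑ t : Coin d,
            ker m (j + 1) (sw j s • x) (sw j t • z) ^ (1 + θ) *
              (((2 : ℝ) ^ k * κ z) ^ θ * F z) := by
            rw [h3, mul_assoc, Finset.mul_sum]
            congr 1
            refine Finset.sum_congr rfl fun z _ => ?_
            rw [Real.mul_rpow (by positivity) (hκ0 z), Finset.mul_sum, Finset.mul_sum]
            refine Finset.sum_congr rfl fun s _ => ?_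
            rw [Finset.mul_sum, Finset.mul_sum]
            refine Finset.sum_congr rfl fun t _ => ?_
            ring
        _ = (2 : ℝ) ^ (θ * k * m) * ∑ s : Coin d, ∑ t : Coin d, ∑ z,
            ker m (j + 1) (sw j s • x) (sw j t • z) ^ (1 + θ) *
              (((2 : ℝ) ^ k * κ z) ^ θ * F z) := by
            congr 1
            rw [Finset.sum_comm]
            exact Finset.sum_congr rfl fun s _ => Finset.sum_comm
        _ = ∑ s : Coin d, ∑ t : Coin d, ((2 : ℝ) ^ (θ * k * m)) *
          ∑ w, ker m (j + 1) (sw j s • x) w ^ (1 + θ) * F' t w := by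
            rw [Finset.mul_sum]
            refine Finset.sum_congr rfl fun s _ => ?_
            rw [Finset.mul_sum]
            refine Finset.sum_congr rfl fun t _ => ?_
            congr 1
            refine Fintype.sum_equiv (MulAction.toPerm (sw j t)) _ _ fun z => ?_
            simp only [MulAction.toPerm_apply, hF', ← mul_smul, sw_mul_self, one_smul]
        _ ≤ _ := le_rfl
    refine hL.trans ?_
    refine Finset.sum_le_sum fun s _ => Finset.sum_le_sum fun t _ => ?_
    set ω' := Function.update (Function.update ω (false, j) s) (true, j) t with hω'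
    refine (ih (j + 1) (by omega) (sw j s • x) (F' t) (hF'0 t) ω').trans ?_
    refine avL_mono_of_agree ω' fun ω'' hω'' => ?_
    have ht : ω'' (true, j) = t := by
      rw [hω'' _ fun h => absurd (star_mem_layers h) (by omega), hω', Function.update_self]
    have hs : ω'' (false, j) = s := by
      rw [hω'' _ fun h => absurd (star_mem_layers h) (by omega), hω',
        Function.update_of_ne (by simp), Function.update_self]
    simp only [hΦ, hF', ctot, net, ht, hs]
    have e3 : sw j t • net m (j + 1) ω'' • sw j s • x =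
        (sw j t * net m (j + 1) ω'' * sw j s) • x := by
      rw [mul_smul, mul_smul]
    rw [e3, star_mk_smul, Real.rpow_add (by norm_num), ← mul_assoc, mul_comm
      ((2 : ℝ) ^ (θ * (cc j (net m (j + 1) ω'') (mk x) : ℝ)))]
    refine mul_le_mul_of_nonneg_right ?_ (hF _)
    refine mul_le_mul_of_nonneg_left ?_ (by positivity)
    have h4 := kappa_bound hjd (net m (j + 1) ω'') (fun ξ => bit_net_of_lt m (j + 1) ω'' ξ
      (by omega)) s t x
    have h5 := Real.rpow_le_rpow (mul_nonneg (by positivity) (hκ0 _)) h4 hθ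
    refine h5.trans (le_of_eq ?_)
    rw [← Real.rpow_natCast 2 (cc j (net m (j + 1) ω'') (mk x)), ← Real.rpow_mul (by norm_num),
      mul_comm θ]

end

end Vale.Agent.P162F
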