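import Mathlib

/-!
# P162F.TraceHolder: the trace of a power of a nonnegative matrix
-/

namespace Vale.Agent.P162F

open Finset

/-- Path expansion of a matrix power. -/
theorem thPath {Ξ : Type*} [Fintype Ξ] [DecidableEq Ξ] (b : Matrix Ξ Ξ ℝ) (M : ℕ) :
    ∀ G : Ξ → Ξ → ℝ, ∑ x, ∑ y, (b ^ M) x y * G x y =
      ∑ p : Fin (M + 1) → Ξ, (∏ i : Fin M, b (p i.castSucc) (p i.succ)) *
        G (p 0) (p (Fin.last M)) := by
  induction M with
  | zero =>
    intro G
    have h1 : ∀ x, ∑ y, (b ^ 0) x y * G x y = G x x := by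
      intro x
      rw [pow_zero, Finset.sum_eq_single x]
      · rw [Matrix.one_apply_eq, one_mul]
      · intro y _ hy
        rw [Matrix.one_apply_ne (Ne.symm hy), zero_mul]
      · intro h
        exact absurd (Finset.mem_univ x) h
    simp_rw [h1]
    rw [← Equiv.sum_comp (Equiv.funUnique (Fin 1) Ξ) (fun x => G x x)]
    refine Finset.sum_congr rfl fun p _ => ?_
    simp
  | succ M ih =>
    intro G
    have h1 : ∀ x y, (b ^ (M + 1)) x y * G x y = ∑ z, (b ^ M) z y * (b x z * G x y) := by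
      intro x y
      rw [pow_succ', Matrix.mul_apply, Finset.sum_mul]
      refine Finset.sum_congr rfl fun z _ => ?_
      ring
    simp_rw [h1]
    have h2 : ∀ x, ∑ y, ∑ z, (b ^ M) z y * (b x z * G x y) =
        ∑ q : Fin (M + 1) → Ξ, (∏ i : Fin M, b (q i.castSucc) (q i.succ)) *
          (b x (q 0) * G x (q (Fin.last M))) := by
      intro x
      rw [Finset.sum_comm]
      exact ih (fun z y => b x z * G x y)
    simp_rw [h2]
    rw [← (Fin.consEquiv (fun _ : Fin (M + 2) => Ξ)).sum_comp, Fintype.sum_prod_type]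
    refine Finset.sum_congr rfl fun x _ => Finset.sum_congr rfl fun q _ => ?_
    rw [Fin.prod_univ_succ]
    have e0 : (Fin.consEquiv (fun _ : Fin (M + 2) => Ξ)) (x, q) 0 = x := rfl
    have e1 : ∀ i : Fin (M + 1), (Fin.consEquiv (fun _ : Fin (M + 2) => Ξ)) (x, q) i.succ = q i :=
      fun i => rfl
    have e2 : (Fin.consEquiv (fun _ : Fin (M + 2) => Ξ)) (x, q) (Fin.last (M + 1)) =
        q (Fin.last M) := by
      rw [← Fin.succ_last]
      exact e1 _
    have e3 : ∀ i : Fin M, (Fin.consEquiv (fun _ : Fin (M + 2) => Ξ)) (x, q) i.succ.castSucc =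
        q i.castSucc := by
      intro i
      rw [← Fin.succ_castSucc]
      exact e1 _
    simp only [Fin.castSucc_zero, e0, e1, e2, e3]
    ring

/-- The product over the edges of the closed path. -/
theorem thCycle {Ξ : Type*} (M : ℕ) (g : Ξ → Ξ → ℝ) (p : Fin (M + 1) → Ξ) :
    ∏ i : Fin (M + 1), g (p i) (p (i + 1)) =
      (∏ i : Fin M, g (p i.castSucc) (p i.succ)) * g (p (Fin.last M)) (p 0) := by
  rw [Fin.prod_univ_castSucc, Fin.last_add_one]
  congr 1
  refine Finset.prod_congr rfl fun i _ => ?_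
  rw [Fin.coeSucc_eq_succ]

/-- All edges but the last one. -/
theorem thErase {Ξ : Type*} (M : ℕ) (g : Ξ → Ξ → ℝ) (p : Fin (M + 1) → Ξ) :
    ∏ i ∈ univ.erase (Fin.last M), g (p i) (p (i + 1)) =
      ∏ i : Fin M, g (p i.castSucc) (p i.succ) := by
  have h1 : (univ : Finset (Fin (M + 1))).erase (Fin.last M) =
      (univ : Finset (Fin M)).map Fin.castSuccEmb := by
    ext i
    simp only [mem_erase, mem_univ, and_true, mem_map, true_and, Fin.coe_castSuccEmb]
    constructor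
    · intro h
      exact ⟨i.castPred h, Fin.castSucc_castPred i h⟩
    · rintro ⟨j, rfl⟩
      exact (Fin.castSucc_lt_last j).ne
  rw [h1, Finset.prod_map]
  refine Finset.prod_congr rfl fun i _ => ?_
  rw [Fin.coe_castSuccEmb, Fin.coeSucc_eq_succ]

/-- Rotation of the path. -/
theorem thRot {Ξ : Type*} [Fintype Ξ] (M : ℕ) (g : Ξ → Ξ → ℝ) (i0 : Fin (M + 1)) :
    ∑ p : Fin (M + 1) → Ξ, ∏ i ∈ univ.erase i0, g (p i) (p (i + 1)) =
      ∑ p : Fin (M + 1) → Ξ, ∏ i ∈ univ.erase (Fin.last M), g (p i) (p (i + 1)) := by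
  classical
  set r : Fin (M + 1) := Fin.last M - i0 with hr
  have h0 : i0 + r = Fin.last M := by rw [hr]; abel
  rw [← (Equiv.arrowCongr (Equiv.addRight r).symm (Equiv.refl Ξ)).sum_comp]
  refine Finset.sum_congr rfl fun p _ => ?_
  have e1 : ∀ i, (Equiv.arrowCongr (Equiv.addRight r).symm (Equiv.refl Ξ)) p i = p (i + r) := by
    intro i
    simp [Equiv.arrowCongr_apply]
  simp only [e1]
  rw [← h0]
  refine Finset.prod_bij' (fun i _ => i + r) (fun i _ => i - r) ?_ ?_ ?_ ?_ ?_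
  · intro i hi
    rw [mem_erase] at hi ⊢
    exact ⟨fun h => hi.1 (add_right_cancel h), mem_univ _⟩
  · intro i hi
    rw [mem_erase] at hi ⊢
    exact ⟨fun h => hi.1 (by rw [← h]; abel), mem_univ _⟩
  · intro i _
    abel
  · intro i _
    abel
  · intro i _
    rw [show i + 1 + r = i + r + 1 by abel]

/-- AM-GM on one path. -/
theorem thAmgm (M : ℕ) (hM : 0 < M) (e : Fin (M + 1) → ℝ) (he : ∀ i, 0 ≤ e i) :
    ∏ i, e i ≤ ∑ i0 : Fin (M + 1), ((M : ℝ) + 1)⁻¹ *
      ∏ i ∈ univ.erase i0, (e i) ^ (1 + 1 / (M : ℝ)) := by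
  have hM0 : (0 : ℝ) < M := by exact_mod_cast hM
  set F : Fin (M + 1) → ℝ := fun i0 => ∏ i ∈ univ.erase i0, (e i) ^ (1 + 1 / (M : ℝ)) with hF
  have hF0 : ∀ i, 0 ≤ F i := fun i => Finset.prod_nonneg fun j _ => Real.rpow_nonneg (he j) _
  have h1 := Real.geom_mean_le_arith_mean_weighted (univ : Finset (Fin (M + 1)))
    (fun _ => ((M : ℝ) + 1)⁻¹) F (fun i _ => by positivity) (by
      rw [Finset.sum_const, Finset.card_univ, Fintype.card_fin, nsmul_eq_mul]
      push_cast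
      exact mul_inv_cancel₀ (by positivity)) (fun i _ => hF0 i)
  refine le_trans (le_of_eq ?_) h1
  have h2 : ∏ i0, F i0 = (∏ i, e i) ^ (M + 1) := by
    rw [hF]
    have h3 : ∏ i0 : Fin (M + 1), ∏ i ∈ univ.erase i0, (e i) ^ (1 + 1 / (M : ℝ)) =
        ∏ i : Fin (M + 1), ∏ _i0 ∈ univ.erase i, (e i) ^ (1 + 1 / (M : ℝ)) := by
      apply Finset.prod_comm'
      intro x y
      simp only [mem_univ, mem_erase, and_true, true_and]
      exact ⟨fun h => h.symm, fun h => h.symm⟩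
    rw [h3, ← Finset.prod_pow]
    refine Finset.prod_congr rfl fun i _ => ?_
    rw [Finset.prod_const, Finset.card_erase_of_mem (mem_univ i), Finset.card_univ,
      Fintype.card_fin, Nat.add_sub_cancel, ← Real.rpow_natCast, ← Real.rpow_mul (he i),
      ← Real.rpow_natCast]
    congr 1
    push_cast
    field_simp
  rw [Real.finsetProd_rpow _ _ (fun i _ => hF0 i), h2, ← Real.rpow_natCast,
    ← Real.rpow_mul (Finset.prod_nonneg fun i _ => he i)]
  have h4 : (((M + 1 : ℕ) : ℝ)) * ((M : ℝ) + 1)⁻¹ = 1 := by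
    push_cast
    exact mul_inv_cancel₀ (by positivity)
  rw [h4, Real.rpow_one]

/-- `tr (a ^ (M + 1)) ≤ sum of the entries of b ^ M`, `b x y = (a x y) ^ (1 + 1 / M)`:
arithmetic-geometric mean over the rotations of a closed path. -/
theorem trace_holder {Ξ : Type*} [Fintype Ξ] [DecidableEq Ξ] (a : Matrix Ξ Ξ ℝ)
    (ha : ∀ x y, 0 ≤ a x y) (M : ℕ) (hM : 0 < M) :
    (a ^ (M + 1)).trace ≤
      ∑ x, ∑ y, ((Matrix.of fun x y => (a x y) ^ (1 + 1 / (M : ℝ))) ^ M) x y := by
  set b : Matrix Ξ Ξ ℝ := Matrix.of fun x y => (a x y) ^ (1 + 1 / (M : ℝ)) with hb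
  have h1 : (a ^ (M + 1)).trace =
      ∑ p : Fin (M + 1) → Ξ, ∏ i : Fin (M + 1), a (p i) (p (i + 1)) := by
    have e1 : (a ^ (M + 1)).trace = ∑ x, ∑ y, (a ^ M) x y * a y x := by
      rw [pow_succ]
      simp only [Matrix.trace, Matrix.diag_apply, Matrix.mul_apply]
    rw [e1, thPath a M (fun x y => a y x)]
    exact Finset.sum_congr rfl fun p _ => (thCycle M a p).symm
  have h2 : ∑ x, ∑ y, (b ^ M) x y =
      ∑ p : Fin (M + 1) → Ξ, ∏ i ∈ univ.erase (Fin.last M), b (p i) (p (i + 1)) := by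
    have e1 := thPath b M (fun _ _ => 1)
    simp only [mul_one] at e1
    rw [e1]
    exact Finset.sum_congr rfl fun p _ => (thErase M b p).symm
  rw [h1, h2]
  have hM1 : (0 : ℝ) < (M : ℝ) + 1 := by positivity
  calc ∑ p : Fin (M + 1) → Ξ, ∏ i : Fin (M + 1), a (p i) (p (i + 1))
      ≤ ∑ p : Fin (M + 1) → Ξ, ∑ i0 : Fin (M + 1), ((M : ℝ) + 1)⁻¹ *
          ∏ i ∈ univ.erase i0, b (p i) (p (i + 1)) :=
        Finset.sum_le_sum fun p _ =>
          thAmgm M hM (fun i => a (p i) (p (i + 1))) (fun i => ha _ _)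
    _ = ∑ i0 : Fin (M + 1), ((M : ℝ) + 1)⁻¹ *
          ∑ p : Fin (M + 1) → Ξ, ∏ i ∈ univ.erase i0, b (p i) (p (i + 1)) := by
        rw [Finset.sum_comm]
        refine Finset.sum_congr rfl fun i0 _ => ?_
        rw [Finset.mul_sum]
    _ = ∑ _i0 : Fin (M + 1), ((M : ℝ) + 1)⁻¹ *
          ∑ p : Fin (M + 1) → Ξ, ∏ i ∈ univ.erase (Fin.last M), b (p i) (p (i + 1)) := by
        refine Finset.sum_congr rfl fun i0 _ => ?_
        rw [thRot M b i0]
    _ = _ := by
        rw [Finset.sum_const, Finset.card_univ, Fintype.card_fin, nsmul_eq_mul, ← mul_assoc]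
        push_cast
        rw [mul_inv_cancel₀ hM1.ne', one_mul]

end Vale.Agent.P162F
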