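import Vale.Agent.Lib.P162F.Star
import Vale.Agent.Lib.P162F.Outer
import Vale.Agent.Lib.P162F.Inner
import Vale.Agent.Lib.P162F.TraceHolder
import Vale.Agent.Lib.P162F.PassHolder

/-!
# P162F.TraceBound: the trace of the kernel on `k` cards
-/

namespace Vale.Agent.P162F

noncomputable section

theorem traceB_ctot_add {d : ℕ} (v w : ℕ → ℝ) (m j : ℕ) (ω : Cfg d) (X : Finset (Cube d)) :
    ctot (fun l => v l + w l) m j ω X = ctot v m j ω X + ctot w m j ω X := by
  induction m generalizing j X with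
  | zero => simp [ctot]
  | succ m ih => rw [ctot, ctot, ctot, ih]; ring

theorem traceB_ctot_smul {d : ℕ} (a : ℝ) (v : ℕ → ℝ) (m j : ℕ) (ω : Cfg d)
    (X : Finset (Cube d)) :
    ctot (fun l => a * v l) m j ω X = a * ctot v m j ω X := by
  induction m generalizing j X with
  | zero => simp [ctot]
  | succ m ih => rw [ctot, ctot, ih]; ring

theorem traceB_rpow_pow (a : ℝ) (n : ℕ) : ((2 : ℝ) ^ a) ^ n = (2 : ℝ) ^ (a * n) := by
  rw [← Real.rpow_natCast, ← Real.rpow_mul (by norm_num)]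

/-- the trace bound for a general power -/
theorem trace_bound_aux (d k q M : ℕ) (hq : 1 ≤ q) (hM : 256 ≤ M) :
    ((kerM d k) ^ (M + 1)).trace ≤
      Real.exp (128 * k / 2 ^ q + (2 : ℝ) ^ (128 * q) * (k * (k / 2 ^ d)) / 4) := by
  have hM0 : 0 < M := by omega
  have hMR : (0 : ℝ) < M := by exact_mod_cast hM0
  set θ : ℝ := 1 / (M : ℝ) with hθ
  have hθ0 : 0 ≤ θ := by positivity
  have hθ1 : 256 * θ ≤ 1 := by
    rw [hθ, mul_one_div, div_le_one hMR]
    exact_mod_cast hM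
  have hθM : θ * M = 1 := by
    rw [hθ]
    field_simp
  let ω₀ : Cfg d := fun _ _ => false
  obtain ⟨N, pt, hN, hav⟩ := avL_rep (layers d 0) ω₀
  have hNR : (0 : ℝ) < N := by exact_mod_cast hN
  have hne : Nonempty (Fin N) := ⟨⟨0, hN⟩⟩
  set vo : ℕ → ℝ := fun l => if q ≤ (d - l - 1) / 64 then θ else 0 with hvo
  set vi : ℕ → ℝ := fun l => if q ≤ (d - l - 1) / 64 then 0 else 1 with hvi
  set b₀ : Matrix (Fin k ↪ Cube d) (Fin k ↪ Cube d) ℝ :=
    Matrix.of fun x y => (kerM d k x y) ^ (1 + 1 / (M : ℝ)) with hb₀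
  set c : ℝ := (2 : ℝ) ^ (θ * k * d) with hc
  have hc0 : 0 < c := Real.rpow_pos_of_pos two_pos _
  set P : Fin N → (Fin k ↪ Cube d) → ℝ :=
    fun i x => (2 : ℝ) ^ (ctot vo d 0 (pt i) (mk x)) with hP
  set Q : Fin N → (Fin k ↪ Cube d) → ℝ :=
    fun i x => (2 : ℝ) ^ (θ * ctot vi d 0 (pt i) (mk x)) with hQ
  set E : ℝ := (2 : ℝ) ^ (128 * q) * (k * (k / 2 ^ d)) with hE
  have hE0 : 0 ≤ E := by positivity
  have hPQ : ∀ i x, P i x * Q i x = (2 : ℝ) ^ (ctot (fun _ => θ) d 0 (pt i) (mk x)) := by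
    intro i x
    rw [hP, hQ]
    simp only
    rw [← Real.rpow_add two_pos, ← traceB_ctot_smul, ← traceB_ctot_add]
    congr 2
    funext l
    rw [hvo, hvi]
    simp only
    split_ifs <;> ring
  have hstar : ∀ F : (Fin k ↪ Cube d) → ℝ, (∀ z, 0 ≤ F z) → ∀ x,
      ∑ z, (c • b₀) x z * F z ≤
        (∑ i, P i x * Q i x * F (net d 0 (pt i) • x)) / (Fintype.card (Fin N) : ℝ) := by
    intro F hF x
    have h := star θ hθ0 d 0 (by omega) x F hF ω₀
    rw [hav] at h
    rw [Fintype.card_fin]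
    have e1 : ∑ z, (c • b₀) x z * F z = c * ∑ z, ker d 0 x z ^ (1 + θ) * F z := by
      rw [Finset.mul_sum]
      refine Finset.sum_congr rfl fun z _ => ?_
      rw [Matrix.smul_apply, smul_eq_mul, mul_assoc]
      rfl
    rw [e1]
    refine h.trans (le_of_eq ?_)
    congr 1
    refine Finset.sum_congr rfl fun i _ => ?_
    rw [hPQ]
  have hD : ∀ x, (∑ i, (P i x) ^ 2) / (Fintype.card (Fin N) : ℝ) ≤
      Real.exp (256 * θ * k / 2 ^ q) := by
    intro x
    have h := outer_bound q hq θ hθ0 hθ1 (mk x) ω₀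
    rw [hav] at h
    have hk : (mk x).card = k := by rw [mk, Finset.card_map, Finset.card_univ, Fintype.card_fin]
    rw [hk] at h
    rw [Fintype.card_fin]
    refine le_trans (le_of_eq ?_) h
    congr 1
    refine Finset.sum_congr rfl fun i _ => ?_
    rw [hP]
    simp only
    rw [traceB_rpow_pow]
    congr 1
    rw [hvo]
    push_cast
    ring
  have hQsum : ∑ x, (∑ i, (Q i x) ^ (2 * M)) / (Fintype.card (Fin N) : ℝ) ≤
      (Fintype.card (Fin k ↪ Cube d) : ℝ) * Real.exp (E / 2) := by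
    have h := inner_bound (k := k) q hq ω₀
    refine le_trans (le_of_eq ?_) h
    refine Finset.sum_congr rfl fun x _ => ?_
    rw [hav, Fintype.card_fin]
    congr 1
    refine Finset.sum_congr rfl fun i _ => ?_
    rw [hQ]
    simp only
    rw [traceB_rpow_pow]
    congr 1
    push_cast
    rw [hvi]
    calc θ * ctot (fun l => if q ≤ (d - l - 1) / 64 then 0 else 1) d 0 (pt i) (mk x) * (2 * M)
        = (θ * M) * (2 * ctot (fun l => if q ≤ (d - l - 1) / 64 then 0 else 1) d 0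
            (pt i) (mk x)) := by ring
      _ = _ := by rw [hθM, one_mul]
  have hb : ∀ x y, 0 ≤ (c • b₀) x y := by
    intro x y
    rw [Matrix.smul_apply, smul_eq_mul]
    exact mul_nonneg hc0.le (Real.rpow_nonneg (ker_nonneg d 0 x y) _)
  have hpass := pass_holder (fun i x => net d 0 (pt i) • x)
    (fun i => MulAction.bijective (net d 0 (pt i))) (c • b₀) hb P Q
    (fun i x => Real.rpow_nonneg two_pos.le _) (fun i x => Real.rpow_nonneg two_pos.le _)
    (Real.exp (256 * θ * k / 2 ^ q)) M hM0 hstar hD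
  -- cardinality
  have hcard : (Fintype.card (Fin k ↪ Cube d) : ℝ) ≤ ((2 : ℝ) ^ d) ^ k := by
    have h1 : Fintype.card (Fin k ↪ Cube d) ≤ (2 ^ d) ^ k := by
      rw [Fintype.card_embedding_eq, Fintype.card_fin]
      refine (Nat.descFactorial_le_pow _ _).trans (le_of_eq ?_)
      congr 1
      simp
    exact_mod_cast h1
  have hcard0 : (0 : ℝ) ≤ (Fintype.card (Fin k ↪ Cube d) : ℝ) := Nat.cast_nonneg _
  set Cd : ℝ := ((2 : ℝ) ^ d) ^ k with hCd
  have hCd0 : 0 < Cd := by positivity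
  have hDM : Real.exp (256 * θ * k / 2 ^ q) ^ M = Real.exp (256 * k / 2 ^ q) := by
    rw [← Real.exp_nat_mul]
    congr 1
    calc (M : ℝ) * (256 * θ * k / 2 ^ q) = (θ * M) * (256 * k / 2 ^ q) := by ring
      _ = _ := by rw [hθM, one_mul]
  have hsq : (∑ x, ∑ y, ((c • b₀) ^ M) x y) ^ 2 ≤
      (Real.exp (128 * k / 2 ^ q + E / 4) * Cd) ^ 2 := by
    refine hpass.trans ?_
    rw [hDM]
    calc Real.exp (256 * k / 2 ^ q) * (Fintype.card (Fin k ↪ Cube d) : ℝ) *
          ∑ x, (∑ i, (Q i x) ^ (2 * M)) / (Fintype.card (Fin N) : ℝ)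
        ≤ Real.exp (256 * k / 2 ^ q) * Cd * (Cd * Real.exp (E / 2)) := by
          have h2 : (Fintype.card (Fin k ↪ Cube d) : ℝ) * Real.exp (E / 2) ≤
              Cd * Real.exp (E / 2) := by gcongr
          have h3 := hQsum.trans h2
          have h4 : 0 ≤ ∑ x, (∑ i, (Q i x) ^ (2 * M)) / (Fintype.card (Fin N) : ℝ) := by
            refine Finset.sum_nonneg fun x _ => div_nonneg (Finset.sum_nonneg fun i _ => ?_)
              (Nat.cast_nonneg _)
            exact pow_nonneg (Real.rpow_nonneg two_pos.le _) _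
          gcongr
      _ = (Real.exp (128 * k / 2 ^ q + E / 4) * Cd) ^ 2 := by
          rw [mul_pow, ← Real.exp_nat_mul]
          have h5 : ((2 : ℕ) : ℝ) * (128 * k / 2 ^ q + E / 4) = 256 * k / 2 ^ q + E / 2 := by
            push_cast
            ring
          rw [h5, Real.exp_add]
          ring
  have hle : ∑ x, ∑ y, ((c • b₀) ^ M) x y ≤ Real.exp (128 * k / 2 ^ q + E / 4) * Cd :=
    le_of_sq_le_sq hsq (by positivity)
  have hcM : c ^ M = Cd := by
    rw [hc, hCd, traceB_rpow_pow]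
    have h6 : θ * k * d * (M : ℝ) = ((d * k : ℕ) : ℝ) := by
      push_cast
      calc θ * k * d * (M : ℝ) = (θ * M) * (d * k) := by ring
        _ = _ := by rw [hθM, one_mul]
    rw [h6, Real.rpow_natCast, pow_mul]
  have hsmul : ∑ x, ∑ y, ((c • b₀) ^ M) x y = Cd * ∑ x, ∑ y, (b₀ ^ M) x y := by
    rw [smul_pow, hcM, Finset.mul_sum]
    refine Finset.sum_congr rfl fun x _ => ?_
    rw [Finset.mul_sum]
    refine Finset.sum_congr rfl fun y _ => ?_
    rw [Matrix.smul_apply, smul_eq_mul]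
  rw [hsmul, mul_comm] at hle
  have htr := trace_holder (kerM d k) (fun x y => ker_nonneg d 0 x y) M hM0
  exact htr.trans (le_of_mul_le_mul_right hle hCd0)

/-- the main trace bound -/
theorem trace_bound (d k q : ℕ) (hq : 1 ≤ q) :
    ((kerM d k) ^ 512).trace ≤
      Real.exp (128 * k / 2 ^ q + (2 : ℝ) ^ (128 * q) * (k * (k / 2 ^ d))) := by
  have h := trace_bound_aux d k q 511 hq (by norm_num)
  have h1 : (511 + 1 : ℕ) = 512 := rfl
  rw [h1] at h
  refine h.trans ?_
  apply Real.exp_le_exp.mpr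
  have hE0 : 0 ≤ (2 : ℝ) ^ (128 * q) * (k * (k / 2 ^ d)) := by positivity
  generalize (2 : ℝ) ^ (128 * q) * (k * (k / 2 ^ d)) = E at hE0 ⊢
  linarith

end

end Vale.Agent.P162F
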